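import Mathlib
import Crest.Prelude.Def_CopyThreshold

/-!
# Row 52, S0073: product Bernoulli weights, expectations, independence
-/

set_option autoImplicit false
set_option linter.unusedSectionVars false

open Finset
open Crest.FinProb

namespace Crest.Agent.R052.Seq

section Prob

variable {ι : Type*} [Fintype ι] [DecidableEq ι]

/-- expectation of `f` under independent coins of bias `p` -/
noncomputable def Ex (p : ℝ) (f : (ι → Bool) → ℝ) : ℝ := ∑ ω, bernoulliWeight p ω * f ω

open Classical in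
/-- indicator of a predicate -/
noncomputable def ind (A : (ι → Bool) → Prop) (ω : ι → Bool) : ℝ := if A ω then 1 else 0

/-- probability of a predicate -/
noncomputable def Pr (p : ℝ) (A : (ι → Bool) → Prop) : ℝ := Ex p (ind A)

theorem weight_nonneg {p : ℝ} (h0 : 0 ≤ p) (h1 : p ≤ 1) (ω : ι → Bool) :
    0 ≤ bernoulliWeight p ω := by
  unfold bernoulliWeight
  exact Finset.prod_nonneg fun i _ => by split_ifs <;> linarith

theorem sum_weight (p : ℝ) : ∑ ω : ι → Bool, bernoulliWeight p ω = 1 := by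
  unfold bernoulliWeight
  have h := Finset.prod_univ_sum (fun _ : ι => (Finset.univ : Finset Bool))
    (fun _ b => if b then p else 1 - p)
  rw [Fintype.piFinset_univ] at h
  rw [← h]
  simp

theorem bernoulliProb_eq (p : ℝ) (A : (ι → Bool) → Prop) :
    bernoulliProb p {ω | A ω} = Pr p A := by
  classical
  unfold bernoulliProb Pr Ex ind
  rw [Finset.sum_filter]
  refine Finset.sum_congr rfl fun ω _ => ?_
  by_cases h : A ω <;> simp [h]


theorem Ex_sub (p : ℝ) (f g : (ι → Bool) → ℝ) :
    Ex p (fun ω => f ω - g ω) = Ex p f - Ex p g := by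
  unfold Ex
  rw [← Finset.sum_sub_distrib]
  exact Finset.sum_congr rfl fun ω _ => by ring

theorem Ex_const (p : ℝ) (c : ℝ) : Ex (ι := ι) p (fun _ => c) = c := by
  unfold Ex
  rw [← Finset.sum_mul, sum_weight, one_mul]


theorem Ex_sum {κ : Type*} (p : ℝ) (K : Finset κ) (f : κ → (ι → Bool) → ℝ) :
    Ex p (fun ω => ∑ k ∈ K, f k ω) = ∑ k ∈ K, Ex p (f k) := by
  unfold Ex
  rw [Finset.sum_comm]
  exact Finset.sum_congr rfl fun ω _ => by rw [Finset.mul_sum]

theorem Ex_mono {p : ℝ} (h0 : 0 ≤ p) (h1 : p ≤ 1) {f g : (ι → Bool) → ℝ} (h : ∀ ω, f ω ≤ g ω) :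
    Ex p f ≤ Ex p g :=
  Finset.sum_le_sum fun ω _ => mul_le_mul_of_nonneg_left (h ω) (weight_nonneg h0 h1 ω)

theorem ind_nonneg (A : (ι → Bool) → Prop) (ω : ι → Bool) : 0 ≤ ind A ω := by
  unfold ind; split_ifs <;> norm_num


theorem ind_mono {A B : (ι → Bool) → Prop} (ω : ι → Bool) (h : A ω → B ω) :
    ind A ω ≤ ind B ω := by
  unfold ind
  by_cases hA : A ω
  · simp [hA, h hA]
  · simp only [hA, if_false]; split_ifs <;> norm_num

theorem Pr_nonneg {p : ℝ} (h0 : 0 ≤ p) (h1 : p ≤ 1) (A : (ι → Bool) → Prop) : 0 ≤ Pr p A :=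
  Finset.sum_nonneg fun ω _ => mul_nonneg (weight_nonneg h0 h1 ω) (ind_nonneg A ω)


theorem Pr_mono {p : ℝ} (h0 : 0 ≤ p) (h1 : p ≤ 1) {A B : (ι → Bool) → Prop}
    (h : ∀ ω, A ω → B ω) : Pr p A ≤ Pr p B :=
  Ex_mono h0 h1 fun ω => ind_mono ω (h ω)

theorem Pr_true (p : ℝ) : Pr (ι := ι) p (fun _ => True) = 1 := by
  have : ind (ι := ι) (fun _ => True) = fun _ => 1 := by funext ω; simp [ind]
  rw [Pr, this, Ex_const]

theorem Pr_not (p : ℝ) (A : (ι → Bool) → Prop) : Pr p (fun ω => ¬ A ω) = 1 - Pr p A := by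
  have : ind (ι := ι) (fun ω => ¬ A ω) = fun ω => 1 - ind A ω := by
    funext ω; unfold ind; by_cases h : A ω <;> simp [h]
  rw [Pr, this, Ex_sub, Ex_const, Pr]

/-- product rule for functions depending on disjoint sets of coins -/
theorem Ex_mul (p : ℝ) (s : ι → Prop) [DecidablePred s] (f g : (ι → Bool) → ℝ)
    (hf : ∀ ω ω', (∀ i, s i → ω i = ω' i) → f ω = f ω')
    (hg : ∀ ω ω', (∀ i, ¬ s i → ω i = ω' i) → g ω = g ω') :
    Ex p (fun ω => f ω * g ω) = Ex p f * Ex p g := by
  classical
  let e := Equiv.piEquivPiSubtypeProd s (fun _ : ι => Bool)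
  have hw : ∀ ab : ({x // s x} → Bool) × ({x // ¬ s x} → Bool),
      bernoulliWeight p (e.symm ab) = bernoulliWeight p ab.1 * bernoulliWeight p ab.2 := by
    intro ab
    unfold bernoulliWeight
    rw [← Fintype.prod_subtype_mul_prod_subtype s]
    congr 1
    · refine Finset.prod_congr rfl fun i _ => ?_
      have : e.symm ab i.1 = ab.1 i := by
        simp only [e, Equiv.piEquivPiSubtypeProd_symm_apply, i.2, dif_pos]
      rw [this]
    · refine Finset.prod_congr rfl fun i _ => ?_
      have : e.symm ab i.1 = ab.2 i := by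
        simp only [e, Equiv.piEquivPiSubtypeProd_symm_apply, i.2, dif_neg, not_false_eq_true]
      rw [this]
  have hs : ∀ (ab : ({x // s x} → Bool) × ({x // ¬ s x} → Bool)) (i : ι) (hi : s i),
      e.symm ab i = ab.1 ⟨i, hi⟩ := by
    intro ab i hi
    simp only [e, Equiv.piEquivPiSubtypeProd_symm_apply, hi, dif_pos]
  have hns : ∀ (ab : ({x // s x} → Bool) × ({x // ¬ s x} → Bool)) (i : ι) (hi : ¬ s i),
      e.symm ab i = ab.2 ⟨i, hi⟩ := by
    intro ab i hi
    simp only [e, Equiv.piEquivPiSubtypeProd_symm_apply, hi, dif_neg, not_false_eq_true]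
  let F : ({x // s x} → Bool) → ℝ := fun a => f (e.symm (a, fun _ => false))
  let G : ({x // ¬ s x} → Bool) → ℝ := fun b => g (e.symm (fun _ => false, b))
  have hF : ∀ ab : ({x // s x} → Bool) × ({x // ¬ s x} → Bool), f (e.symm ab) = F ab.1 := by
    intro ab
    refine hf _ _ fun i hi => ?_
    rw [hs ab i hi, hs _ i hi]
  have hG : ∀ ab : ({x // s x} → Bool) × ({x // ¬ s x} → Bool), g (e.symm ab) = G ab.2 := by
    intro ab
    refine hg _ _ fun i hi => ?_
    rw [hns ab i hi, hns _ i hi]
  have key : ∀ h : (ι → Bool) → ℝ, Ex p h = ∑ ab : ({x // s x} → Bool) × ({x // ¬ s x} → Bool),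
      bernoulliWeight p ab.1 * bernoulliWeight p ab.2 * h (e.symm ab) := by
    intro h
    unfold Ex
    rw [← Equiv.sum_comp e.symm]
    exact Finset.sum_congr rfl fun ab _ => by rw [hw]
  rw [key, key f, key g]
  simp only [hF, hG]
  rw [Fintype.sum_prod_type, Fintype.sum_prod_type, Fintype.sum_prod_type]
  have e1 : ∑ a : {x // s x} → Bool, ∑ b : {x // ¬ s x} → Bool,
      bernoulliWeight p a * bernoulliWeight p b * F a
      = ∑ a : {x // s x} → Bool, bernoulliWeight p a * F a := by
    refine Finset.sum_congr rfl fun a _ => ?_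
    have : ∀ b : {x // ¬ s x} → Bool, bernoulliWeight p a * bernoulliWeight p b * F a
        = bernoulliWeight p b * (bernoulliWeight p a * F a) := fun b => by ring
    simp only [this]
    rw [← Finset.sum_mul, sum_weight, one_mul]
  have e2 : ∑ a : {x // s x} → Bool, ∑ b : {x // ¬ s x} → Bool,
      bernoulliWeight p a * bernoulliWeight p b * G b
      = ∑ b : {x // ¬ s x} → Bool, bernoulliWeight p b * G b := by
    rw [Finset.sum_comm]
    refine Finset.sum_congr rfl fun b _ => ?_
    have : ∀ a : {x // s x} → Bool, bernoulliWeight p a * bernoulliWeight p b * G b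
        = bernoulliWeight p a * (bernoulliWeight p b * G b) := fun a => by ring
    simp only [this]
    rw [← Finset.sum_mul, sum_weight, one_mul]
  rw [e1, e2, Finset.sum_mul_sum]
  refine Finset.sum_congr rfl fun a _ => Finset.sum_congr rfl fun b _ => ?_
  ring

theorem ind_and (A B : (ι → Bool) → Prop) :
    ind (fun ω => A ω ∧ B ω) = fun ω => ind A ω * ind B ω := by
  funext ω
  unfold ind
  by_cases h : A ω <;> by_cases h' : B ω <;> simp [h, h']

/-- independence -/
theorem Pr_and (p : ℝ) (s : ι → Prop) [DecidablePred s] (A B : (ι → Bool) → Prop)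
    (hf : ∀ ω ω', (∀ i, s i → ω i = ω' i) → (A ω ↔ A ω'))
    (hg : ∀ ω ω', (∀ i, ¬ s i → ω i = ω' i) → (B ω ↔ B ω')) :
    Pr p (fun ω => A ω ∧ B ω) = Pr p A * Pr p B := by
  unfold Pr
  rw [ind_and]
  refine Ex_mul p s _ _ ?_ ?_
  · intro ω ω' h
    unfold ind
    have := hf ω ω' h
    by_cases hA : A ω
    · simp [hA, this.1 hA]
    · have hA' : ¬ A ω' := fun h' => hA (this.2 h')
      simp [hA, hA']
  · intro ω ω' h
    unfold ind
    have := hg ω ω' h
    by_cases hA : B ω
    · simp [hA, this.1 hA]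
    · have hA' : ¬ B ω' := fun h' => hA (this.2 h')
      simp [hA, hA']

/-- one coin -/
theorem Pr_coin (p : ℝ) (i : ι) : Pr p (fun ω : ι → Bool => ω i = true) = p := by
  classical
  unfold Pr Ex ind bernoulliWeight
  have h := Finset.prod_univ_sum (fun _ : ι => (Finset.univ : Finset Bool))
    (fun j b => if j = i then (if b then p else 0) else (if b then p else 1 - p))
  rw [Fintype.piFinset_univ] at h
  have h2 : ∏ j : ι, ∑ b : Bool,
      (if j = i then (if b then p else 0) else (if b then p else 1 - p)) = p := by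
    rw [Finset.prod_eq_single i]
    · simp
    · intro j _ hj
      simp [hj]
    · intro hi; exact absurd (Finset.mem_univ i) hi
  refine Eq.trans ?_ (h.symm.trans h2)
  refine Finset.sum_congr rfl fun ω _ => ?_
  by_cases hω : ω i = true
  · rw [if_pos hω, mul_one]
    refine Finset.prod_congr rfl fun j _ => ?_
    by_cases hj : j = i
    · subst hj; simp [hω]
    · simp [hj]
  · rw [if_neg hω, mul_zero]
    symm
    refine Finset.prod_eq_zero (Finset.mem_univ i) ?_
    simp [hω]

/-- all coins of `g` are open -/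
theorem Pr_open (p : ℝ) (g : Finset ι) :
    Pr p (fun ω : ι → Bool => ∀ i ∈ g, ω i = true) = p ^ g.card := by
  classical
  induction g using Finset.induction_on with
  | empty => simp [Pr_true]
  | insert a g ha ih =>
    have h1 : (fun ω : ι → Bool => ∀ i ∈ insert a g, ω i = true)
        = fun ω => ω a = true ∧ ∀ i ∈ g, ω i = true := by
      funext ω; simp [Finset.forall_mem_insert]
    rw [h1, Pr_and p (fun i => i = a), Pr_coin, ih, Finset.card_insert_of_notMem ha]
    · ring
    · intro ω ω' h; rw [h a rfl]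
    · intro ω ω' h
      constructor
      · intro h' i hi
        rw [← h i (fun e => ha (e ▸ hi))]; exact h' i hi
      · intro h' i hi
        rw [h i (fun e => ha (e ▸ hi))]; exact h' i hi

/-- no open group among pairwise disjoint groups of size `≤ z` -/
theorem Pr_noopen {κ : Type*} {p : ℝ} (h0 : 0 ≤ p) (h1 : p ≤ 1) (K : Finset κ)
    (g : κ → Finset ι) (z : ℕ) (hz : ∀ k ∈ K, (g k).card ≤ z)
    (hd : ∀ k ∈ K, ∀ k' ∈ K, k ≠ k' → Disjoint (g k) (g k')) :
    Pr p (fun ω : ι → Bool => ∀ k ∈ K, ¬ ∀ i ∈ g k, ω i = true) ≤ (1 - p ^ z) ^ K.card := by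
  classical
  induction K using Finset.induction_on with
  | empty => simp [Pr_true]
  | insert a K ha ih =>
    have e1 : (fun ω : ι → Bool => ∀ k ∈ insert a K, ¬ ∀ i ∈ g k, ω i = true)
        = fun ω => (¬ ∀ i ∈ g a, ω i = true) ∧ ∀ k ∈ K, ¬ ∀ i ∈ g k, ω i = true := by
      funext ω; simp only [Finset.forall_mem_insert]
    have hpz : 0 ≤ 1 - p ^ z := by
      have := pow_le_one₀ h0 h1 (n := z); linarith
    rw [e1, Pr_and p (fun i => i ∈ g a), Pr_not, Pr_open, Finset.card_insert_of_notMem ha, pow_succ']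
    · refine mul_le_mul ?_ ?_ (Pr_nonneg h0 h1 _) hpz
      · have := pow_le_pow_of_le_one h0 h1 (hz a (Finset.mem_insert_self a K))
        linarith
      · exact ih (fun k hk => hz k (Finset.mem_insert_of_mem hk))
          (fun k hk k' hk' => hd k (Finset.mem_insert_of_mem hk) k' (Finset.mem_insert_of_mem hk'))
    · intro ω ω' h
      refine not_congr ⟨fun h' i hi => ?_, fun h' i hi => ?_⟩
      · rw [← h i hi]; exact h' i hi
      · rw [h i hi]; exact h' i hi
    · intro ω ω' h
      refine forall₂_congr fun k hk => not_congr ?_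
      have hdis := hd a (Finset.mem_insert_self a K) k (Finset.mem_insert_of_mem hk)
        (fun e => ha (e ▸ hk))
      refine ⟨fun h' i hi => ?_, fun h' i hi => ?_⟩
      · rw [← h i (fun hi' => (Finset.disjoint_left.1 hdis hi' hi))]; exact h' i hi
      · rw [h i (fun hi' => (Finset.disjoint_left.1 hdis hi' hi))]; exact h' i hi

end Prob

end Crest.Agent.R052.Seq
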