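import Crest.Prelude.Def_FinProb
import Crest.Prelude.Def_RandomGraph
import Crest.Prelude.Def_CopyThreshold

/-!
Row 52, S0073: structure of the labelling.

* `Splits n P F k`: the edges of `F` can be labelled by `k` labels such that every piece is
  contained in `G(n,P)` with probability at least `1/2`.
* basic calculus of `Splits` and the decomposition of a degenerate graph into class graphs.
-/

set_option autoImplicit false

open Finset
open Crest.CombinatoricsR.RandomGraph

namespace Crest.Agent.R052.Struct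

/-- The edges of `F` can be labelled by `k` labels such that every piece is contained in
`G(n,P)` with probability at least `1/2`. -/
def Splits (n : ℕ) (P : ℝ) {W : Type} (F : SimpleGraph W) (k : ℕ) : Prop :=
  ∃ c : Sym2 W → Fin k, ∀ i : Fin k, 1 / 2 ≤ gnpProb n P
    {G | (SimpleGraph.fromEdgeSet {e | e ∈ F.edgeSet ∧ c e = i}).IsContained G}

/-- `p` is critical for `H`: every cover of the family of edge sets containing a copy of `H`
costs at least `1/2` at density `p`. -/
def Crit (n : ℕ) (p : ℝ) {W : Type} (H : SimpleGraph W) : Prop :=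
  ∀ C : Finset (Finset (EdgeSlot n)),
    (∀ A : Finset (EdgeSlot n), H.IsContained (edgeGraph A) → ∃ S ∈ C, S ⊆ A) →
    1 / 2 ≤ ∑ S ∈ C, p ^ S.card

theorem gnpProb_mono (n : ℕ) (P : ℝ) (h0 : 0 ≤ P) (h1 : P ≤ 1)
    {E E' : Set (SimpleGraph (Fin n))} (h : E ⊆ E') : gnpProb n P E ≤ gnpProb n P E' := by
  unfold gnpProb Crest.FinProb.bernoulliProb
  classical
  apply Finset.sum_le_sum_of_subset_of_nonneg
  · intro ω hω
    simp only [Set.mem_ofPred_eq, Finset.mem_filter, Finset.mem_univ, true_and] at hω ⊢
    exact h hω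
  · intro ω _ _
    unfold Crest.FinProb.bernoulliWeight
    apply Finset.prod_nonneg
    intro i _
    split_ifs <;> linarith

theorem isContained_mono {V W : Type} {A B : SimpleGraph W} {G : SimpleGraph V} (h : A ≤ B)
    (hB : B.IsContained G) : A.IsContained G :=
  (SimpleGraph.IsContained.of_le h).trans hB

/-- the piece of a splitting with one label -/
theorem splits_one {n : ℕ} {P : ℝ} (h0 : 0 ≤ P) (h1 : P ≤ 1) {W : Type} {F : SimpleGraph W}
    (h : 1 / 2 ≤ gnpProb n P {G | F.IsContained G}) : Splits n P F 1 := by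
  refine ⟨fun _ => 0, fun i => h.trans ?_⟩
  apply gnpProb_mono n P h0 h1
  intro G hG
  refine isContained_mono ?_ hG
  rw [← SimpleGraph.fromEdgeSet_edgeSet F]
  apply SimpleGraph.fromEdgeSet_mono
  intro e he
  simpa using he.1


/-- The empty graph is contained with probability one. -/
theorem gnpProb_univ (n : ℕ) (P : ℝ) : gnpProb n P Set.univ = 1 := by
  unfold gnpProb Crest.FinProb.bernoulliProb Crest.FinProb.bernoulliWeight
  have h := Finset.prod_univ_sum (fun _ : EdgeSlot n => (Finset.univ : Finset Bool))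
    (fun _ b => if b then P else 1 - P)
  rw [Fintype.piFinset_univ] at h
  have h1 : ∀ i : EdgeSlot n, (∑ j : Bool, if j = true then P else 1 - P) = 1 := by
    intro i; simp
  rw [Finset.prod_congr rfl (fun i _ => h1 i), Finset.prod_const_one] at h
  have key : ∀ s : Finset (EdgeSlot n → Bool), s = univ →
      ∑ ω ∈ s, ∏ i, (if ω i = true then P else 1 - P) = 1 := by
    rintro s rfl
    exact h.symm
  apply key
  ext ω
  simp

theorem bot_isContained {n : ℕ} {W : Type} [Fintype W] (hW : Fintype.card W ≤ n)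
    (G : SimpleGraph (Fin n)) : (⊥ : SimpleGraph W).IsContained G := by
  obtain ⟨f⟩ : Nonempty (W ↪ Fin n) := by
    apply Function.Embedding.nonempty_of_card_le
    simpa using hW
  exact ⟨⟨⟨f, fun h => absurd h (by simp)⟩, f.injective⟩⟩

/-- Splitting with fewer labels. -/
theorem Splits.mono_k {n : ℕ} {P : ℝ} (h0 : 0 ≤ P) (h1 : P ≤ 1) {W : Type} [Fintype W]
    (hW : Fintype.card W ≤ n)
    {F : SimpleGraph W} {k k' : ℕ} (hk : k ≤ k') (h : Splits n P F k) : Splits n P F k' := by
  obtain ⟨c, hc⟩ := h
  refine ⟨fun e => Fin.castLE hk (c e), fun i => ?_⟩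
  by_cases hi : (i : ℕ) < k
  · refine (hc ⟨i, hi⟩).trans ?_
    apply gnpProb_mono n P h0 h1
    intro G hG
    refine isContained_mono ?_ hG
    apply SimpleGraph.fromEdgeSet_mono
    rintro e ⟨he, hi'⟩
    refine ⟨he, ?_⟩
    apply Fin.ext
    have := congrArg Fin.val hi'
    simpa using this
  · have : {G : SimpleGraph (Fin n) | (SimpleGraph.fromEdgeSet
        {e | e ∈ F.edgeSet ∧ Fin.castLE hk (c e) = i}).IsContained G} = Set.univ := by
      ext G
      simp only [Set.mem_ofPred_eq, Set.mem_univ, iff_true]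
      have hbot : SimpleGraph.fromEdgeSet {e | e ∈ F.edgeSet ∧ Fin.castLE hk (c e) = i} = ⊥ := by
        rw [← SimpleGraph.fromEdgeSet_empty]
        congr 1
        ext e
        simp only [Set.mem_ofPred_eq, Set.mem_empty_iff_false, iff_false, not_and]
        intro _ h
        apply hi
        rw [← h]
        simp
      rw [hbot]
      exact bot_isContained hW G
    rw [this, gnpProb_univ]
    norm_num

/-- Covering a graph by finitely many graphs which split. -/
theorem Splits.cover {n : ℕ} {P : ℝ} (h0 : 0 ≤ P) (h1 : P ≤ 1) {W : Type} {F : SimpleGraph W}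
    {ι : Type} [Fintype ι] [Nonempty ι] (Fs : ι → SimpleGraph W) {k : ℕ}
    (hcov : ∀ u v, F.Adj u v → ∃ j, (Fs j).Adj u v)
    (h : ∀ j, Splits n P (Fs j) k) : Splits n P F (Fintype.card ι * k) := by
  classical
  choose c hc using h
  have hcov' : ∀ e : Sym2 W, ∃ j, e ∈ F.edgeSet → e ∈ (Fs j).edgeSet := by
    intro e
    by_cases he : e ∈ F.edgeSet
    · revert he
      refine Sym2.ind (fun u v => ?_) e
      intro he
      obtain ⟨j, hj⟩ := hcov u v he
      exact ⟨j, fun _ => hj⟩
    · exact ⟨Classical.arbitrary ι, fun h => absurd h he⟩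
  choose J hJ using hcov'
  let eqv := (Fintype.equivFin ι)
  refine ⟨fun e => finProdFinEquiv (eqv (J e), c (J e) e), fun i => ?_⟩
  obtain ⟨⟨a, b⟩, rfl⟩ := finProdFinEquiv.surjective i
  refine (hc (eqv.symm a) b).trans ?_
  apply gnpProb_mono n P h0 h1
  intro G hG
  refine isContained_mono ?_ hG
  apply SimpleGraph.fromEdgeSet_mono
  rintro e ⟨he, hi⟩
  have hi' := finProdFinEquiv.injective hi
  simp only [Prod.mk.injEq] at hi'
  have hj : J e = eqv.symm a := by
    rw [← hi'.1]; simp
  refine ⟨?_, ?_⟩
  · rw [← hj]; exact hJ e he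
  · rw [← hi'.2, hj]

end Crest.Agent.R052.Struct
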