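import Crest.Agent.R052.HubClass_Mg
import Crest.Prelude.Def_RandomGraph
import Crest.Agent.R052.LowSmallNum
import Mathlib
import Crest.Prelude.Def_CopyThreshold
import Crest.Agent.R052.SeqProb
import Crest.Prelude.Def_FinProb
import Crest.Agent.R052.Struct

-- ▼ part R052/HubDone
section

/-!
# R052.HubDone (helper646): the hub class, interface form
-/

set_option autoImplicit false

open Finset
open Crest.FinProb Crest.CombinatoricsR.RandomGraph

namespace Crest.Agent.R052.Hub

open Crest.Agent.R052.Struct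

theorem hubFinal : HubClass.HubFinal 30 128 := by
  obtain ⟨n0, h⟩ := hub_final 30 (by norm_num)
  refine ⟨n0, ?_⟩
  intro n hn A B V _ _ _ _ _ _ p P z S hA hV _ hp0 hp2 hz hpz ht hP hP1
  exact h n hn A B V p P z S hA hV hp0 hp2 hz hpz (fun Z hZ _ => ht Z hZ) hP hP1

theorem hub : ∃ n0 : ℕ, ∃ L : ℝ, 1 ≤ L ∧ ∀ n ≥ n0, ∀ (W : Type) [Fintype W] [DecidableEq W]
    (A B : Finset W) (S : W → Finset W) (p : ℝ) (z : ℕ),
    Fintype.card W ≤ n → Disjoint A B → 64 * A.card ≤ n → 4 * B.card ≤ n →
    0 < p → L * p ≤ 1 → 1 ≤ p ^ (64 * z) * n →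
    (∀ v ∈ A, S v ⊆ B) → (∀ v ∈ A, (S v).card ≤ z) →
    (∀ Z : Finset W, Z.Nonempty → Z.card ≤ z →
      ((A.filter fun v => Z ⊆ S v).card : ℝ) ≤ 30 * n * p ^ Z.card) →
    Splits n (L * p) (SimpleGraph.fromRel fun v b => v ∈ A ∧ b ∈ S v) 2 :=
  HubClass.hub_of 128 (by norm_num) hubFinal

end Crest.Agent.R052.Hub
end

-- ▼ part R052/LowSmall
section

/-!
Row 52, S0073: `Iface.low`, `Iface.small` from the sequential class lemmas of `R052/Seq.lean`
(given here as hypotheses `LowClass`, `SmallClass`, their exact statements).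
-/

set_option autoImplicit false

open Crest.CombinatoricsR.RandomGraph

namespace Crest.Agent.R052.LowSmall

/-- statement of `Seq.low_class` -/
def LowClass : Prop := ∀ (W : Type) [Fintype W] [DecidableEq W]
  (n : ℕ) (P : ℝ) (_ : 0 ≤ P) (_ : P ≤ 1) (F : SimpleGraph W) (_ : Fintype.card W ≤ n)
  (ord : W → ℕ) (_ : Function.Injective ord) (A : Finset W) (_ : ∀ u v, F.Adj u v → u ∈ A)
  (z D u₀ : ℕ)
  (_ : ∀ v, Set.ncard {u | F.Adj v u ∧ ord u < ord v} ≤ z)
  (_ : ∀ u, Set.ncard {v | F.Adj v u ∧ ord u < ord v} ≤ D)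
  (_ : A.card + (z * D + 1) * u₀ ≤ n)
  (_ : (A.card : ℝ) * (1 - P ^ z) ^ u₀ ≤ 1 / 2),
  1 / 2 ≤ gnpProb n P {G | F.IsContained G}

/-- statement of `Seq.small_class` -/
def SmallClass : Prop := ∀ (W : Type) [Fintype W] [DecidableEq W]
  (n : ℕ) (P : ℝ) (_ : 0 ≤ P) (_ : P ≤ 1) (F : SimpleGraph W) (_ : Fintype.card W ≤ n)
  (ord : W → ℕ) (_ : Function.Injective ord) (A : Finset W) (_ : ∀ u v, F.Adj u v → u ∈ A)
  (z u₀ : ℕ)
  (_ : ∀ v, Set.ncard {u | F.Adj v u ∧ ord u < ord v} ≤ z)
  (_ : A.card + A.card * u₀ ≤ n)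
  (_ : (A.card : ℝ) * (1 - P ^ z) ^ u₀ ≤ 1 / 2),
  1 / 2 ≤ gnpProb n P {G | F.IsContained G}

theorem low_of (hlc : LowClass) : ∃ n0 : ℕ, ∀ n ≥ n0, ∀ (W : Type) [Fintype W] [DecidableEq W]
    (F : SimpleGraph W) (ord : W → ℕ) (A : Finset W) (p : ℝ) (z D : ℕ),
    Fintype.card W ≤ n → 0 < p → p ≤ 1 / 2 → Function.Injective ord →
    (∀ u v, F.Adj u v → u ∈ A) → 2 * A.card ≤ n → 1 ≤ p ^ (64 * z) * n → D ^ 16 ≤ n →
    (∀ v, Set.ncard {u | F.Adj v u ∧ ord u < ord v} ≤ z) →
    (∀ u, Set.ncard {v | F.Adj v u ∧ ord u < ord v} ≤ D) →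
    1 / 2 ≤ gnpProb n p {G | F.IsContained G} := by
  obtain ⟨n0, h⟩ := low_num
  refine ⟨n0, fun n hn W _ _ F ord A p z D hW hp hp2 hord hA ha hz hD h1 h2 => ?_⟩
  obtain ⟨u, hu1, hu2⟩ := h n hn A.card z D p hp hp2 ha hz hD
  exact hlc W n p hp.le (by linarith) F hW ord hord A hA z D u h1 h2 hu1 hu2

theorem small_of (hsc : SmallClass) :
    ∃ n0 : ℕ, ∀ n ≥ n0, ∀ (W : Type) [Fintype W] [DecidableEq W]
    (F : SimpleGraph W) (ord : W → ℕ) (A : Finset W) (p : ℝ) (z : ℕ),
    Fintype.card W ≤ n → 0 < p → p ≤ 1 / 2 → Function.Injective ord →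
    (∀ u v, F.Adj u v → u ∈ A) → A.card ^ 32 ≤ n ^ 31 → 1 ≤ p ^ (64 * z) * n →
    (∀ v, Set.ncard {u | F.Adj v u ∧ ord u < ord v} ≤ z) →
    1 / 2 ≤ gnpProb n p {G | F.IsContained G} := by
  obtain ⟨n0, h⟩ := small_num
  refine ⟨n0, fun n hn W _ _ F ord A p z hW hp hp2 hord hA ha hz h1 => ?_⟩
  obtain ⟨u, hu1, hu2⟩ := h n hn A.card z p hp hp2 hz ha
  exact hsc W n p hp.le (by linarith) F hW ord hord A hA z u h1 hu1 hu2

end Crest.Agent.R052.LowSmall
end

-- ▼ part R052/Seq
section

/-!
# Row 52, S0073: sequential embedding with fresh slots (LOW and SMALL classes)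
-/

set_option autoImplicit false
set_option linter.unusedSectionVars false

open Finset
open Crest.FinProb Crest.CombinatoricsR.RandomGraph

namespace Crest.Agent.R052.Seq

section Emb

variable {n : ℕ} {W : Type} [DecidableEq W]

theorem adj_iff (ω : EdgeSlot n → Bool) (a b : Fin n) :
    (graphOf ω).Adj a b ↔ a ≠ b ∧ ∃ h : ¬ (s(a, b) : Sym2 (Fin n)).IsDiag, ω ⟨s(a, b), h⟩ = true := by
  unfold graphOf
  rw [SimpleGraph.fromEdgeSet_adj]
  simp only [Set.mem_ofPred_eq, ne_eq]
  tauto

/-- the embedding of the list `l`, given that `done` is already placed by `φ` -/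
def Emb (U : W → Finset (Fin n)) (S : W → Finset W) :
    List W → Finset W → (W → Fin n) → (EdgeSlot n → Bool) → Prop
  | [], _, _, _ => True
  | v :: l, done, φ, ω => ∃ x ∈ U v, x ∉ done.image φ ∧ (∀ u ∈ S v, (graphOf ω).Adj x (φ u)) ∧
      Emb U S l (insert v done) (Function.update φ v x) ω

/-- the list is processed in an admissible order -/
def Good (S : W → Finset W) : List W → Finset W → Prop
  | [], _ => True
  | v :: l, done => v ∉ done ∧ S v ⊆ done ∧ Good S l (insert v done)

theorem update_eq_of_mem {φ : W → Fin n} {done : Finset W} {v : W} (hv : v ∉ done) (x : Fin n)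
    {u : W} (hu : u ∈ done) : Function.update φ v x u = φ u := by
  rw [Function.update_of_ne]
  rintro rfl
  exact hv hu

theorem image_update {φ : W → Fin n} {done : Finset W} {v : W} (hv : v ∉ done) (x : Fin n) :
    (insert v done).image (Function.update φ v x) = insert x (done.image φ) := by
  rw [Finset.image_insert, Function.update_self]
  congr 1
  exact Finset.image_congr fun u hu => update_eq_of_mem hv x hu

/-- the coins that matter -/
def Dep (U : W → Finset (Fin n)) (S : W → Finset W) (l : List W) (done : Finset W)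
    (φ : W → Fin n) (e : EdgeSlot n) : Prop :=
  ∃ x y : Fin n, e.1 = s(x, y) ∧ x ∉ done.image φ ∧
    (y ∉ done.image φ ∨ ∃ v ∈ l, x ∈ U v ∧ ∃ u ∈ S v, u ∈ done ∧ y = φ u)

theorem Emb_congr (U : W → Finset (Fin n)) (S : W → Finset W) (l : List W) :
    ∀ (done : Finset W) (φ : W → Fin n), Good S l done → ∀ ω ω' : EdgeSlot n → Bool,
      (∀ e, Dep U S l done φ e → ω e = ω' e) → Emb U S l done φ ω → Emb U S l done φ ω' := by
  induction l with
  | nil => intro done φ _ ω ω' _ _; trivial
  | cons v l ih =>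
    rintro done φ ⟨hv, hS, hG⟩ ω ω' h ⟨x, hxU, hx, hadj, hE⟩
    refine ⟨x, hxU, hx, ?_, ?_⟩
    · intro u hu
      have h1 := (adj_iff ω x (φ u)).1 (hadj u hu)
      obtain ⟨hne, hd, hω⟩ := h1
      refine (adj_iff ω' x (φ u)).2 ⟨hne, hd, ?_⟩
      rw [← h _ ⟨x, φ u, rfl, hx, Or.inr ⟨v, List.mem_cons_self, hxU, u, hu, hS hu, rfl⟩⟩]
      exact hω
    · refine ih (insert v done) (Function.update φ v x) hG ω ω' ?_ hE
      rintro e ⟨a, b, hab, ha, hb⟩
      rw [image_update hv] at ha hb
      rw [Finset.mem_insert, not_or] at ha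
      refine h e ⟨a, b, hab, ha.2, ?_⟩
      rcases hb with hb | ⟨v', hv', haU, u, hu, hud, hbu⟩
      · rw [Finset.mem_insert, not_or] at hb
        exact Or.inl hb.2
      · rw [Finset.mem_insert] at hud
        rcases hud with rfl | hud
        · rw [Function.update_self] at hbu
          left; rw [hbu]; exact hx
        · rw [update_eq_of_mem hv x hud] at hbu
          exact Or.inr ⟨v', List.mem_cons_of_mem _ hv', haU, u, hu, hud, hbu⟩

/-- slots between `x` and `T` -/
def grp (T : Finset (Fin n)) (x : Fin n) : Finset (EdgeSlot n) :=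
  univ.filter fun e => ∃ y ∈ T, e.1 = s(x, y)

theorem grp_card (T : Finset (Fin n)) (x : Fin n) : (grp T x).card ≤ T.card := by
  classical
  have h1 : (grp T x).image (fun e : EdgeSlot n => e.1) ⊆ T.image (fun y => s(x, y)) := by
    intro z hz
    rw [Finset.mem_image] at hz ⊢
    obtain ⟨e, he, rfl⟩ := hz
    obtain ⟨y, hy, hey⟩ := (Finset.mem_filter.1 he).2
    exact ⟨y, hy, hey.symm⟩
  calc (grp T x).card = ((grp T x).image (fun e : EdgeSlot n => e.1)).card :=
        (Finset.card_image_of_injective _ Subtype.val_injective).symm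
    _ ≤ (T.image (fun y => s(x, y))).card := Finset.card_le_card h1
    _ ≤ T.card := Finset.card_image_le

theorem grp_disjoint {T : Finset (Fin n)} {x x' : Fin n} (hx : x ∉ T) (hne : x ≠ x') :
    Disjoint (grp T x) (grp T x') := by
  rw [Finset.disjoint_left]
  intro e he he'
  obtain ⟨y, hy, hey⟩ := (Finset.mem_filter.1 he).2
  obtain ⟨y', hy', hey'⟩ := (Finset.mem_filter.1 he').2
  rw [hey, Sym2.eq_iff] at hey'
  rcases hey' with ⟨h, _⟩ | ⟨h, _⟩
  · exact hne h
  · exact hx (h ▸ hy')

theorem grp_open {T : Finset (Fin n)} {x : Fin n} (hx : x ∉ T) (ω : EdgeSlot n → Bool) :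
    (∀ e ∈ grp T x, ω e = true) ↔ ∀ y ∈ T, (graphOf ω).Adj x y := by
  constructor
  · intro h y hy
    have hne : x ≠ y := fun e => hx (e ▸ hy)
    have hd : ¬ (s(x, y) : Sym2 (Fin n)).IsDiag := by
      rw [Sym2.mk_isDiag_iff]; exact hne
    exact (adj_iff ω x y).2 ⟨hne, hd, h _ (Finset.mem_filter.2 ⟨Finset.mem_univ _, y, hy, rfl⟩)⟩
  · intro h e he
    obtain ⟨y, hy, hey⟩ := (Finset.mem_filter.1 he).2
    obtain ⟨_, hd, hω⟩ := (adj_iff ω x y).1 (h y hy)
    have : e = ⟨s(x, y), hd⟩ := Subtype.ext hey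
    rw [this]; exact hω

variable {P : ℝ}

theorem Pr_Emb (hP0 : 0 ≤ P) (hP1 : P ≤ 1) (U : W → Finset (Fin n)) (S : W → Finset W)
    (z u₀ : ℕ) (A : Finset W) (hz : ∀ v ∈ A, (S v).card ≤ z)
    (hconf : ∀ v ∈ A, ∀ v' ∈ A, v ≠ v' → (∃ u, u ∈ S v ∧ u ∈ S v') → Disjoint (U v) (U v'))
    (hU : ∀ v ∈ A, (A.filter fun w => w ≠ v ∧ ¬ Disjoint (U w) (U v)).card + u₀ ≤ (U v).card)
    (l : List W) :
    ∀ (done : Finset W) (φ : W → Fin n), Good S l done → (∀ v ∈ l, v ∈ A) → done ⊆ A →
      l.Nodup → (∀ v ∈ l, v ∉ done) →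
      Set.InjOn φ done → (∀ w ∈ done, φ w ∈ U w) →
      1 - l.length * (1 - P ^ z) ^ u₀ ≤ Pr P (Emb U S l done φ) := by
  classical
  have hpz : 0 ≤ 1 - P ^ z := by
    have := pow_le_one₀ hP0 hP1 (n := z); linarith
  have hpz1 : 1 - P ^ z ≤ 1 := by
    have := pow_nonneg hP0 z; linarith
  have hη : 0 ≤ (1 - P ^ z) ^ u₀ := pow_nonneg hpz _
  induction l with
  | nil =>
    intro done φ _ _ _ _ _ _ _
    have : Emb U S [] done φ = fun _ => True := by funext ω; rfl
    rw [this, Pr_true]; simp
  | cons v l ih =>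
    rintro done φ ⟨hv, hS, hG⟩ hlA hdA hnd hdis hinj hUφ
    have hvA : v ∈ A := hlA v List.mem_cons_self
    set η := (1 - P ^ z) ^ u₀ with hηdef
    by_cases hneg : 1 - (l.length : ℝ) * η ≤ 0
    · have h1 := Pr_nonneg hP0 hP1 (Emb U S (v :: l) done φ)
      have : 1 - ((v :: l).length : ℝ) * η ≤ 0 := by
        rw [List.length_cons]; push_cast
        nlinarith
      linarith
    push Not at hneg
    -- candidates
    set C : Finset (Fin n) := (U v) \ (done.image φ) with hC
    have hCcard : u₀ ≤ C.card := by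
      have h1 : (U v ∩ done.image φ).card ≤
          (A.filter fun w => w ≠ v ∧ ¬ Disjoint (U w) (U v)).card := by
        have h2 : U v ∩ done.image φ ⊆
            (A.filter fun w => w ≠ v ∧ ¬ Disjoint (U w) (U v)).image φ := by
          intro y hy
          rw [Finset.mem_inter, Finset.mem_image] at hy
          obtain ⟨hyU, w, hw, rfl⟩ := hy
          refine Finset.mem_image.2 ⟨w, Finset.mem_filter.2 ⟨hdA hw, ?_, ?_⟩, rfl⟩
          · rintro rfl; exact hv hw
          · rw [Finset.not_disjoint_iff]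
            exact ⟨φ w, hUφ w hw, hyU⟩
        exact (Finset.card_le_card h2).trans Finset.card_image_le
      have h3 : C.card + (U v ∩ done.image φ).card = (U v).card :=
        Finset.card_sdiff_add_card_inter (U v) (done.image φ)
      have h4 := hU v hvA
      omega
    set T : Finset (Fin n) := (S v).image φ with hT
    have hTdone : T ⊆ done.image φ := Finset.image_subset_image hS
    have hCT : ∀ x ∈ C, x ∉ T := fun x hx hxT => (Finset.mem_sdiff.1 hx).2 (hTdone hxT)
    have hTz : T.card ≤ z := Finset.card_image_le.trans (hz v hvA)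
    -- events
    let Op : Fin n → (EdgeSlot n → Bool) → Prop := fun x ω => ∀ e ∈ grp T x, ω e = true
    let Fst : Fin n → (EdgeSlot n → Bool) → Prop := fun x ω =>
      Op x ω ∧ ∀ y ∈ C, y < x → ¬ Op y ω
    let B : Fin n → (EdgeSlot n → Bool) → Prop := fun x =>
      Emb U S l (insert v done) (Function.update φ v x)
    let Q : EdgeSlot n → Prop := fun e => ∃ x ∈ C, e ∈ grp T x
    -- independence
    have hB : ∀ x ∈ C, Pr P (fun ω => Fst x ω ∧ B x ω) = Pr P (Fst x) * Pr P (B x) := by
      intro x hx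
      obtain ⟨hxU, hxd⟩ := Finset.mem_sdiff.1 hx
      refine Pr_and P Q (Fst x) (B x) ?_ ?_
      · intro ω ω' h
        have hop : ∀ y ∈ C, (Op y ω ↔ Op y ω') := by
          intro y hy
          refine forall₂_congr fun e he => ?_
          rw [h e ⟨y, hy, he⟩]
        refine and_congr (hop x hx) (forall₂_congr fun y hy => ?_)
        rw [hop y hy]
      · have hone : ∀ ω ω' : EdgeSlot n → Bool, (∀ i, ¬ Q i → ω i = ω' i) → B x ω → B x ω' := by
          intro ω ω' h hb
          refine Emb_congr U S l (insert v done) (Function.update φ v x) hG ω ω' ?_ hb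
          rintro e ⟨a, b, hab, ha, hb'⟩
          refine h e ?_
          rintro ⟨x', hx', he⟩
          obtain ⟨hx'U, hx'd⟩ := Finset.mem_sdiff.1 hx'
          obtain ⟨y', hy', hey'⟩ := (Finset.mem_filter.1 he).2
          rw [image_update hv] at ha hb'
          rw [Finset.mem_insert, not_or] at ha
          rw [hab, Sym2.eq_iff] at hey'
          have hy'd : y' ∈ done.image φ := hTdone hy'
          rcases hey' with ⟨hax, hby⟩ | ⟨hay, _⟩
          · rcases hb' with hb' | ⟨v', hv', haU, u, hu, hud, hbu⟩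
            · apply hb'
              rw [Finset.mem_insert]; right; rw [hby]; exact hy'd
            · obtain ⟨u', hu', hyu'⟩ := Finset.mem_image.1 hy'
              rw [Finset.mem_insert] at hud
              rcases hud with rfl | hud
              · rw [Function.update_self] at hbu
                apply hxd
                rw [← hbu, hby]; exact hy'd
              · rw [update_eq_of_mem hv x hud] at hbu
                have huu : u = u' := by
                  apply hinj hud (hS hu')
                  rw [← hbu, hby, hyu']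
                subst huu
                have hvv' : v ≠ v' := by
                  rintro rfl
                  exact (List.nodup_cons.1 hnd).1 hv'
                have := hconf v hvA v' (hlA v' (List.mem_cons_of_mem _ hv')) hvv' ⟨u, hu', hu⟩
                rw [Finset.disjoint_left] at this
                exact this hx'U (hax ▸ haU)
          · exact ha.2 (hay ▸ hy'd)
        intro ω ω' h
        exact ⟨hone ω ω' h, hone ω' ω fun i hi => (h i hi).symm⟩
    -- the induction hypothesis
    have hih : ∀ x ∈ C, 1 - (l.length : ℝ) * η ≤ Pr P (B x) := by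
      intro x hx
      obtain ⟨hxU, hxd⟩ := Finset.mem_sdiff.1 hx
      refine ih (insert v done) (Function.update φ v x) hG
        (fun w hw => hlA w (List.mem_cons_of_mem _ hw)) ?_ (List.nodup_cons.1 hnd).2 ?_ ?_ ?_
      · intro w hw
        rcases Finset.mem_insert.1 hw with rfl | hw
        · exact hvA
        · exact hdA hw
      · intro w hw hw'
        rcases Finset.mem_insert.1 hw' with rfl | hw'
        · exact (List.nodup_cons.1 hnd).1 hw
        · exact hdis w (List.mem_cons_of_mem _ hw) hw'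
      · intro a ha b hb hab
        rw [Finset.coe_insert, Set.mem_insert_iff, Finset.mem_coe] at ha hb
        rcases ha with rfl | ha
        · rcases hb with rfl | hb
          · rfl
          · rw [Function.update_self, update_eq_of_mem hv x hb] at hab
            exact absurd (hab ▸ Finset.mem_image_of_mem φ hb) hxd
        · rcases hb with rfl | hb
          · rw [Function.update_self, update_eq_of_mem hv x ha] at hab
            exact absurd (hab ▸ Finset.mem_image_of_mem φ ha) hxd
          · rw [update_eq_of_mem hv x ha, update_eq_of_mem hv x hb] at hab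
            exact hinj ha hb hab
      · intro w hw
        rcases Finset.mem_insert.1 hw with rfl | hw
        · rw [Function.update_self]; exact hxU
        · rw [update_eq_of_mem hv x hw]; exact hUφ w hw
    -- sum of the disjoint events
    have hsum : ∑ x ∈ C, Pr P (fun ω => Fst x ω ∧ B x ω) ≤ Pr P (Emb U S (v :: l) done φ) := by
      unfold Pr
      rw [← Ex_sum]
      refine Ex_mono hP0 hP1 fun ω => ?_
      by_cases hex : ∃ x ∈ C, Fst x ω ∧ B x ω
      · obtain ⟨x, hx, hF, hBx⟩ := hex
        have hemb : Emb U S (v :: l) done φ ω := by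
          obtain ⟨hxU, hxd⟩ := Finset.mem_sdiff.1 hx
          refine ⟨x, hxU, hxd, ?_, hBx⟩
          intro u hu
          exact (grp_open (hCT x hx) ω).1 hF.1 (φ u) (Finset.mem_image_of_mem φ hu)
        have h1 : ∑ y ∈ C, ind (fun ω => Fst y ω ∧ B y ω) ω
            = ind (fun ω => Fst x ω ∧ B x ω) ω := by
          refine Finset.sum_eq_single x ?_ (fun h => absurd hx h)
          intro y hy hyx
          unfold ind
          rw [if_neg]
          rintro ⟨hFy, _⟩
          rcases lt_or_gt_of_ne hyx with hlt | hlt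
          · exact hF.2 y hy hlt hFy.1
          · exact hFy.2 x hx hlt hF.1
        rw [h1]
        exact ind_mono ω fun _ => hemb
      · have h1 : ∑ y ∈ C, ind (fun ω => Fst y ω ∧ B y ω) ω = 0 := by
          refine Finset.sum_eq_zero fun y hy => ?_
          unfold ind
          rw [if_neg]
          exact fun h => hex ⟨y, hy, h⟩
        rw [h1]; exact ind_nonneg _ _
    have hfst : 1 - η ≤ ∑ x ∈ C, Pr P (Fst x) := by
      have h1 : Pr P (fun ω => ¬ ∀ x ∈ C, ¬ ∀ e ∈ grp T x, ω e = true) ≤ ∑ x ∈ C, Pr P (Fst x) := by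
        unfold Pr
        rw [← Ex_sum]
        refine Ex_mono hP0 hP1 fun ω => ?_
        by_cases hex : ∀ x ∈ C, ¬ ∀ e ∈ grp T x, ω e = true
        · unfold ind
          rw [if_neg (not_not.2 hex)]
          exact Finset.sum_nonneg fun y _ => by split_ifs <;> norm_num
        · have hne : (C.filter fun x => Op x ω).Nonempty := by
            push Not at hex
            obtain ⟨x, hx, h⟩ := hex
            exact ⟨x, Finset.mem_filter.2 ⟨hx, h⟩⟩
          set m := (C.filter fun x => Op x ω).min' hne with hm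
          have hmem := Finset.min'_mem _ hne
          rw [← hm] at hmem
          obtain ⟨hmC, hmO⟩ := Finset.mem_filter.1 hmem
          have hF : Fst m ω := by
            refine ⟨hmO, fun y hy hlt hO => ?_⟩
            have := Finset.min'_le (C.filter fun x => Op x ω) y (Finset.mem_filter.2 ⟨hy, hO⟩)
            rw [← hm] at this
            exact absurd hlt (not_lt.2 this)
          have h2 : ind (Fst m) ω ≤ ∑ x ∈ C, ind (Fst x) ω :=
            Finset.single_le_sum (f := fun x => ind (Fst x) ω) (fun y _ => ind_nonneg _ _) hmC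
          refine le_trans ?_ h2
          unfold ind
          rw [if_pos hF]
          split_ifs <;> norm_num
      rw [Pr_not] at h1
      have h2 := Pr_noopen hP0 hP1 C (fun x => grp T x) z
        (fun x _ => (grp_card T x).trans hTz)
        (fun x hx x' _ hne => grp_disjoint (hCT x hx) hne)
      have h3 : (1 - P ^ z) ^ C.card ≤ η := pow_le_pow_of_le_one hpz hpz1 hCcard
      linarith
    calc 1 - ((v :: l).length : ℝ) * η ≤ (1 - η) * (1 - (l.length : ℝ) * η) := by
          rw [List.length_cons]; push_cast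
          have : 0 ≤ η * (l.length * η) := mul_nonneg hη (mul_nonneg (Nat.cast_nonneg _) hη)
          nlinarith
      _ ≤ (∑ x ∈ C, Pr P (Fst x)) * (1 - (l.length : ℝ) * η) :=
          mul_le_mul_of_nonneg_right hfst hneg.le
      _ = ∑ x ∈ C, Pr P (Fst x) * (1 - (l.length : ℝ) * η) := Finset.sum_mul _ _ _
      _ ≤ ∑ x ∈ C, Pr P (Fst x) * Pr P (B x) :=
          Finset.sum_le_sum fun x hx => mul_le_mul_of_nonneg_left (hih x hx)
            (Pr_nonneg hP0 hP1 _)
      _ = ∑ x ∈ C, Pr P (fun ω => Fst x ω ∧ B x ω) :=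
          Finset.sum_congr rfl fun x hx => (hB x hx).symm
      _ ≤ _ := hsum

/-- extraction of the embedding -/
theorem Emb_extract (U : W → Finset (Fin n)) (S : W → Finset W) (ω : EdgeSlot n → Bool)
    (l : List W) : ∀ (done : Finset W) (φ : W → Fin n), Good S l done → Set.InjOn φ done →
      Emb U S l done φ ω →
      ∃ ψ : W → Fin n, (∀ w ∈ done, ψ w = φ w) ∧ Set.InjOn ψ (done ∪ l.toFinset) ∧
        ∀ v ∈ l, ∀ u ∈ S v, (graphOf ω).Adj (ψ v) (ψ u) := by
  induction l with
  | nil =>
    intro done φ _ hinj _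
    exact ⟨φ, fun _ _ => rfl, by simpa using hinj, by simp⟩
  | cons v l ih =>
    rintro done φ ⟨hv, hS, hG⟩ hinj ⟨x, hxU, hx, hadj, hE⟩
    have hinj' : Set.InjOn (Function.update φ v x) (insert v done : Finset W) := by
      intro a ha b hb hab
      rw [Finset.coe_insert, Set.mem_insert_iff, Finset.mem_coe] at ha hb
      rcases ha with rfl | ha
      · rcases hb with rfl | hb
        · rfl
        · rw [Function.update_self, update_eq_of_mem hv x hb] at hab
          exact absurd (hab ▸ Finset.mem_image_of_mem φ hb) hx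
      · rcases hb with rfl | hb
        · rw [Function.update_self, update_eq_of_mem hv x ha] at hab
          exact absurd (hab ▸ Finset.mem_image_of_mem φ ha) hx
        · rw [update_eq_of_mem hv x ha, update_eq_of_mem hv x hb] at hab
          exact hinj ha hb hab
    obtain ⟨ψ, h1, h2, h3⟩ := ih (insert v done) (Function.update φ v x) hG hinj' hE
    refine ⟨ψ, ?_, ?_, ?_⟩
    · intro w hw
      rw [h1 w (Finset.mem_insert_of_mem hw), update_eq_of_mem hv x hw]
    · refine h2.mono ?_
      intro w hw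
      simp only [List.coe_toFinset, Set.mem_union, Finset.mem_coe,
        Set.mem_ofPred_eq, List.mem_cons, Finset.coe_insert, Set.mem_insert_iff] at hw ⊢
      tauto
    · intro w hw u hu
      rw [List.mem_cons] at hw
      rcases hw with rfl | hw
      · have e1 : ψ w = x := by
          rw [h1 w (Finset.mem_insert_self w done), Function.update_self]
        have e2 : ψ u = φ u := by
          rw [h1 u (Finset.mem_insert_of_mem (hS hu)), update_eq_of_mem hv x (hS hu)]
        rw [e1, e2]
        exact hadj u hu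
      · exact h3 w hw u hu

end Emb

section Final

variable {W : Type} [Fintype W] [DecidableEq W]

/-- an injection on a finset extends to an injection -/
theorem exists_extend {n : ℕ} (hW : Fintype.card W ≤ n) (A : Finset W) (ψ : W → Fin n)
    (hψ : Set.InjOn ψ A) : ∃ g : W → Fin n, Function.Injective g ∧ ∀ w ∈ A, g w = ψ w := by
  classical
  have hcard : Fintype.card {w // w ∉ A} ≤ Fintype.card {x : Fin n // x ∉ A.image ψ} := by
    rw [Fintype.card_subtype_compl, Fintype.card_subtype_compl, Fintype.card_fin,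
      Fintype.card_coe, Fintype.card_coe, Finset.card_image_of_injOn hψ]
    omega
  obtain ⟨e⟩ := Function.Embedding.nonempty_of_card_le hcard
  refine ⟨fun w => if h : w ∈ A then ψ w else (e ⟨w, h⟩).1, ?_, ?_⟩
  · intro a b hab
    by_cases ha : a ∈ A <;> by_cases hb : b ∈ A
    · simp only [ha, hb, dif_pos] at hab
      exact hψ ha hb hab
    · simp only [ha, hb, dif_pos, dif_neg, not_false_eq_true] at hab
      exact absurd (hab ▸ Finset.mem_image_of_mem ψ ha) (e ⟨b, hb⟩).2
    · simp only [ha, hb, dif_pos, dif_neg, not_false_eq_true] at hab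
      exact absurd (hab ▸ Finset.mem_image_of_mem ψ hb) (e ⟨a, ha⟩).2
    · simp only [ha, hb, dif_neg, not_false_eq_true] at hab
      exact congrArg Subtype.val (e.injective (Subtype.ext hab))
  · intro w hw
    simp only [hw, dif_pos]

/-- greedy colouring -/
theorem exists_greedy (R : W → W → Prop) (hR : ∀ a b, R a b → R b a) (M : ℕ) (hM : 0 < M)
    (A : Finset W) (h : ∀ a ∈ A, Set.ncard {b | b ∈ A ∧ b ≠ a ∧ R a b} < M) :
    ∃ χ : W → Fin M, ∀ a ∈ A, ∀ b ∈ A, a ≠ b → R a b → χ a ≠ χ b := by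
  classical
  have key : ∀ B : Finset W, B ⊆ A →
      ∃ χ : W → Fin M, ∀ a ∈ B, ∀ b ∈ B, a ≠ b → R a b → χ a ≠ χ b := by
    intro B
    induction B using Finset.induction_on with
    | empty => intro _; exact ⟨fun _ => ⟨0, hM⟩, by simp⟩
    | insert a B ha ih =>
      intro hBA
      obtain ⟨χ, hχ⟩ := ih fun x hx => hBA (Finset.mem_insert_of_mem hx)
      have haA := hBA (Finset.mem_insert_self a B)
      have h1 : ((B.filter fun b => R a b).image χ).card < (univ : Finset (Fin M)).card := by
        rw [Finset.card_univ, Fintype.card_fin]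
        refine lt_of_le_of_lt ?_ (h a haA)
        refine Finset.card_image_le.trans ?_
        rw [← Set.ncard_coe_finset]
        refine Set.ncard_le_ncard ?_ (Set.toFinite _)
        intro b hb
        have hb' := Finset.mem_filter.1 (Finset.mem_coe.1 hb)
        refine ⟨hBA (Finset.mem_insert_of_mem hb'.1), ?_, hb'.2⟩
        rintro rfl; exact ha hb'.1
      obtain ⟨c, _, hc⟩ := Finset.exists_mem_notMem_of_card_lt_card h1
      refine ⟨Function.update χ a c, ?_⟩
      have hupd : ∀ x ∈ B, Function.update χ a c x = χ x := by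
        intro x hx
        rw [Function.update_of_ne]
        rintro rfl; exact ha hx
      intro x hx y hy hxy hRxy
      rcases Finset.mem_insert.1 hx with hxa | hx'
      · rcases Finset.mem_insert.1 hy with hya | hy'
        · exact absurd (hxa.trans hya.symm) hxy
        · rw [hxa, Function.update_self, hupd y hy']
          intro he
          exact hc (he ▸ Finset.mem_image_of_mem χ (Finset.mem_filter.2 ⟨hy', hxa ▸ hRxy⟩))
      · rcases Finset.mem_insert.1 hy with hya | hy'
        · rw [hya, Function.update_self, hupd x hx']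
          intro he
          exact hc (he ▸ Finset.mem_image_of_mem χ
            (Finset.mem_filter.2 ⟨hx', hR _ _ (hya ▸ hRxy)⟩))
        · rw [hupd x hx', hupd y hy']
          exact hχ x hx' y hy' hxy hRxy
  exact key A (Finset.Subset.refl A)

/-- disjoint pools of prescribed sizes -/
theorem exists_pools {n M : ℕ} (f : Fin M → ℕ) (h : ∑ c, f c ≤ n) :
    ∃ U : Fin M → Finset (Fin n), (∀ c c', c ≠ c' → Disjoint (U c) (U c')) ∧
      ∀ c, (U c).card = f c := by
  classical
  have hcard : Fintype.card (Σ c : Fin M, Fin (f c)) ≤ Fintype.card (Fin n) := by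
    rw [Fintype.card_sigma, Fintype.card_fin]
    simpa using h
  obtain ⟨e⟩ := Function.Embedding.nonempty_of_card_le hcard
  refine ⟨fun c => univ.image fun i : Fin (f c) => e ⟨c, i⟩, ?_, ?_⟩
  · intro c c' hcc
    rw [Finset.disjoint_left]
    intro x hx hx'
    obtain ⟨i, _, hi⟩ := Finset.mem_image.1 hx
    obtain ⟨j, _, hj⟩ := Finset.mem_image.1 hx'
    have := e.injective (hi.trans hj.symm)
    exact hcc (congrArg Sigma.fst this)
  · intro c
    rw [Finset.card_image_of_injective, Finset.card_univ, Fintype.card_fin]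
    intro i j hij
    have := e.injective hij
    exact eq_of_heq (Sigma.mk.inj this).2

theorem exists_list (S : W → Finset W) (ord : W → ℕ) (B : Finset W) :
    ∀ done : Finset W, (∀ v ∈ B, v ∉ done) →
      (∀ v ∈ B, ∀ u ∈ S v, u ∈ done ∨ (u ∈ B ∧ ord u < ord v)) →
      ∃ l : List W, l.Nodup ∧ l.toFinset = B ∧ Good S l done := by
  classical
  induction B using Finset.induction_on_min_value ord with
  | empty => intro done _ _; exact ⟨[], List.nodup_nil, rfl, trivial⟩
  | insert a B ha hmin ih =>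
    intro done hd hS
    obtain ⟨l, hnd, hl, hG⟩ := ih (insert a done) (by
      intro v hv hv'
      rcases Finset.mem_insert.1 hv' with rfl | hv'
      · exact ha hv
      · exact hd v (Finset.mem_insert_of_mem hv) hv') (by
      intro v hv u hu
      rcases hS v (Finset.mem_insert_of_mem hv) u hu with h | ⟨h, hlt⟩
      · exact Or.inl (Finset.mem_insert_of_mem h)
      · rcases Finset.mem_insert.1 h with rfl | h
        · exact Or.inl (Finset.mem_insert_self _ _)
        · exact Or.inr ⟨h, hlt⟩)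
    refine ⟨a :: l, List.nodup_cons.2 ⟨?_, hnd⟩, ?_, hd a (Finset.mem_insert_self a B), ?_, hG⟩
    · intro hal
      apply ha
      rw [← hl]; exact List.mem_toFinset.2 hal
    · rw [List.toFinset_cons, hl]
    · intro u hu
      rcases hS a (Finset.mem_insert_self a B) u hu with h | ⟨h, hlt⟩
      · exact h
      · rcases Finset.mem_insert.1 h with rfl | h
        · exact absurd hlt (lt_irrefl _)
        · exact absurd hlt (not_lt.2 (hmin u h))

theorem seq_class (n : ℕ) (P : ℝ) (hP0 : 0 ≤ P) (hP1 : P ≤ 1) (F : SimpleGraph W)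
    (hW : Fintype.card W ≤ n) (ord : W → ℕ) (hord : Function.Injective ord) (A : Finset W)
    (hA : ∀ u v, F.Adj u v → u ∈ A) (z M u₀ : ℕ)
    (hz : ∀ v, Set.ncard {u | F.Adj v u ∧ ord u < ord v} ≤ z)
    (χ : W → Fin M)
    (hχ : ∀ v ∈ A, ∀ v' ∈ A, v ≠ v' →
      (∃ u, (F.Adj v u ∧ ord u < ord v) ∧ (F.Adj v' u ∧ ord u < ord v')) → χ v ≠ χ v')
    (hsize : A.card + M * u₀ ≤ n)
    (hprob : (A.card : ℝ) * (1 - P ^ z) ^ u₀ ≤ 1 / 2) :
    1 / 2 ≤ gnpProb n P {G | F.IsContained G} := by
  classical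
  let S : W → Finset W := fun v => univ.filter fun u => F.Adj v u ∧ ord u < ord v
  have hSmem : ∀ v u, u ∈ S v ↔ F.Adj v u ∧ ord u < ord v := fun v u => by
    simp only [S, Finset.mem_filter, Finset.mem_univ, true_and]
  obtain ⟨Pool, hPd, hPc⟩ := exists_pools (n := n)
    (fun c : Fin M => (A.filter fun v => χ v = c).card + u₀) (by
      rw [Finset.sum_add_distrib, Finset.sum_const, Finset.card_univ, Fintype.card_fin,
        smul_eq_mul, ← Finset.card_eq_sum_card_fiberwise (fun x _ => Finset.mem_univ (χ x))]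
      exact hsize)
  obtain ⟨l, hnd, hl, hG⟩ := exists_list S ord A ∅ (fun v _ => Finset.notMem_empty v) (by
    intro v hv u hu
    rw [hSmem] at hu
    exact Or.inr ⟨hA u v hu.1.symm, hu.2⟩)
  have hmeml : ∀ v, v ∈ l ↔ v ∈ A := fun v => by rw [← hl, List.mem_toFinset]
  have hlen : l.length = A.card := by rw [← hl, List.toFinset_card_of_nodup hnd]
  obtain ⟨e₀⟩ := Function.Embedding.nonempty_of_card_le
    (show Fintype.card W ≤ Fintype.card (Fin n) by rwa [Fintype.card_fin])
  have hmain := Pr_Emb (n := n) hP0 hP1 (fun v => Pool (χ v)) S z u₀ A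
    (fun v _ => by
      rw [← Set.ncard_coe_finset]
      refine le_trans (le_of_eq ?_) (hz v)
      congr 1
      ext u
      rw [Finset.mem_coe, hSmem]; rfl)
    (fun v hv v' hv' hne ⟨u, hu, hu'⟩ => hPd _ _ (hχ v hv v' hv' hne
      ⟨u, (hSmem v u).1 hu, (hSmem v' u).1 hu'⟩))
    (fun v hv => by
      rw [hPc]
      refine Nat.add_le_add_right ?_ _
      refine Finset.card_le_card ?_
      intro w hw
      obtain ⟨hwA, hne, hnd'⟩ := Finset.mem_filter.1 hw
      refine Finset.mem_filter.2 ⟨hwA, ?_⟩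
      by_contra hc
      exact hnd' (hPd _ _ hc))
    l ∅ e₀ hG (fun v hv => (hmeml v).1 hv) (Finset.empty_subset A) hnd
    (fun v _ => Finset.notMem_empty v) (by simp) (by simp)
  rw [hlen] at hmain
  have h2 : gnpProb n P {G | F.IsContained G}
      = Pr P (fun ω : EdgeSlot n → Bool => F.IsContained (graphOf ω)) :=
    bernoulliProb_eq P (fun ω : EdgeSlot n → Bool => F.IsContained (graphOf ω))
  rw [h2]
  refine le_trans (by linarith) (hmain.trans (Pr_mono hP0 hP1 ?_))
  intro ω hω
  obtain ⟨ψ, _, hinj, hadj⟩ := Emb_extract _ S ω l ∅ e₀ hG (by simp) hω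
  have hinj' : Set.InjOn ψ A := by
    refine hinj.mono ?_
    intro w hw
    right
    rw [List.coe_toFinset]
    exact (hmeml w).2 (Finset.mem_coe.1 hw)
  obtain ⟨g, hg, hgψ⟩ := exists_extend hW A ψ hinj'
  have hhom : ∀ a b, F.Adj a b → (graphOf ω).Adj (g a) (g b) := by
    intro a b hab
    have ha := hA a b hab
    have hb := hA b a hab.symm
    rw [hgψ a ha, hgψ b hb]
    have hne : ord a ≠ ord b := fun h => hab.ne (hord h)
    rcases lt_or_gt_of_ne hne with h | h
    · exact (hadj b ((hmeml b).2 hb) a ((hSmem b a).2 ⟨hab.symm, h⟩)).symm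
    · exact hadj a ((hmeml a).2 ha) b ((hSmem a b).2 ⟨hab, h⟩)
  exact ⟨⟨⟨g, fun {a b} h => hhom a b h⟩, hg⟩⟩

/-- LOW classes: at most `z` earlier and at most `D` later neighbours -/
theorem low_class (n : ℕ) (P : ℝ) (hP0 : 0 ≤ P) (hP1 : P ≤ 1) (F : SimpleGraph W)
    (hW : Fintype.card W ≤ n) (ord : W → ℕ) (hord : Function.Injective ord) (A : Finset W)
    (hA : ∀ u v, F.Adj u v → u ∈ A) (z D u₀ : ℕ)
    (hz : ∀ v, Set.ncard {u | F.Adj v u ∧ ord u < ord v} ≤ z)
    (hD : ∀ u, Set.ncard {v | F.Adj v u ∧ ord u < ord v} ≤ D)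
    (hsize : A.card + (z * D + 1) * u₀ ≤ n)
    (hprob : (A.card : ℝ) * (1 - P ^ z) ^ u₀ ≤ 1 / 2) :
    1 / 2 ≤ gnpProb n P {G | F.IsContained G} := by
  classical
  let R : W → W → Prop := fun v v' =>
    ∃ u, (F.Adj v u ∧ ord u < ord v) ∧ (F.Adj v' u ∧ ord u < ord v')
  obtain ⟨χ, hχ⟩ := exists_greedy R (fun a b ⟨u, h1, h2⟩ => ⟨u, h2, h1⟩) (z * D + 1)
    (Nat.succ_pos _) A (by
      intro a ha
      rw [Nat.lt_succ_iff]
      have hsub : {b | b ∈ A ∧ b ≠ a ∧ R a b} ⊆
          ⋃ u ∈ {u | F.Adj a u ∧ ord u < ord a}, {v | F.Adj v u ∧ ord u < ord v} := by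
        rintro b ⟨_, _, u, h1, h2⟩
        exact Set.mem_biUnion h1 h2
      refine (Set.ncard_le_ncard hsub (Set.toFinite _)).trans ?_
      have hfin : ({u | F.Adj a u ∧ ord u < ord a} : Set W).Finite := Set.toFinite _
      have h1 : (⋃ u ∈ {u | F.Adj a u ∧ ord u < ord a}, {v | F.Adj v u ∧ ord u < ord v})
          = ⋃ u ∈ hfin.toFinset, {v | F.Adj v u ∧ ord u < ord v} := by
        ext x; simp
      rw [h1]
      refine (Finset.set_ncard_biUnion_le _ _).trans ?_
      refine (Finset.sum_le_card_nsmul _ _ D fun u _ => hD u).trans ?_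
      rw [smul_eq_mul, ← Set.ncard_eq_toFinset_card _ hfin]
      exact Nat.mul_le_mul_right D (hz a))
  exact seq_class n P hP0 hP1 F hW ord hord A hA z (z * D + 1) u₀ hz χ
    (fun v hv v' hv' hne h => hχ v hv v' hv' hne h) hsize hprob

/-- SMALL classes: few vertices, private pools -/
theorem small_class (n : ℕ) (P : ℝ) (hP0 : 0 ≤ P) (hP1 : P ≤ 1) (F : SimpleGraph W)
    (hW : Fintype.card W ≤ n) (ord : W → ℕ) (hord : Function.Injective ord) (A : Finset W)
    (hA : ∀ u v, F.Adj u v → u ∈ A) (z u₀ : ℕ)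
    (hz : ∀ v, Set.ncard {u | F.Adj v u ∧ ord u < ord v} ≤ z)
    (hsize : A.card + A.card * u₀ ≤ n)
    (hprob : (A.card : ℝ) * (1 - P ^ z) ^ u₀ ≤ 1 / 2) :
    1 / 2 ≤ gnpProb n P {G | F.IsContained G} := by
  classical
  rcases A.eq_empty_or_nonempty with hAe | ⟨a₀, ha₀⟩
  · -- no edges at all
    subst hAe
    refine low_class n P hP0 hP1 F hW ord hord ∅ hA z 0 0 hz ?_ (by simp) (by simp)
    intro u
    have : {v | F.Adj v u ∧ ord u < ord v} = ∅ := by
      ext v
      simp only [Set.mem_ofPred_eq, Set.mem_empty_iff_false, iff_false]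
      exact fun h => absurd (hA v u h.1) (Finset.notMem_empty v)
    rw [this, Set.ncard_empty]
  · have hpos : 0 < A.card := Finset.card_pos.2 ⟨a₀, ha₀⟩
    let e := A.equivFin
    refine seq_class n P hP0 hP1 F hW ord hord A hA z A.card u₀ hz
      (fun v => if h : v ∈ A then e ⟨v, h⟩ else ⟨0, hpos⟩) ?_ hsize hprob
    intro v hv v' hv' hne _ he
    simp only [hv, hv', dif_pos] at he
    exact hne (congrArg Subtype.val (e.injective he))

end Final

end Crest.Agent.R052.Seq
end

-- ▼ part R052/LowSmallI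
section

/-!
Row 52, S0073: `low`, `small` of the interface.
-/

set_option autoImplicit false

open Crest.CombinatoricsR.RandomGraph

namespace Crest.Agent.R052.LowSmall

theorem low : ∃ n0 : ℕ, ∀ n ≥ n0, ∀ (W : Type) [Fintype W] [DecidableEq W]
    (F : SimpleGraph W) (ord : W → ℕ) (A : Finset W) (p : ℝ) (z D : ℕ),
    Fintype.card W ≤ n → 0 < p → p ≤ 1 / 2 → Function.Injective ord →
    (∀ u v, F.Adj u v → u ∈ A) → 2 * A.card ≤ n → 1 ≤ p ^ (64 * z) * n → D ^ 16 ≤ n →
    (∀ v, Set.ncard {u | F.Adj v u ∧ ord u < ord v} ≤ z) →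
    (∀ u, Set.ncard {v | F.Adj v u ∧ ord u < ord v} ≤ D) →
    1 / 2 ≤ gnpProb n p {G | F.IsContained G} :=
  low_of (fun _ _ _ => Seq.low_class)

theorem small : ∃ n0 : ℕ, ∀ n ≥ n0, ∀ (W : Type) [Fintype W] [DecidableEq W]
    (F : SimpleGraph W) (ord : W → ℕ) (A : Finset W) (p : ℝ) (z : ℕ),
    Fintype.card W ≤ n → 0 < p → p ≤ 1 / 2 → Function.Injective ord →
    (∀ u v, F.Adj u v → u ∈ A) → A.card ^ 32 ≤ n ^ 31 → 1 ≤ p ^ (64 * z) * n →
    (∀ v, Set.ncard {u | F.Adj v u ∧ ord u < ord v} ≤ z) →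
    1 / 2 ≤ gnpProb n p {G | F.IsContained G} :=
  small_of (fun _ _ _ => Seq.small_class)

end Crest.Agent.R052.LowSmall
end

-- ▼ part R052/Star1
section

/-! Row 52, S0073, STAR part 1: independent coins, and the serving process. -/

set_option autoImplicit false
set_option linter.unusedSectionVars false

namespace Crest.Agent.R052.Star

open Crest.FinProb Finset

section basic

variable {ι : Type*} [Fintype ι] [DecidableEq ι]

theorem bW_nonneg {p : ℝ} (h0 : 0 ≤ p) (h1 : p ≤ 1) (ω : ι → Bool) : 0 ≤ bernoulliWeight p ω := by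
  unfold bernoulliWeight
  refine prod_nonneg fun i _ => ?_
  split_ifs
  · exact h0
  · linarith

/-- expectation of a product of functions of the single coins -/
theorem sum_bW_prod (p : ℝ) (g : ι → Bool → ℝ) :
    ∑ ω : ι → Bool, bernoulliWeight p ω * ∏ i, g i (ω i)
      = ∏ i, (p * g i true + (1 - p) * g i false) := by
  have h1 : ∀ ω : ι → Bool, bernoulliWeight p ω * ∏ i, g i (ω i)
      = ∏ i, ((if ω i then p else 1 - p) * g i (ω i)) := by
    intro ω
    unfold bernoulliWeight
    rw [prod_mul_distrib]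
  rw [Finset.sum_congr rfl fun ω _ => h1 ω,
    ← Fintype.prod_sum (fun i b => (if b then p else 1 - p) * g i b)]
  refine prod_congr rfl fun i _ => ?_
  rw [Fintype.sum_bool]
  simp

theorem sum_bW (p : ℝ) : ∑ ω : ι → Bool, bernoulliWeight p ω = 1 := by
  have h := sum_bW_prod (ι := ι) p (fun _ _ => 1)
  simpa using h

/-- `(1 - p) ^ |S|`-type products: functions of the coins in `S` only -/
theorem sum_bW_prod_subset (p : ℝ) (S : Finset ι) (g : ι → Bool → ℝ) :
    ∑ ω : ι → Bool, bernoulliWeight p ω * ∏ i ∈ S, g i (ω i)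
      = ∏ i ∈ S, (p * g i true + (1 - p) * g i false) := by
  classical
  have h := sum_bW_prod (ι := ι) p (fun i b => if i ∈ S then g i b else 1)
  have h1 : ∀ ω : ι → Bool, (∏ i, if i ∈ S then g i (ω i) else 1) = ∏ i ∈ S, g i (ω i) := by
    intro ω
    rw [Fintype.prod_ite_mem]
  simp only [h1] at h
  rw [h, ← Fintype.prod_ite_mem S]
  refine prod_congr rfl fun i _ => ?_
  by_cases hi : i ∈ S
  · simp [hi]
  · simp [hi]

end basic

section serve

variable {Y : Type*} [Fintype Y] [DecidableEq Y]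

/-- the weight of a random `0/1`-matrix with rows `Fin a` -/
noncomputable def rowW (P : ℝ) {a : ℕ} (M : Fin a → Y → Bool) : ℝ := ∏ i, bernoulliWeight P (M i)

theorem rowW_nonneg {P : ℝ} (h0 : 0 ≤ P) (h1 : P ≤ 1) {a : ℕ} (M : Fin a → Y → Bool) :
    0 ≤ rowW P M := prod_nonneg fun i _ => bW_nonneg h0 h1 (M i)

theorem sum_rowW (P : ℝ) (a : ℕ) : ∑ M : Fin a → Y → Bool, rowW P M = 1 := by
  unfold rowW
  rw [← Fintype.prod_sum (fun (_ : Fin a) (ω : Y → Bool) => bernoulliWeight P ω)]
  simp [sum_bW]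

theorem sum_rowW_cons (P : ℝ) (a : ℕ) (F : (Fin (a + 1) → Y → Bool) → ℝ) :
    ∑ M : Fin (a + 1) → Y → Bool, rowW P M * F M
      = ∑ b : Y → Bool, bernoulliWeight P b *
          ∑ M : Fin a → Y → Bool, rowW P M * F (Fin.cons b M) := by
  rw [← (Fin.consEquiv (fun _ : Fin (a + 1) => Y → Bool)).sum_comp, Fintype.sum_prod_type]
  refine sum_congr rfl fun b _ => ?_
  rw [mul_sum]
  refine sum_congr rfl fun M _ => ?_
  have h : rowW P ((Fin.consEquiv (fun _ : Fin (a + 1) => Y → Bool)) (b, M))
      = bernoulliWeight P b * rowW P M := by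
    unfold rowW
    rw [Fin.prod_univ_succ]
    rfl
  rw [h, mul_assoc]
  rfl

/-- the cores `Fin m` with degrees `deg` can be served by distinct rows and disjoint sets of
columns outside `R` -/
def Serv {a m : ℕ} (M : Fin a → Y → Bool) (R : Finset Y) (deg : Fin m → ℕ) : Prop :=
  ∃ (f : Fin m → Fin a) (Q : Fin m → Finset Y), Function.Injective f ∧
    (∀ i, (Q i).card = deg i) ∧ (∀ i j, i ≠ j → Disjoint (Q i) (Q j)) ∧
    (∀ i, Disjoint (Q i) R) ∧ ∀ i, ∀ y ∈ Q i, M (f i) y = true

theorem Serv.skip {a m : ℕ} {M : Fin a → Y → Bool} {R : Finset Y} {deg : Fin m → ℕ}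
    (h : Serv M R deg) (b : Y → Bool) :
    Serv (Fin.cons b M : Fin (a + 1) → Y → Bool) R deg := by
  obtain ⟨f, Q, h1, h2, h3, h4, h5⟩ := h
  exact ⟨fun i => (f i).succ, Q, fun i j hij => h1 (Fin.succ_injective _ hij), h2, h3, h4,
    fun i y hy => by simpa using h5 i y hy⟩

theorem Serv.serve {a m : ℕ} {M : Fin a → Y → Bool} {R Q0 : Finset Y} {deg : Fin (m + 1) → ℕ}
    {b : Y → Bool} (hQ0 : Q0.card = deg 0) (hR : Disjoint Q0 R) (hb : ∀ y ∈ Q0, b y = true)
    (h : Serv M (R ∪ Q0) (fun i => deg i.succ)) :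
    Serv (Fin.cons b M : Fin (a + 1) → Y → Bool) R deg := by
  obtain ⟨f, Q, h1, h2, h3, h4, h5⟩ := h
  refine ⟨Fin.cons 0 (fun i => (f i).succ), Fin.cons Q0 Q, ?_, ?_, ?_, ?_, ?_⟩
  · intro i j
    refine Fin.cases ?_ (fun i => ?_) i <;> refine Fin.cases ?_ (fun j => ?_) j
    · intro _; rfl
    · intro h
      rw [Fin.cons_zero, Fin.cons_succ] at h
      exact absurd h.symm (Fin.succ_ne_zero _)
    · intro h
      rw [Fin.cons_zero, Fin.cons_succ] at h
      exact absurd h (Fin.succ_ne_zero _)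
    · intro h
      simp only [Fin.cons_succ] at h
      rw [h1 (Fin.succ_injective _ h)]
  · intro i
    refine Fin.cases ?_ (fun i => ?_) i
    · simpa using hQ0
    · simpa using h2 i
  · intro i j
    have h4' : ∀ i, Disjoint (Q i) Q0 := fun i => (h4 i).mono_right subset_union_right
    refine Fin.cases ?_ (fun i => ?_) i <;> refine Fin.cases ?_ (fun j => ?_) j
    · intro h; exact absurd rfl h
    · intro _; simpa using (h4' j).symm
    · intro _; simpa using h4' i
    · intro h
      simpa using h3 i j (fun hh => h (by rw [hh]))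
  · intro i
    refine Fin.cases ?_ (fun i => ?_) i
    · simpa using hR
    · simpa using (h4 i).mono_right subset_union_left
  · intro i
    refine Fin.cases ?_ (fun i => ?_) i
    · simpa using hb
    · simpa using h5 i

theorem Serv.zero {a : ℕ} (M : Fin a → Y → Bool) (R : Finset Y) (deg : Fin 0 → ℕ) :
    Serv M R deg :=
  ⟨Fin.elim0, Fin.elim0, fun i => i.elim0, fun i => i.elim0, fun i => i.elim0, fun i => i.elim0,
    fun i => i.elim0⟩

/-- the probability that the cores cannot be served -/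
noncomputable def pf (P : ℝ) (a m : ℕ) (R : Finset Y) (deg : Fin m → ℕ) : ℝ :=
  open Classical in ∑ M : Fin a → Y → Bool, rowW P M * (if Serv M R deg then 0 else 1)

theorem pf_nonneg {P : ℝ} (h0 : 0 ≤ P) (h1 : P ≤ 1) (a m : ℕ) (R : Finset Y) (deg : Fin m → ℕ) :
    0 ≤ pf P a m R deg := by
  classical
  unfold pf
  refine sum_nonneg fun M _ => mul_nonneg (rowW_nonneg h0 h1 M) ?_
  split_ifs <;> norm_num

theorem pf_le_one {P : ℝ} (h0 : 0 ≤ P) (h1 : P ≤ 1) (a m : ℕ) (R : Finset Y) (deg : Fin m → ℕ) :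
    pf P a m R deg ≤ 1 := by
  classical
  rw [← sum_rowW (Y := Y) P a]
  unfold pf
  refine sum_le_sum fun M _ => ?_
  have := rowW_nonneg h0 h1 M
  split_ifs <;> linarith

/-- number of fresh successes -/
def fresh (R : Finset Y) (b : Y → Bool) : Finset Y := univ.filter (fun y => y ∉ R ∧ b y = true)

/-- **the serving process**: the failure probability is at most the total need divided by the
number of rows -/
theorem mul_pf_le (P : ℝ) (h0 : 0 ≤ P) (h1 : P ≤ 1) (K : ℕ) (π : ℕ → ℝ) (hπ0 : ∀ d, 0 < π d)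
    (hπ : ∀ (R : Finset Y) (d : ℕ), R.card + d ≤ K →
      π d ≤ ∑ b : Y → Bool, bernoulliWeight P b * (if d ≤ (fresh R b).card then 1 else 0)) :
    ∀ (a m : ℕ) (R : Finset Y) (deg : Fin m → ℕ), R.card + ∑ i, deg i ≤ K →
      (a : ℝ) * pf P a m R deg ≤ ∑ i, 1 / π (deg i) := by
  classical
  intro a
  induction a with
  | zero =>
    intro m R deg _
    rw [Nat.cast_zero, zero_mul]
    exact sum_nonneg fun i _ => by have := hπ0 (deg i); positivity
  | succ a ih =>
    intro m
    cases m with
    | zero =>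
      intro R deg _
      have h : pf P (a + 1) 0 R deg = 0 := by
        unfold pf
        refine sum_eq_zero fun M _ => ?_
        rw [if_pos (Serv.zero M R deg), mul_zero]
      rw [h, mul_zero]
      exact sum_nonneg fun i _ => by have := hπ0 (deg i); positivity
    | succ m =>
      intro R deg hK
      set h : ℝ := ∑ i, 1 / π (deg i) with hh
      set h' : ℝ := ∑ i : Fin m, 1 / π (deg i.succ) with hh'
      have hsum : h = 1 / π (deg 0) + h' := by
        rw [hh, hh', Fin.sum_univ_succ]
      have hdeg : ∑ i, deg i = deg 0 + ∑ i : Fin m, deg i.succ := Fin.sum_univ_succ _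
      have hpos := hπ0 (deg 0)
      -- one step
      have hstep : (a : ℝ) * pf P (a + 1) (m + 1) R deg
          ≤ ∑ b : Y → Bool, bernoulliWeight P b *
            (h - (1 / π (deg 0)) * (if deg 0 ≤ (fresh R b).card then 1 else 0)) := by
        unfold pf
        rw [sum_rowW_cons, mul_sum]
        refine sum_le_sum fun b _ => ?_
        rw [mul_left_comm]
        refine mul_le_mul_of_nonneg_left ?_ (bW_nonneg h0 h1 b)
        by_cases hb : deg 0 ≤ (fresh R b).card
        · rw [if_pos hb]
          obtain ⟨Q0, hQ0, hQc⟩ := Finset.exists_subset_card_eq hb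
          have hQR : Disjoint Q0 R := by
            rw [Finset.disjoint_left]
            intro y hy hyR
            exact ((mem_filter.1 (hQ0 hy)).2.1) hyR
          have hQb : ∀ y ∈ Q0, b y = true := fun y hy => (mem_filter.1 (hQ0 hy)).2.2
          have hIH := ih m (R ∪ Q0) (fun i => deg i.succ) (by
            rw [card_union_of_disjoint hQR.symm, hQc]; omega)
          have hle : ∑ M : Fin a → Y → Bool, rowW P M *
              (if Serv (Fin.cons b M : Fin (a + 1) → Y → Bool) R deg then (0:ℝ) else 1)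
              ≤ pf P a m (R ∪ Q0) (fun i => deg i.succ) := by
            unfold pf
            refine sum_le_sum fun M _ => ?_
            refine mul_le_mul_of_nonneg_left ?_ (rowW_nonneg h0 h1 M)
            by_cases hs : Serv M (R ∪ Q0) (fun i => deg i.succ)
            · rw [if_pos hs, if_pos (Serv.serve hQc hQR hQb hs)]
            · rw [if_neg hs]
              split_ifs <;> norm_num
          have h3 := mul_le_mul_of_nonneg_left hle (Nat.cast_nonneg (α := ℝ) a)
          rw [mul_one]
          have h4 : h - 1 / π (deg 0) = h' := by rw [hsum]; ring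
          rw [h4]
          exact h3.trans hIH
        · rw [if_neg hb]
          have hIH := ih (m + 1) R deg hK
          have hle : ∑ M : Fin a → Y → Bool, rowW P M *
              (if Serv (Fin.cons b M : Fin (a + 1) → Y → Bool) R deg then (0:ℝ) else 1)
              ≤ pf P a (m + 1) R deg := by
            unfold pf
            refine sum_le_sum fun M _ => ?_
            refine mul_le_mul_of_nonneg_left ?_ (rowW_nonneg h0 h1 M)
            by_cases hs : Serv M R deg
            · rw [if_pos hs, if_pos (hs.skip b)]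
            · rw [if_neg hs]
              split_ifs <;> norm_num
          have h3 := mul_le_mul_of_nonneg_left hle (Nat.cast_nonneg (α := ℝ) a)
          rw [mul_zero, sub_zero]
          exact h3.trans hIH
      have hprob := hπ R (deg 0) (by omega)
      have hstep2 : ∑ b : Y → Bool, bernoulliWeight P b *
            (h - (1 / π (deg 0)) * (if deg 0 ≤ (fresh R b).card then 1 else 0)) ≤ h - 1 := by
        have e1 : ∑ b : Y → Bool, bernoulliWeight P b *
            (h - (1 / π (deg 0)) * (if deg 0 ≤ (fresh R b).card then (1:ℝ) else 0))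
            = h * ∑ b : Y → Bool, bernoulliWeight P b - (1 / π (deg 0)) *
              ∑ b : Y → Bool, bernoulliWeight P b * (if deg 0 ≤ (fresh R b).card then 1 else 0) := by
          rw [mul_sum, mul_sum, ← sum_sub_distrib]
          refine sum_congr rfl fun b _ => ?_
          ring
        rw [e1, sum_bW, mul_one]
        have h2 : 1 ≤ (1 / π (deg 0)) *
              ∑ b : Y → Bool, bernoulliWeight P b * (if deg 0 ≤ (fresh R b).card then 1 else 0) := by
          rw [one_div, inv_mul_eq_div, le_div_iff₀ hpos, one_mul]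
          exact hprob
        linarith
      have h5 := hstep.trans hstep2
      have h6 := pf_le_one h0 h1 (a + 1) (m + 1) R deg
      push_cast
      rw [add_mul, one_mul]
      linarith

end serve

end Crest.Agent.R052.Star
end

-- ▼ part R052/StarNum
section

/-!
Numeric half of the STAR lemma of row 52 (S0073): the sum `∑ 1/π(d_j) ≤ n/8`.
-/

set_option autoImplicit false

namespace Crest.Agent.R052.Star

/-- lower bound for `P(Bin(N,P) ≥ d)`, `μ = N P` -/
noncomputable def piB (μ : ℝ) (d : ℕ) : ℝ :=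
  if 8 * (d : ℝ) ≤ μ then 1 / 2 else (μ * Real.exp (-45) / d) ^ d

lemma sum_geom_Icc_le (q : ℝ) (hq0 : 0 ≤ q) (hq : q ≤ 1 / 2) (N : ℕ) :
    ∑ d ∈ Finset.Icc 1 N, q ^ d ≤ 2 * q := by
  have h : ∀ N : ℕ, ∑ d ∈ Finset.Icc 1 N, q ^ d ≤ 2 * q - 2 * (q * q ^ N) := by
    intro N
    induction N with
    | zero => simp
    | succ N ih =>
      rw [Finset.sum_Icc_succ_top (by omega)]
      have h1 : 0 ≤ q ^ (N + 1) := by positivity
      have e : q * q ^ N = q ^ (N + 1) := by rw [pow_succ]; ring
      have : q * q ^ (N + 1) ≤ 1 / 2 * q ^ (N + 1) := mul_le_mul_of_nonneg_right hq h1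
      have h2 : 0 ≤ q * q ^ N := by positivity
      linarith
  have h1 := h N
  have h2 : 0 ≤ q * q ^ N := by positivity
  linarith

theorem star_num (n : ℕ) (p : ℝ) (hp : 0 < p) {m : ℕ} (deg : Fin m → ℕ)
    (hdeg : ∀ i, 1 ≤ deg i) (hsum : 64 * ∑ i, deg i ≤ n)
    (hst : ∀ d : ℕ, 1 ≤ d → ((Finset.univ.filter (fun i => d ≤ deg i)).card : ℝ) ≤
      2 * Real.exp 1 * n * (Real.exp 1 * n * p / d) ^ d) :
    ∑ i, 1 / piB (3 / 8 * n * (Real.exp 60 * p)) (deg i) ≤ n / 8 := by
  set μ : ℝ := 3 / 8 * n * (Real.exp 60 * p) with hμ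
  have hm : 64 * m ≤ n := by
    have h1 : m ≤ ∑ i, deg i := by
      calc m = ∑ _i : Fin m, 1 := by simp
        _ ≤ ∑ i, deg i := Finset.sum_le_sum (fun i _ => hdeg i)
    omega
  rcases Nat.eq_zero_or_pos n with hn | hn
  · have hm0 : m = 0 := by omega
    subst hm0
    simp
    positivity
  have hnpos : (0 : ℝ) < n := by exact_mod_cast hn
  have hμpos : 0 < μ := by rw [hμ]; positivity
  set g : ℕ → ℝ := fun d => (d * Real.exp 45 / μ) ^ d with hg
  have hgnn : ∀ d, 0 ≤ g d := fun d => by simp only [hg]; positivity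
  have key : ∀ i, 1 / piB μ (deg i) ≤ 2 + g (deg i) := by
    intro i
    unfold piB
    split_ifs with h
    · have := hgnn (deg i); norm_num; linarith
    · have hd : (0 : ℝ) < deg i := by exact_mod_cast hdeg i
      have e : 1 / (μ * Real.exp (-45) / (deg i : ℝ)) ^ deg i = g (deg i) := by
        simp only [hg]
        rw [one_div, ← inv_pow, Real.exp_neg]
        congr 1
        field_simp
      rw [e]; linarith
  set q : ℝ := 8 / 3 * Real.exp (-14) with hq
  have hq0 : 0 ≤ q := by rw [hq]; positivity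
  have he14 : Real.exp (-14) ≤ 1 / 16384 := by
    rw [Real.exp_neg, ← one_div]
    apply one_div_le_one_div_of_le (by norm_num)
    have h2 : (2 : ℝ) ≤ Real.exp 1 := by
      have := Real.add_one_le_exp (1 : ℝ); linarith
    calc (16384 : ℝ) = 2 ^ 14 := by norm_num
      _ ≤ Real.exp 1 ^ 14 := pow_le_pow_left₀ (by norm_num) h2 14
      _ = Real.exp 14 := by rw [← Real.exp_nat_mul]; norm_num
  have hq1 : q ≤ 1 / 1000 := by rw [hq]; linarith
  have he1 : Real.exp 1 ≤ 3 := by
    have := Real.exp_one_lt_d9; linarith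
  -- the sum of g
  have hgsum : ∑ i, g (deg i) ≤ n / 16 := by
    have hmaps : ∀ i ∈ (Finset.univ : Finset (Fin m)), deg i ∈ Finset.Icc 1 n := by
      intro i _
      rw [Finset.mem_Icc]
      refine ⟨hdeg i, ?_⟩
      have : deg i ≤ ∑ i, deg i := Finset.single_le_sum (f := deg) (fun _ _ => Nat.zero_le _)
        (Finset.mem_univ i)
      omega
    rw [← Finset.sum_fiberwise_of_maps_to hmaps]
    have hterm : ∀ d ∈ Finset.Icc 1 n,
        ∑ i ∈ Finset.univ.filter (fun i => deg i = d), g (deg i) ≤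
          2 * Real.exp 1 * n * q ^ d := by
      intro d hd
      rw [Finset.mem_Icc] at hd
      have hdpos : (0 : ℝ) < d := by exact_mod_cast hd.1
      have e1 : ∑ i ∈ Finset.univ.filter (fun i => deg i = d), g (deg i) =
          ((Finset.univ.filter (fun i => deg i = d)).card : ℝ) * g d := by
        rw [← nsmul_eq_mul, ← Finset.sum_const]
        apply Finset.sum_congr rfl
        intro i hi
        rw [Finset.mem_filter] at hi
        rw [hi.2]
      rw [e1]
      have h1 : ((Finset.univ.filter (fun i => deg i = d)).card : ℝ) ≤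
          ((Finset.univ.filter (fun i => d ≤ deg i)).card : ℝ) := by
        exact_mod_cast Finset.card_le_card (by
          intro i hi
          rw [Finset.mem_filter] at hi ⊢
          exact ⟨hi.1, hi.2.ge⟩)
      calc ((Finset.univ.filter (fun i => deg i = d)).card : ℝ) * g d
          ≤ (2 * Real.exp 1 * n * (Real.exp 1 * n * p / d) ^ d) * g d :=
            mul_le_mul_of_nonneg_right (h1.trans (hst d hd.1)) (hgnn d)
        _ = 2 * Real.exp 1 * n * ((Real.exp 1 * n * p / d) * (d * Real.exp 45 / μ)) ^ d := by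
            simp only [hg]; rw [mul_pow]; ring
        _ = 2 * Real.exp 1 * n * q ^ d := by
            congr 2
            rw [hq, hμ]
            have e2 : Real.exp 60 = Real.exp 1 * Real.exp 45 * Real.exp 14 := by
              rw [← Real.exp_add, ← Real.exp_add]; norm_num
            rw [e2, Real.exp_neg]
            field_simp
    calc ∑ d ∈ Finset.Icc 1 n, ∑ i ∈ Finset.univ.filter (fun i => deg i = d), g (deg i)
        ≤ ∑ d ∈ Finset.Icc 1 n, 2 * Real.exp 1 * n * q ^ d := Finset.sum_le_sum hterm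
      _ = 2 * Real.exp 1 * n * ∑ d ∈ Finset.Icc 1 n, q ^ d := by rw [Finset.mul_sum]
      _ ≤ 2 * Real.exp 1 * n * (2 * q) := by
          apply mul_le_mul_of_nonneg_left (sum_geom_Icc_le q hq0 (by linarith) n)
          positivity
      _ ≤ 2 * 3 * n * (2 * (1 / 1000)) := by
          gcongr
      _ ≤ n / 16 := by nlinarith
  calc ∑ i, 1 / piB μ (deg i) ≤ ∑ i, (2 + g (deg i)) := Finset.sum_le_sum (fun i _ => key i)
    _ = 2 * m + ∑ i, g (deg i) := by
        rw [Finset.sum_add_distrib]; simp; ring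
    _ ≤ n / 8 := by
        have : (64 : ℝ) * m ≤ n := by exact_mod_cast hm
        linarith

end Crest.Agent.R052.Star
end

-- ▼ part R052/Star2
section

/-! Row 52, S0073, STAR part 2: lower bound for the probability of `d` successes. -/

set_option autoImplicit false
set_option linter.unusedSectionVars false

namespace Crest.Agent.R052.Star

open Crest.FinProb Finset

section tail

variable {Y : Type*} [Fintype Y] [DecidableEq Y]

theorem exp_one_ge_two : (2 : ℝ) ≤ Real.exp 1 := by
  have := Real.add_one_le_exp (1 : ℝ)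
  linarith

theorem tail_big {P : ℝ} (h0 : 0 ≤ P) (h1 : P ≤ 1) (F : Finset Y) (d : ℕ) {μ : ℝ}
    (hμ : μ ≤ P * F.card) (hd : 8 * (d : ℝ) ≤ μ) (hd1 : 1 ≤ d) :
    (1 / 2 : ℝ) ≤ ∑ b : Y → Bool, bernoulliWeight P b *
      (if d ≤ (F.filter (fun y => b y = true)).card then 1 else 0) := by
  classical
  have hsum := sum_bW (ι := Y) P
  have key : ∑ b : Y → Bool, bernoulliWeight P b *
      (if d ≤ (F.filter (fun y => b y = true)).card then 0 else 1) ≤ 1 / 2 := by
    have hpt : ∀ b : Y → Bool,
        (if d ≤ (F.filter (fun y => b y = true)).card then (0:ℝ) else 1)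
          ≤ Real.exp d * ∏ y ∈ F, (if b y = true then Real.exp (-1) else 1) := by
      intro b
      have hprod : ∏ y ∈ F, (if b y = true then Real.exp (-1) else (1:ℝ))
          = Real.exp (-((F.filter (fun y => b y = true)).card : ℝ)) := by
        rw [← prod_filter, prod_const, ← Real.exp_nat_mul]
        congr 1; ring
      rw [hprod, ← Real.exp_add]
      split_ifs with hc
      · positivity
      · push Not at hc
        have : (((F.filter (fun y => b y = true)).card : ℕ) : ℝ) < d := by exact_mod_cast hc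
        exact Real.one_le_exp (by linarith)
    calc ∑ b : Y → Bool, bernoulliWeight P b *
          (if d ≤ (F.filter (fun y => b y = true)).card then (0:ℝ) else 1)
        ≤ ∑ b : Y → Bool, bernoulliWeight P b *
          (Real.exp d * ∏ y ∈ F, (if b y = true then Real.exp (-1) else 1)) :=
          sum_le_sum fun b _ => mul_le_mul_of_nonneg_left (hpt b) (bW_nonneg h0 h1 b)
      _ = Real.exp d * ∑ b : Y → Bool, bernoulliWeight P b *
            ∏ y ∈ F, (if b y = true then Real.exp (-1) else 1) := by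
          rw [mul_sum]; exact sum_congr rfl fun b _ => by ring
      _ = Real.exp d * (P * Real.exp (-1) + (1 - P)) ^ F.card := by
          rw [sum_bW_prod_subset P F (fun _ t => if t = true then Real.exp (-1) else 1)]
          simp
      _ ≤ Real.exp d * Real.exp (-(P * F.card) / 2) := by
          refine mul_le_mul_of_nonneg_left ?_ (Real.exp_pos _).le
          have he : Real.exp (-1) ≤ 1 / 2 := by
            rw [Real.exp_neg, ← one_div]
            exact one_div_le_one_div_of_le (by norm_num) exp_one_ge_two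
          have hb : P * Real.exp (-1) + (1 - P) ≤ Real.exp (-P / 2) := by
            have h2 := Real.add_one_le_exp (-P / 2)
            nlinarith
          have hnn : 0 ≤ P * Real.exp (-1) + (1 - P) := by
            have := Real.exp_pos (-1); nlinarith [mul_nonneg h0 this.le]
          calc (P * Real.exp (-1) + (1 - P)) ^ F.card ≤ (Real.exp (-P / 2)) ^ F.card :=
                pow_le_pow_left₀ hnn hb _
            _ = Real.exp (-(P * F.card) / 2) := by
                rw [← Real.exp_nat_mul]; congr 1; ring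
      _ ≤ 1 / 2 := by
          rw [← Real.exp_add]
          have hd1' : (1:ℝ) ≤ d := by exact_mod_cast hd1
          have h3 : (d:ℝ) + -(P * F.card) / 2 ≤ -1 := by linarith
          refine (Real.exp_le_exp.2 h3).trans ?_
          rw [Real.exp_neg, ← one_div]
          exact one_div_le_one_div_of_le (by norm_num) exp_one_ge_two
  have hadd : ∑ b : Y → Bool, bernoulliWeight P b *
      (if d ≤ (F.filter (fun y => b y = true)).card then (1:ℝ) else 0)
      + ∑ b : Y → Bool, bernoulliWeight P b *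
      (if d ≤ (F.filter (fun y => b y = true)).card then (0:ℝ) else 1) = 1 := by
    rw [← sum_add_distrib]
    refine Eq.trans (sum_congr rfl fun b _ => ?_) hsum
    split_ifs <;> ring
  linarith

theorem prob_exact (P : ℝ) (F S : Finset Y) (hS : S ⊆ F) :
    ∑ b : Y → Bool, bernoulliWeight P b * (if F.filter (fun y => b y = true) = S then 1 else 0)
      = P ^ S.card * (1 - P) ^ (F.card - S.card) := by
  classical
  have hpt : ∀ b : Y → Bool, (if F.filter (fun y => b y = true) = S then (1:ℝ) else 0)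
      = ∏ y ∈ F, (if y ∈ S then (if b y = true then 1 else 0) else (if b y = true then 0 else 1)) := by
    intro b
    by_cases h : F.filter (fun y => b y = true) = S
    · rw [if_pos h]
      symm
      refine prod_eq_one fun y hy => ?_
      have hyS : y ∈ S ↔ b y = true := by
        rw [← h, mem_filter]; exact ⟨fun hh => hh.2, fun hh => ⟨hy, hh⟩⟩
      by_cases hb : b y = true
      · simp [hb, hyS.2 hb]
      · have : y ∉ S := fun hh => hb (hyS.1 hh)
        simp [hb, this]
    · rw [if_neg h]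
      symm
      have hex : ∃ y ∈ F, ¬ (y ∈ S ↔ b y = true) := by
        by_contra hcon
        push Not at hcon
        apply h
        ext y
        rw [mem_filter]
        constructor
        · rintro ⟨hy, hb⟩; exact (hcon y hy).2 hb
        · intro hy; exact ⟨hS hy, (hcon y (hS hy)).1 hy⟩
      obtain ⟨y, hy, hne⟩ := hex
      refine prod_eq_zero hy ?_
      by_cases hyS : y ∈ S <;> by_cases hb : b y = true
      · exact absurd ⟨fun _ => hb, fun _ => hyS⟩ hne
      · simp [hyS, hb]
      · simp [hyS, hb]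
      · exact absurd ⟨fun hh => absurd hh hyS, fun hh => absurd hh hb⟩ hne
  rw [sum_congr rfl fun b _ => by rw [hpt b],
    sum_bW_prod_subset P F (fun y t => if y ∈ S then (if t = true then (1:ℝ) else 0)
      else (if t = true then 0 else 1))]
  have h2 : ∀ y ∈ F, (P * (if y ∈ S then (if (true : Bool) = true then (1:ℝ) else 0)
      else (if (true : Bool) = true then 0 else 1)) + (1 - P) * (if y ∈ S then
        (if (false : Bool) = true then (1:ℝ) else 0) else (if (false : Bool) = true then 0 else 1)))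
      = if y ∈ S then P else 1 - P := by
    intro y _
    by_cases hy : y ∈ S
    · simp [hy]
    · simp [hy]
  rw [prod_congr rfl h2, prod_ite, prod_const, prod_const]
  have h3 : F.filter (fun y => y ∈ S) = S := by
    ext y; rw [mem_filter]; exact ⟨fun h => h.2, fun h => ⟨hS h, h⟩⟩
  have h4 : (F.filter (fun y => y ∉ S)).card = F.card - S.card := by
    have := Finset.card_filter_add_card_filter_not (s := F) (fun y => y ∈ S)
    rw [h3] at this
    omega
  rw [h3, h4]

theorem tail_small {P : ℝ} (h0 : 0 ≤ P) (h1 : P ≤ 1) (F : Finset Y) (d : ℕ) :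
    (F.card.choose d : ℝ) * (P ^ d * (1 - P) ^ (F.card - d)) ≤ ∑ b : Y → Bool,
      bernoulliWeight P b * (if d ≤ (F.filter (fun y => b y = true)).card then 1 else 0) := by
  classical
  have h2 : (F.card.choose d : ℝ) * (P ^ d * (1 - P) ^ (F.card - d))
      = ∑ S ∈ F.powersetCard d, ∑ b : Y → Bool, bernoulliWeight P b *
        (if F.filter (fun y => b y = true) = S then 1 else 0) := by
    rw [← card_powersetCard d F, ← nsmul_eq_mul, ← sum_const]
    refine sum_congr rfl fun S hS => ?_
    rw [mem_powersetCard] at hS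
    rw [prob_exact P F S hS.1, hS.2]
  rw [h2, sum_comm]
  refine sum_le_sum fun b _ => ?_
  rw [← mul_sum]
  refine mul_le_mul_of_nonneg_left ?_ (bW_nonneg h0 h1 b)
  rw [sum_ite_eq]
  by_cases h3 : F.filter (fun y => b y = true) ∈ F.powersetCard d
  · rw [if_pos h3, if_pos (by rw [mem_powersetCard] at h3; exact h3.2.ge)]
  · rw [if_neg h3]
    split_ifs <;> norm_num

theorem choose_ge {N d : ℕ} (hd : 1 ≤ d) (h : 2 * d ≤ N) :
    ((N : ℝ) / (2 * d)) ^ d ≤ (N.choose d : ℝ) := by
  have h1 := Nat.pow_le_choose (α := ℝ) d N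
  refine le_trans ?_ h1
  have hd0 : (0:ℝ) < d := by exact_mod_cast hd
  have hfac : ((d.factorial : ℕ) : ℝ) ≤ (d:ℝ) ^ d := by exact_mod_cast Nat.factorial_le_pow d
  have hfac0 : (0:ℝ) < (d.factorial : ℝ) := by exact_mod_cast Nat.factorial_pos d
  have h2 : (N:ℝ) / 2 ≤ ((N + 1 - d : ℕ) : ℝ) := by
    rw [Nat.cast_sub (by omega)]
    push_cast
    have : (2:ℝ) * d ≤ N := by exact_mod_cast h
    linarith
  rw [le_div_iff₀ hfac0]
  calc ((N : ℝ) / (2 * d)) ^ d * (d.factorial : ℝ) ≤ ((N : ℝ) / (2 * d)) ^ d * (d:ℝ) ^ d :=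
        mul_le_mul_of_nonneg_left hfac (by positivity)
    _ = ((N:ℝ) / 2) ^ d := by
        rw [← mul_pow]; congr 1; field_simp
    _ ≤ _ := pow_le_pow_left₀ (by positivity) h2 d

theorem one_sub_pow_ge {P : ℝ} (h0 : 0 ≤ P) (h1 : P ≤ 1 / 2) (N : ℕ) :
    Real.exp (-(2 * P * N)) ≤ (1 - P) ^ N := by
  have h2 : Real.exp (-(2 * P)) ≤ 1 - P := by
    have h3 := Real.add_one_le_exp (2 * P)
    have h4 : 1 ≤ (1 - P) * Real.exp (2 * P) := by
      have : (1 - P) * (2 * P + 1) ≤ (1 - P) * Real.exp (2 * P) :=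
        mul_le_mul_of_nonneg_left h3 (by linarith)
      nlinarith
    rw [Real.exp_neg, ← one_div, div_le_iff₀ (Real.exp_pos _)]
    exact h4
  calc Real.exp (-(2 * P * N)) = (Real.exp (-(2 * P))) ^ N := by
        rw [← Real.exp_nat_mul]; congr 1; ring
    _ ≤ _ := pow_le_pow_left₀ (Real.exp_pos _).le h2 N

/-- **tail bound** -/
theorem tail_bound {P : ℝ} (h0 : 0 ≤ P) (h1 : P ≤ 1) (n : ℕ) (hY1 : (n : ℝ) / 2 ≤ Fintype.card Y)
    (hY2 : Fintype.card Y ≤ n) (R : Finset Y) (d : ℕ) (hRd : 64 * (R.card + d) ≤ n) :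
    piB (3 / 8 * n * P) d ≤ ∑ b : Y → Bool, bernoulliWeight P b *
      (if d ≤ (fresh R b).card then 1 else 0) := by
  classical
  have hfr : ∀ b : Y → Bool, fresh R b = (Rᶜ).filter (fun y => b y = true) := by
    intro b
    ext y
    simp [fresh]
  simp only [hfr]
  have hRd' : (64:ℝ) * (R.card + d) ≤ n := by exact_mod_cast hRd
  have hF : ((Rᶜ).card : ℝ) = Fintype.card Y - R.card := by
    rw [card_compl, Nat.cast_sub (card_le_univ R)]
  have hR0 : (0:ℝ) ≤ R.card := Nat.cast_nonneg _
  have hdn : (0:ℝ) ≤ d := Nat.cast_nonneg _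
  have hF1 : 3 / 8 * (n:ℝ) ≤ (Rᶜ).card := by rw [hF]; linarith
  have hF2 : ((Rᶜ).card : ℝ) ≤ n := by
    rw [hF]
    have : (Fintype.card Y : ℝ) ≤ n := by exact_mod_cast hY2
    linarith
  unfold piB
  split_ifs with hd
  · rcases Nat.eq_zero_or_pos d with hz | hz
    · subst hz
      simp only [Nat.zero_le, if_true, mul_one]
      rw [sum_bW]; norm_num
    · exact tail_big h0 h1 _ d (by nlinarith) hd hz
  · push Not at hd
    have hd1 : 1 ≤ d := by
      by_contra hcon
      have : d = 0 := by omega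
      subst this
      simp only [Nat.cast_zero, mul_zero] at hd
      have : 0 ≤ 3 / 8 * (n:ℝ) * P := by positivity
      linarith
    have hd1' : (1:ℝ) ≤ d := by exact_mod_cast hd1
    have hP2 : P ≤ 1 / 2 := by
      by_contra hcon
      push Not at hcon
      nlinarith
    have h2d : 2 * d ≤ (Rᶜ).card := by
      have : (2:ℝ) * d ≤ (Rᶜ).card := by nlinarith
      exact_mod_cast this
    refine le_trans ?_ (tail_small h0 h1 (Rᶜ) d)
    have hc := choose_ge hd1 h2d
    have hp := one_sub_pow_ge h0 hP2 (Rᶜ).card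
    have hp' : (1 - P) ^ (Rᶜ).card ≤ (1 - P) ^ ((Rᶜ).card - d) :=
      pow_le_pow_of_le_one (by linarith) (by linarith) (Nat.sub_le _ _)
    have he : Real.exp (-(43 * d)) ≤ (1 - P) ^ ((Rᶜ).card - d) := by
      refine le_trans (Real.exp_le_exp.2 ?_) (hp.trans hp')
      nlinarith
    have hPn : 3 / 8 * (n:ℝ) * P ≤ (Rᶜ).card * P := mul_le_mul_of_nonneg_right hF1 h0
    have he2 : Real.exp (-45) ≤ Real.exp (-43) / 2 := by
      have h3 : Real.exp (-45) = Real.exp (-43) * Real.exp (-2) := by
        rw [← Real.exp_add]; norm_num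
      have h4 : Real.exp (-2) ≤ 1 / 2 := by
        rw [Real.exp_neg, ← one_div]
        refine one_div_le_one_div_of_le (by norm_num) ?_
        have := Real.add_one_le_exp (2:ℝ)
        linarith
      rw [h3]
      have := Real.exp_pos (-43)
      nlinarith
    calc (3 / 8 * (n:ℝ) * P * Real.exp (-45) / d) ^ d
        ≤ ((Rᶜ).card / (2 * d) * P * Real.exp (-43)) ^ d := by
          refine pow_le_pow_left₀ (by positivity) ?_ d
          rw [div_le_iff₀ (by linarith)]
          have h5 : (Rᶜ).card / (2 * (d:ℝ)) * P * Real.exp (-43) * d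
              = (Rᶜ).card * P * (Real.exp (-43) / 2) := by
            field_simp
          rw [h5]
          have h6 := Real.exp_pos (-45)
          have h7 : 0 ≤ ((Rᶜ).card : ℝ) * P := by positivity
          calc 3 / 8 * (n:ℝ) * P * Real.exp (-45) ≤ (Rᶜ).card * P * Real.exp (-45) :=
                mul_le_mul_of_nonneg_right hPn h6.le
            _ ≤ _ := mul_le_mul_of_nonneg_left he2 h7
      _ = ((Rᶜ).card / (2 * (d:ℝ))) ^ d * (P ^ d * Real.exp (-(43 * d))) := by
          rw [mul_pow, mul_pow, mul_assoc]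
          congr 2
          rw [← Real.exp_nat_mul]; congr 1; ring
      _ ≤ _ := by
          refine mul_le_mul hc ?_ (by positivity) (by positivity)
          exact mul_le_mul_of_nonneg_left he (by positivity)

end tail

end Crest.Agent.R052.Star
end

-- ▼ part R052/Star3
section

/-! Row 52, S0073, STAR part 3: star forests in `G(n, L p)`. -/

set_option autoImplicit false
set_option linter.unusedSectionVars false

namespace Crest.Agent.R052.Star

open Crest.FinProb Finset Crest.CombinatoricsR.RandomGraph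

section marg

variable {ι : Type*} [Fintype ι] [DecidableEq ι] {Y : Type*} [Fintype Y] [DecidableEq Y]

/-- marginal: coins at the places `e (i, y)` form a random matrix -/
theorem sum_marg (P : ℝ) {a : ℕ} (e : Fin a × Y → ι) (he : Function.Injective e)
    (Φ : (Fin a → Y → Bool) → ℝ) :
    ∑ ω : ι → Bool, bernoulliWeight P ω * Φ (fun i y => ω (e (i, y)))
      = ∑ M : Fin a → Y → Bool, rowW P M * Φ M := by
  classical
  have key : ∀ M : Fin a → Y → Bool, ∑ ω : ι → Bool, bernoulliWeight P ω *
      (if (fun i y => ω (e (i, y))) = M then 1 else 0) = rowW P M := by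
    intro M
    set ext : ι → Bool := Function.extend e (fun q => M q.1 q.2) (fun _ => false) with hext
    have hexte : ∀ q, ext (e q) = M q.1 q.2 := fun q => he.extend_apply _ _ _
    have hpt : ∀ ω : ι → Bool, (if (fun i y => ω (e (i, y))) = M then (1:ℝ) else 0)
        = ∏ k ∈ univ.image e, (if ω k = ext k then 1 else 0) := by
      intro ω
      rw [prod_image (fun x _ y _ h => he h)]
      by_cases h : (fun i y => ω (e (i, y))) = M
      · rw [if_pos h]
        symm
        refine prod_eq_one fun q _ => ?_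
        rw [if_pos]
        rw [hexte, ← h]
      · rw [if_neg h]
        symm
        have : ∃ q : Fin a × Y, ω (e q) ≠ M q.1 q.2 := by
          by_contra hcon
          push Not at hcon
          exact h (funext fun i => funext fun y => hcon (i, y))
        obtain ⟨q, hq⟩ := this
        refine prod_eq_zero (mem_univ q) ?_
        rw [if_neg]
        rw [hexte]; exact hq
    rw [sum_congr rfl fun ω _ => by rw [hpt ω],
      sum_bW_prod_subset P (univ.image e) (fun k t => if t = ext k then (1:ℝ) else 0),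
      prod_image (fun x _ y _ h => he h)]
    unfold rowW bernoulliWeight
    rw [Fintype.prod_prod_type]
    refine prod_congr rfl fun i _ => prod_congr rfl fun y _ => ?_
    rw [hexte]
    cases M i y <;> simp
  have h1 : ∀ ω : ι → Bool, Φ (fun i y => ω (e (i, y)))
      = ∑ M : Fin a → Y → Bool, Φ M * (if (fun i y => ω (e (i, y))) = M then 1 else 0) := by
    intro ω
    simp
  calc ∑ ω : ι → Bool, bernoulliWeight P ω * Φ (fun i y => ω (e (i, y)))
      = ∑ ω : ι → Bool, ∑ M : Fin a → Y → Bool, Φ M * (bernoulliWeight P ω *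
          (if (fun i y => ω (e (i, y))) = M then 1 else 0)) := by
        refine sum_congr rfl fun ω _ => ?_
        rw [h1 ω, mul_sum]
        exact sum_congr rfl fun M _ => by ring
    _ = ∑ M : Fin a → Y → Bool, Φ M * ∑ ω : ι → Bool, bernoulliWeight P ω *
          (if (fun i y => ω (e (i, y))) = M then 1 else 0) := by
        rw [sum_comm]
        exact sum_congr rfl fun M _ => by rw [mul_sum]
    _ = _ := by
        refine sum_congr rfl fun M _ => ?_
        rw [key]; ring

end marg

/-- extension of a partial injection to all of `W` -/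
theorem exists_extend {n : ℕ} {W : Type} [Fintype W] (hW : Fintype.card W ≤ n) (s : Finset W)
    (f : W → Fin n) (hf : Set.InjOn f s) :
    ∃ g : W → Fin n, Function.Injective g ∧ ∀ i ∈ s, g i = f i := by
  classical
  obtain ⟨t, ht1, ht2⟩ : ∃ t : Finset (Fin n), s.image f ⊆ t ∧ t.card = Fintype.card W := by
    obtain ⟨t, h1, h2, h3⟩ := Finset.exists_subsuperset_card_eq (subset_univ (s.image f))
      (n := Fintype.card W) (card_image_le.trans (card_le_univ s)) (by simpa using hW)
    exact ⟨t, h1, h3⟩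
  obtain ⟨g, hg⟩ := Finset.exists_equiv_extend_of_card_eq ht2.symm ht1 hf
  exact ⟨fun w => g w, fun a b h => g.injective (Subtype.ext h), hg⟩

/-- deterministic part: a served star forest is contained in the graph -/
theorem contained_of_serv {n a : ℕ} {W : Type} [Fintype W] [DecidableEq W]
    (hW : Fintype.card W ≤ n) (A : Finset W) (f : W → W) (hfA : ∀ v ∈ A, f v ∉ A)
    {m : ℕ} (c : Fin m ≃ (A.image f : Finset W)) (ω : EdgeSlot n → Bool)
    (rowV : Fin a → Fin n) {b : ℕ} (colV : Fin b → Fin n) (hrow : Function.Injective rowV)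
    (hcol : Function.Injective colV) (hne : ∀ i y, rowV i ≠ colV y)
    (e : Fin a × Fin b → EdgeSlot n) (hev : ∀ i y, (e (i, y)).1 = s(rowV i, colV y))
    (hs : Serv (fun i y => ω (e (i, y))) ∅
      (fun i => (A.filter fun v => f v = (c i : W)).card)) :
    (SimpleGraph.fromRel fun v b => v ∈ A ∧ f v = b).IsContained (graphOf ω) := by
  classical
  obtain ⟨r, Q, hr, hQc, hQd, -, hQ⟩ := hs
  -- bijections of the leaves with the served columns
  have hbij : ∀ i, Nonempty ({v // v ∈ A.filter fun v => f v = (c i : W)} ≃ {y // y ∈ Q i}) := by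
    intro i
    refine ⟨Fintype.equivOfCardEq ?_⟩
    rw [Fintype.card_coe, Fintype.card_coe, hQc i]
  obtain ⟨bij⟩ : Nonempty (∀ i, ({v // v ∈ A.filter fun v => f v = (c i : W)} ≃ {y // y ∈ Q i})) :=
    ⟨fun i => (hbij i).some⟩
  -- the index of the core of a leaf
  have hidx : ∀ v ∈ A, f v ∈ A.image f := fun v hv => mem_image_of_mem f hv
  by_cases hn : n = 0
  · subst hn
    have : IsEmpty W := by
      rw [← Fintype.card_eq_zero_iff]; omega
    exact ⟨⟨⟨fun w => (IsEmpty.false w).elim, fun {a} => (IsEmpty.false a).elim⟩,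
      fun a => (IsEmpty.false a).elim⟩⟩
  have hn0 : 0 < n := Nat.pos_of_ne_zero hn
  let φ : W → Fin n := fun w =>
    if hA : w ∈ A then
      colV (bij (c.symm ⟨f w, hidx w hA⟩) ⟨w, by
        rw [mem_filter]; exact ⟨hA, by simp⟩⟩).1
    else if hC : w ∈ A.image f then rowV (r (c.symm ⟨w, hC⟩)) else ⟨0, hn0⟩
  have hφA : ∀ w (hA : w ∈ A), φ w = colV (bij (c.symm ⟨f w, hidx w hA⟩) ⟨w, by
        rw [mem_filter]; exact ⟨hA, by simp⟩⟩).1 := fun w hA => dif_pos hA
  have hφC : ∀ w (hA : w ∉ A) (hC : w ∈ A.image f), φ w = rowV (r (c.symm ⟨w, hC⟩)) := by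
    intro w hA hC
    simp only [φ, dif_neg hA, dif_pos hC]
  have hCA : ∀ w ∈ A.image f, w ∉ A := by
    intro w hw
    obtain ⟨v, hv, rfl⟩ := mem_image.1 hw
    exact hfA v hv
  -- injectivity
  have hinj : Set.InjOn φ (A ∪ A.image f : Finset W) := by
    intro x hx y hy hxy
    rw [mem_coe, mem_union] at hx hy
    by_cases hxA : x ∈ A <;> by_cases hyA : y ∈ A
    · rw [hφA x hxA, hφA y hyA] at hxy
      have h1 := hcol hxy
      by_cases hi : c.symm ⟨f x, hidx x hxA⟩ = c.symm ⟨f y, hidx y hyA⟩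
      · -- same core
        have hfxy : f x = f y := congrArg Subtype.val (c.symm.injective hi)
        have key : ∀ (i j : Fin m) (hij : i = j) (hx' : x ∈ A.filter fun v => f v = (c i : W))
            (hy' : y ∈ A.filter fun v => f v = (c j : W)),
            ((bij i ⟨x, hx'⟩).1 = (bij j ⟨y, hy'⟩).1) → x = y := by
          intro i j hij hx' hy' h2
          subst hij
          have h3 := (bij i).injective (Subtype.ext h2)
          exact congrArg Subtype.val h3
        exact key _ _ hi _ _ h1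
      · exfalso
        have h2 := hQd _ _ hi
        rw [Finset.disjoint_left] at h2
        refine h2 (bij (c.symm ⟨f x, hidx x hxA⟩) ⟨x, by
          rw [mem_filter]; exact ⟨hxA, by simp⟩⟩).2 ?_
        rw [h1]
        exact (bij (c.symm ⟨f y, hidx y hyA⟩) ⟨y, by
          rw [mem_filter]; exact ⟨hyA, by simp⟩⟩).2
    · have hyC : y ∈ A.image f := hy.resolve_left hyA
      rw [hφA x hxA, hφC y hyA hyC] at hxy
      exact absurd hxy.symm (hne _ _)
    · have hxC : x ∈ A.image f := hx.resolve_left hxA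
      rw [hφC x hxA hxC, hφA y hyA] at hxy
      exact absurd hxy (hne _ _)
    · have hxC : x ∈ A.image f := hx.resolve_left hxA
      have hyC : y ∈ A.image f := hy.resolve_left hyA
      rw [hφC x hxA hxC, hφC y hyA hyC] at hxy
      exact congrArg Subtype.val (c.symm.injective (hr (hrow hxy)))
  obtain ⟨g, hg, hgφ⟩ := exists_extend hW (A ∪ A.image f) φ hinj
  -- edges
  have hedge : ∀ v ∈ A, (graphOf ω).Adj (g v) (g (f v)) := by
    intro v hv
    have hfv : f v ∈ A.image f := hidx v hv
    rw [hgφ v (mem_union_left _ hv), hgφ (f v) (mem_union_right _ hfv), hφA v hv,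
      hφC (f v) (hfA v hv) hfv]
    set i := c.symm ⟨f v, hfv⟩ with hi
    set y := (bij i ⟨v, by rw [mem_filter]; exact ⟨hv, by simp [hi]⟩⟩) with hy
    have h1 := hQ i y.1 y.2
    unfold graphOf
    rw [SimpleGraph.fromEdgeSet_adj]
    refine ⟨?_, (hne _ _).symm⟩
    rw [Set.mem_ofPred_eq, Sym2.eq_swap]
    have h2 := hev (r i) y.1
    rw [← h2]
    exact ⟨(e (r i, y.1)).2, h1⟩
  refine ⟨⟨⟨g, ?_⟩, hg⟩⟩
  intro u v huv
  rw [SimpleGraph.fromRel_adj] at huv
  rcases huv.2 with ⟨h1, h2⟩ | ⟨h1, h2⟩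
  · rw [← h2]; exact hedge u h1
  · rw [← h2]; exact (hedge v h1).symm

theorem piB_pos {μ : ℝ} (hμ : 0 < μ) (d : ℕ) : 0 < piB μ d := by
  unfold piB
  split_ifs with h
  · norm_num
  · have hd : (0:ℝ) < d := by
      by_contra hcon
      push Not at hcon
      apply h
      have : (0:ℝ) ≤ d := Nat.cast_nonneg d
      have h0 : (d:ℝ) = 0 := le_antisymm hcon this
      rw [h0]; linarith
    have := Real.exp_pos (-45)
    positivity

/-- **STAR**, explicit constant -/
theorem star_explicit {n : ℕ} (hn : 2 ≤ n) (W : Type) [Fintype W] [DecidableEq W]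
    (A : Finset W) (f : W → W) (p : ℝ)
    (hW : Fintype.card W ≤ n) (hp : 0 < p) (hLp : Real.exp 60 * p ≤ 1) (hA : 64 * A.card ≤ n)
    (hfA : ∀ v ∈ A, f v ∉ A)
    (hst : ∀ d : ℕ, 1 ≤ d →
      ((univ.filter fun b => d ≤ (A.filter fun v => f v = b).card).card : ℝ) ≤
      2 * Real.exp 1 * n * (Real.exp 1 * n * p / d) ^ d) :
    1 / 2 ≤ gnpProb n (Real.exp 60 * p)
      {G | (SimpleGraph.fromRel fun v b => v ∈ A ∧ f v = b).IsContained G} := by
  classical
  set P : ℝ := Real.exp 60 * p with hP
  have hP0 : 0 < P := by have := Real.exp_pos 60; positivity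
  set m := (A.image f).card with hm
  obtain ⟨c⟩ : Nonempty (Fin m ≃ (A.image f : Finset W)) := ⟨(A.image f).equivFin.symm⟩
  set deg : Fin m → ℕ := fun i => (A.filter fun v => f v = (c i : W)).card with hdeg
  have hdeg1 : ∀ i, 1 ≤ deg i := by
    intro i
    obtain ⟨v, hv, hvi⟩ := mem_image.1 (c i).2
    exact card_pos.2 ⟨v, mem_filter.2 ⟨hv, hvi⟩⟩
  have hsumdeg : ∑ i, deg i = A.card := by
    have h1 := Finset.card_eq_sum_card_image f A
    rw [h1, ← Finset.sum_coe_sort (A.image f) (fun b => (A.filter fun v => f v = b).card)]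
    exact Equiv.sum_comp c (fun b : (A.image f : Finset W) =>
      (A.filter fun v => f v = (b : W)).card)
  have hcount : ∀ d : ℕ, 1 ≤ d → (univ.filter (fun i => d ≤ deg i)).card
      ≤ (univ.filter fun b => d ≤ (A.filter fun v => f v = b).card).card := by
    intro d _
    refine Finset.card_le_card_of_injOn (fun i => (c i : W)) ?_ ?_
    · intro i hi
      rw [mem_coe, mem_filter] at hi ⊢
      exact ⟨mem_univ _, hi.2⟩
    · intro i _ j _ hij
      exact c.injective (Subtype.ext hij)
  have hnum := star_num n p hp deg hdeg1 (by rw [hsumdeg]; exact hA)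
    (fun d hd => le_trans (by exact_mod_cast hcount d hd) (hst d hd))
  rw [← hP] at hnum
  -- pools
  set a : ℕ := n / 2 with ha
  set b : ℕ := n - a with hb
  have hab : a + b = n := by omega
  let rowV : Fin a → Fin n := fun i => ⟨i.1, by omega⟩
  let colV : Fin b → Fin n := fun y => ⟨a + y.1, by omega⟩
  have hrow : Function.Injective rowV := by
    intro i j h
    have h1 : (rowV i).val = (rowV j).val := congrArg Fin.val h
    exact Fin.ext h1
  have hcol : Function.Injective colV := fun i j h => by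
    have := congrArg Fin.val h
    simp only [colV] at this
    exact Fin.ext (by omega)
  have hne : ∀ i y, rowV i ≠ colV y := fun i y h => by
    have := congrArg Fin.val h
    simp only [rowV, colV] at this
    have := i.2
    omega
  let e : Fin a × Fin b → EdgeSlot n := fun q =>
    ⟨s(rowV q.1, colV q.2), by rw [Sym2.mk_isDiag_iff]; exact hne q.1 q.2⟩
  have he : Function.Injective e := by
    rintro ⟨i, y⟩ ⟨j, z⟩ h
    have h1 := congrArg Subtype.val h
    simp only [e] at h1
    rw [Sym2.eq_iff] at h1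
    rcases h1 with ⟨h2, h3⟩ | ⟨h2, h3⟩
    · rw [hrow h2, hcol h3]
    · exact absurd h2 (hne _ _)
  -- the serving process
  have hpool : (n:ℝ) / 2 ≤ Fintype.card (Fin b) := by
    rw [Fintype.card_fin]
    have : n ≤ 2 * b := by omega
    have h2 : (n:ℝ) ≤ 2 * b := by exact_mod_cast this
    linarith
  have hn0 : (0:ℝ) < n := by exact_mod_cast (show 0 < n by omega)
  have hμ : 0 < 3 / 8 * (n:ℝ) * P := by positivity
  have hmain := mul_pf_le (Y := Fin b) P hP0.le hLp A.card (piB (3 / 8 * n * P))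
    (fun d => piB_pos hμ d)
    (fun R d hRd => tail_bound hP0.le hLp n hpool (by rw [Fintype.card_fin]; omega) R d (by omega))
    a m ∅ deg (by rw [hsumdeg]; simp)
  have hpf : pf P a m (∅ : Finset (Fin b)) deg ≤ 1 / 2 := by
    have h1 : (a:ℝ) * pf P a m (∅ : Finset (Fin b)) deg ≤ n / 8 := hmain.trans hnum
    have h2 : (n:ℝ) / 4 ≤ a := by
      have : n ≤ 4 * a := by omega
      have h3 : (n:ℝ) ≤ 4 * a := by exact_mod_cast this
      linarith
    have h3 := pf_nonneg hP0.le hLp a m (∅ : Finset (Fin b)) deg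
    have h4 : (n:ℝ) / 4 * pf P a m (∅ : Finset (Fin b)) deg ≤ n / 8 :=
      (mul_le_mul_of_nonneg_right h2 h3).trans h1
    by_contra hcon
    push Not at hcon
    have : (n:ℝ) / 4 * (1 / 2) < (n:ℝ) / 4 * pf P a m (∅ : Finset (Fin b)) deg :=
      mul_lt_mul_of_pos_left hcon (by positivity)
    linarith
  -- transfer
  have hmarg := sum_marg P e he (fun M : Fin a → Fin b → Bool =>
    if Serv M ∅ deg then (1:ℝ) else 0)
  have hpf2 : ∑ M : Fin a → Fin b → Bool, rowW P M * (if Serv M ∅ deg then (1:ℝ) else 0)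
      = 1 - pf P a m (∅ : Finset (Fin b)) deg := by
    unfold pf
    rw [eq_sub_iff_add_eq, ← sum_add_distrib]
    refine Eq.trans (sum_congr rfl fun M _ => ?_) (sum_rowW (Y := Fin b) P a)
    split_ifs <;> ring
  have hle : ∑ ω : EdgeSlot n → Bool, bernoulliWeight P ω *
      (if Serv (fun i y => ω (e (i, y))) ∅ deg then (1:ℝ) else 0)
      ≤ gnpProb n P {G | (SimpleGraph.fromRel fun v b => v ∈ A ∧ f v = b).IsContained G} := by
    unfold gnpProb bernoulliProb
    rw [sum_filter]
    refine sum_le_sum fun ω _ => ?_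
    by_cases hs : Serv (fun i y => ω (e (i, y))) ∅ deg
    · have hc := contained_of_serv hW A f hfA c ω rowV colV hrow hcol hne e (fun i y => rfl) hs
      rw [if_pos hs, if_pos (by exact hc), mul_one]
    · rw [if_neg hs, mul_zero]
      split_ifs
      · exact bW_nonneg hP0.le hLp ω
      · exact le_rfl
  have : (1:ℝ) / 2 ≤ 1 - pf P a m (∅ : Finset (Fin b)) deg := by linarith
  refine this.trans ?_
  rw [← hpf2, ← hmarg]
  exact hle


end Crest.Agent.R052.Star
end

-- ▼ part R052/Setup
section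

/-!
Row 52 (S0073), helper128: the cover by copies of a subgraph, the density `p*`.
-/

set_option autoImplicit false

open Finset
open Crest.CombinatoricsR.RandomGraph

namespace Crest.Agent.R052.Setup

/-- The slots hit by the edges in `J` under the vertex map `f`. -/
noncomputable def cs {W : Type*} (n : ℕ) (J : Finset (Sym2 W)) (f : W → Fin n) :
    Finset (EdgeSlot n) := by
  classical
  exact Finset.univ.filter (fun s : EdgeSlot n => ∃ e ∈ J, Sym2.map f e = s.1)

/-- All copies (as slot sets) of the edge set `J` under injections of the vertex set. -/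
noncomputable def copies {W : Type*} [Fintype W] (n : ℕ) (J : Finset (Sym2 W)) :
    Finset (Finset (EdgeSlot n)) := by
  classical
  exact (Finset.univ : Finset (W ↪ Fin n)).image (fun f : W ↪ Fin n => cs n J f)

theorem mem_cs {W : Type*} {n : ℕ} {J : Finset (Sym2 W)} {f : W → Fin n} {s : EdgeSlot n} :
    s ∈ cs n J f ↔ ∃ e ∈ J, Sym2.map f e = s.1 := by
  classical
  unfold cs
  simp

theorem mem_copies {W : Type*} [Fintype W] {n : ℕ} {J : Finset (Sym2 W)}
    {S : Finset (EdgeSlot n)} : S ∈ copies n J ↔ ∃ f : W ↪ Fin n, cs n J f = S := by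
  classical
  unfold copies
  simp

theorem not_isDiag_map {W V : Type*} {f : W → V} (hf : Function.Injective f) {e : Sym2 W}
    (he : ¬ e.IsDiag) : ¬ (Sym2.map f e).IsDiag := by
  induction e with
  | _ a b =>
    simp only [Sym2.map_mk, Sym2.mk_isDiag_iff] at he ⊢
    exact fun h => he (hf h)

theorem card_cs {W : Type*} {n : ℕ} {J : Finset (Sym2 W)} (hJ : ∀ e ∈ J, ¬ e.IsDiag)
    (f : W ↪ Fin n) : (cs n J f).card = J.card := by
  classical
  symm
  refine Finset.card_bij (fun e he => (⟨Sym2.map f e, not_isDiag_map f.injective (hJ e he)⟩ : EdgeSlot n))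
    ?_ ?_ ?_
  · intro e he
    rw [mem_cs]
    exact ⟨e, he, rfl⟩
  · intro e he e' he' h
    have := congrArg Subtype.val h
    exact Sym2.map.injective f.injective this
  · intro s hs
    rw [mem_cs] at hs
    obtain ⟨e, he, h⟩ := hs
    exact ⟨e, he, Subtype.ext h⟩

theorem card_of_mem_copies {W : Type*} [Fintype W] {n : ℕ} {J : Finset (Sym2 W)}
    (hJ : ∀ e ∈ J, ¬ e.IsDiag) {S : Finset (EdgeSlot n)} (hS : S ∈ copies n J) :
    S.card = J.card := by
  obtain ⟨f, rfl⟩ := mem_copies.1 hS
  exact card_cs hJ f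

theorem cost_copies {W : Type*} [Fintype W] {n : ℕ} {J : Finset (Sym2 W)}
    (hJ : ∀ e ∈ J, ¬ e.IsDiag) (p : ℝ) :
    ∑ S ∈ copies n J, p ^ S.card = ((copies n J).card : ℝ) * p ^ J.card := by
  rw [Finset.sum_congr rfl (fun S hS => by rw [card_of_mem_copies hJ hS]), Finset.sum_const,
    nsmul_eq_mul]

theorem copies_cover {W : Type*} [Fintype W] {n : ℕ} {H : SimpleGraph W} {J : Finset (Sym2 W)}
    (hJ : ∀ e ∈ J, e ∈ H.edgeSet) (A : Finset (EdgeSlot n)) (h : H.IsContained (edgeGraph A)) :
    ∃ S ∈ copies n J, S ⊆ A := by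
  obtain ⟨f⟩ := h
  refine ⟨cs n J f, mem_copies.2 ⟨⟨f, f.injective⟩, rfl⟩, ?_⟩
  intro s hs
  rw [mem_cs] at hs
  obtain ⟨e, he, h⟩ := hs
  have h1 : Sym2.map f e ∈ (edgeGraph A).edgeSet := by
    have := hJ e he
    induction e with
    | _ a b =>
      simp only [Sym2.map_mk, SimpleGraph.mem_edgeSet] at this ⊢
      exact f.toHom.map_adj this
  rw [h] at h1
  unfold edgeGraph at h1
  rw [SimpleGraph.edgeSet_fromEdgeSet] at h1
  obtain ⟨⟨h2, h3⟩, h4⟩ := h1
  exact h3



/-- Properties of the density `p`: the expected number of copies of each nonempty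
subgraph is at least `1/2`. -/
structure Dense {W : Type*} [Fintype W] (n : ℕ) (H : SimpleGraph W) (p : ℝ) : Prop where
  pos : 0 < p
  le_one : p ≤ 1
  half_le : ∀ J : Finset (Sym2 W), J.Nonempty → (∀ e ∈ J, e ∈ H.edgeSet) →
    1 / 2 ≤ ((copies n J).card : ℝ) * p ^ J.card

/-- `C` covers all edge sets containing a copy of `H`. -/
def IsCover {W : Type*} (n : ℕ) (H : SimpleGraph W) (C : Finset (Finset (EdgeSlot n))) : Prop :=
  ∀ A : Finset (EdgeSlot n), H.IsContained (edgeGraph A) → ∃ S ∈ C, S ⊆ A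

theorem edgeGraph_univ (n : ℕ) : edgeGraph (Finset.univ : Finset (EdgeSlot n)) = ⊤ := by
  ext a b
  unfold edgeGraph
  rw [SimpleGraph.fromEdgeSet_adj, SimpleGraph.top_adj]
  constructor
  · exact fun h => h.2
  · intro h
    refine ⟨?_, h⟩
    exact ⟨by simpa using h, Finset.mem_univ _⟩

theorem isContained_univ {W : Type*} [Fintype W] {n : ℕ} (hn : Fintype.card W ≤ n)
    (H : SimpleGraph W) : H.IsContained (edgeGraph (Finset.univ : Finset (EdgeSlot n))) := by
  have : Nonempty (W ↪ Fin n) := by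
    apply Function.Embedding.nonempty_of_card_le
    simpa using hn
  obtain ⟨f⟩ := this
  rw [edgeGraph_univ]
  exact ⟨⟨⟨f, fun {a b} h => by
    rw [SimpleGraph.top_adj]
    exact fun hh => h.ne (f.injective hh)⟩, f.injective⟩⟩

theorem IsCover.nonempty {W : Type*} [Fintype W] {n : ℕ} (hn : Fintype.card W ≤ n)
    {H : SimpleGraph W} {C : Finset (Finset (EdgeSlot n))} (hC : IsCover n H C) : C.Nonempty := by
  obtain ⟨S, hS, -⟩ := hC _ (isContained_univ hn H)
  exact ⟨S, hS⟩

/-- the cover by single slots -/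
theorem singles_cover {W : Type*} {n : ℕ} {H : SimpleGraph W} (hH : H ≠ ⊥) :
    IsCover n H ((Finset.univ : Finset (EdgeSlot n)).map ⟨fun s => {s}, Finset.singleton_injective⟩) := by
  obtain ⟨e0, he0⟩ : ∃ e, e ∈ H.edgeSet := by
    by_contra hcon
    push Not at hcon
    apply hH
    rw [← SimpleGraph.edgeSet_eq_empty]
    exact Set.eq_empty_of_forall_notMem hcon
  intro A hA
  obtain ⟨f⟩ := hA
  have h1 : Sym2.map f e0 ∈ (edgeGraph A).edgeSet := by
    induction e0 with
    | _ a b =>
      simp only [Sym2.map_mk, SimpleGraph.mem_edgeSet] at he0 ⊢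
      exact f.toHom.map_adj he0
  unfold edgeGraph at h1
  rw [SimpleGraph.edgeSet_fromEdgeSet] at h1
  obtain ⟨⟨h2, h3⟩, h4⟩ := h1
  refine ⟨{⟨Sym2.map f e0, h2⟩}, ?_, ?_⟩
  · rw [Finset.mem_map]
    exact ⟨_, Finset.mem_univ _, rfl⟩
  · rw [Finset.singleton_subset_iff]
    exact h3

/-- The largest density at which a cover of cost at most `1/2` exists. -/
theorem setup_strong (n : ℕ) (hn : 2 ≤ n) (W : Type*) [Fintype W] (H : SimpleGraph W)
    (hW : Fintype.card W ≤ n) (hH : H ≠ ⊥) :
    ∃ p : ℝ, 1 / (n : ℝ) ^ 2 ≤ p ∧ p < 1 ∧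
      (∃ C : Finset (Finset (EdgeSlot n)), IsCover n H C ∧ ∑ S ∈ C, p ^ S.card ≤ 1 / 2) ∧
      (∀ C : Finset (Finset (EdgeSlot n)), IsCover n H C → 1 / 2 ≤ ∑ S ∈ C, p ^ S.card) ∧
      (∀ p' : ℝ, p < p' → p' ≤ 1 → ∀ C : Finset (Finset (EdgeSlot n)), IsCover n H C →
        1 / 2 < ∑ S ∈ C, p' ^ S.card) := by
  classical
  let K : Set ℝ := ⋃ C ∈ (Finset.univ.filter (fun C => IsCover n H C) :
      Finset (Finset (Finset (EdgeSlot n)))),
      (Set.Icc (0:ℝ) 1 ∩ {p | ∑ S ∈ C, p ^ S.card ≤ 1 / 2})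
  have hcont : ∀ C : Finset (Finset (EdgeSlot n)), Continuous (fun p : ℝ => ∑ S ∈ C, p ^ S.card) :=
    fun C => continuous_finsetSum _ (fun S _ => continuous_pow _)
  have hK : IsCompact K := by
    apply Finset.isCompact_biUnion
    intro C _
    exact isCompact_Icc.inter_right (isClosed_le (hcont C) continuous_const)
  have hmem : ∀ p : ℝ, p ∈ K ↔ 0 ≤ p ∧ p ≤ 1 ∧ ∃ C : Finset (Finset (EdgeSlot n)),
      IsCover n H C ∧ ∑ S ∈ C, p ^ S.card ≤ 1 / 2 := by
    intro p
    simp only [K, Set.mem_iUnion, Finset.mem_filter, Finset.mem_univ, true_and, Set.mem_inter_iff,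
      Set.mem_Icc, Set.mem_ofPred_eq, exists_prop]
    constructor
    · rintro ⟨C, h1, h2, h3⟩
      exact ⟨h2.1, h2.2, C, h1, h3⟩
    · rintro ⟨h1, h2, C, h3, h4⟩
      exact ⟨C, h3, ⟨h1, h2⟩, h4⟩
  have hn0 : (0:ℝ) < n := by exact_mod_cast (by omega : 0 < n)
  have hn1 : (1:ℝ) ≤ n := by exact_mod_cast (by omega : 1 ≤ n)
  have hmem1 : 1 / (n : ℝ) ^ 2 ∈ K := by
    rw [hmem]
    refine ⟨by positivity, ?_, _, singles_cover hH, ?_⟩
    · rw [div_le_one (by positivity)]
      exact one_le_pow₀ hn1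
    · rw [Finset.sum_map]
      simp only [Function.Embedding.coeFn_mk, Finset.card_singleton, pow_one, Finset.sum_const,
        nsmul_eq_mul]
      have h1 : Fintype.card (EdgeSlot n) = n.choose 2 := by
        have := Sym2.card_subtype_not_diag (α := Fin n)
        simpa using this
      rw [Finset.card_univ, h1, Nat.cast_choose_two, mul_one_div, div_le_iff₀ (by positivity)]
      nlinarith
  obtain ⟨p, hpK, hpmax⟩ := hK.exists_isGreatest ⟨_, hmem1⟩
  have hp := (hmem p).1 hpK
  have hcost1 : ∀ C : Finset (Finset (EdgeSlot n)), IsCover n H C → (1:ℝ) ≤ ∑ S ∈ C, (1:ℝ) ^ S.card := by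
    intro C hC
    simp only [one_pow, Finset.sum_const, nsmul_eq_mul, mul_one]
    exact_mod_cast Finset.card_pos.2 (hC.nonempty hW)
  have hp1 : p < 1 := by
    rcases hp.2.1.lt_or_eq with h | h
    · exact h
    · exfalso
      obtain ⟨C, hC, hc⟩ := hp.2.2
      rw [h] at hc
      have := hcost1 C hC
      linarith
  have hlast : ∀ p' : ℝ, p < p' → p' ≤ 1 → ∀ C : Finset (Finset (EdgeSlot n)), IsCover n H C →
        1 / 2 < ∑ S ∈ C, p' ^ S.card := by
    intro p' hpp hp' C hC
    by_contra hcon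
    push Not at hcon
    have : p' ∈ K := (hmem p').2 ⟨by linarith [hp.1], hp', C, hC, hcon⟩
    have := hpmax this
    linarith
  refine ⟨p, hpmax hmem1, hp1, hp.2.2, ?_, hlast⟩
  intro C hC
  -- limit from the right
  have h1 : Filter.Tendsto (fun p' : ℝ => ∑ S ∈ C, p' ^ S.card) (nhdsWithin p (Set.Ioi p))
      (nhds (∑ S ∈ C, p ^ S.card)) :=
    ((hcont C).tendsto p).mono_left nhdsWithin_le_nhds
  refine ge_of_tendsto h1 ?_
  have h2 : Set.Ioc p 1 ∈ nhdsWithin p (Set.Ioi p) := Ioc_mem_nhdsGT hp1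
  filter_upwards [h2] with p' hp'
  exact (hlast p' hp'.1 hp'.2 C hC).le

end Crest.Agent.R052.Setup
end

-- ▼ part R052/Count
section

/-!
Row 52 (S0073), helper128: counting copies (densities, hubs, stars).
-/

set_option autoImplicit false

open Finset
open Crest.CombinatoricsR.RandomGraph

namespace Crest.Agent.R052.Setup

theorem card_image_le_of_factor {α β γ : Type*} [Fintype α] [DecidableEq β] [DecidableEq γ]
    (f : α → β) (g : α → γ) (h : ∀ a a', g a = g a' → f a = f a') :
    (Finset.univ.image f).card ≤ (Finset.univ.image g).card := by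
  classical
  rcases isEmpty_or_nonempty α with hα | hα
  · simp
  have hsel : ∀ b ∈ Finset.univ.image f, ∃ a, f a = b := fun b hb => by
    simpa using hb
  choose! s hs using hsel
  refine Finset.card_le_card_of_injOn (fun b => g (s b)) ?_ ?_
  · intro b _
    simp
  · intro b hb b' hb' hbb
    have := h _ _ hbb
    rw [hs b hb, hs b' hb'] at this
    exact this

theorem copies_card_le_of_code {W : Type*} [Fintype W] {n : ℕ} {J : Finset (Sym2 W)}
    {K : Type*} (code : (W ↪ Fin n) → K) (T : Finset K)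
    (hT : ∀ f, code f ∈ T) (h : ∀ f f', code f = code f' → cs n J f = cs n J f') :
    (copies n J).card ≤ T.card := by
  classical
  unfold copies
  refine (card_image_le_of_factor (fun f : W ↪ Fin n => cs n J f) code h).trans ?_
  apply Finset.card_le_card
  intro k hk
  rw [Finset.mem_image] at hk
  obtain ⟨f, -, rfl⟩ := hk
  exact hT f

theorem cs_congr {W : Type*} {n : ℕ} {J : Finset (Sym2 W)} {V : Finset W}
    (hV : ∀ e ∈ J, ∀ w ∈ e, w ∈ V) {f f' : W → Fin n} (h : ∀ w ∈ V, f w = f' w) :
    cs n J f = cs n J f' := by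
  ext s
  rw [mem_cs, mem_cs]
  constructor
  · rintro ⟨e, he, hs⟩
    refine ⟨e, he, ?_⟩
    rw [← hs]
    exact Sym2.map_congr (fun w hw => (h w (hV e he w hw)).symm)
  · rintro ⟨e, he, hs⟩
    refine ⟨e, he, ?_⟩
    rw [← hs]
    exact Sym2.map_congr (fun w hw => h w (hV e he w hw))

theorem card_copies_le_pow {W : Type*} [Fintype W] {n : ℕ} {J : Finset (Sym2 W)} {V : Finset W}
    (hV : ∀ e ∈ J, ∀ w ∈ e, w ∈ V) : ((copies n J).card : ℝ) ≤ (n : ℝ) ^ V.card := by
  classical
  have h1 : (copies n J).card ≤ (Finset.univ : Finset (V → Fin n)).card := by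
    refine copies_card_le_of_code (fun f : W ↪ Fin n => fun w : V => f w) _
      (fun f => Finset.mem_univ _) ?_
    intro f f' h
    apply cs_congr hV
    intro w hw
    exact congrFun h ⟨w, hw⟩
  rw [Finset.card_univ, Fintype.card_fun, Fintype.card_fin, Fintype.card_coe] at h1
  exact_mod_cast h1

/-- The density exponent. -/
noncomputable def DD (n : ℕ) (p : ℝ) : ℝ := Real.log n / Real.log (1 / p)

theorem DD_nonneg {n : ℕ} {p : ℝ} (hp0 : 0 < p) (hp1 : p ≤ 1) : 0 ≤ DD n p := by
  unfold DD
  apply div_nonneg (Real.log_natCast_nonneg n)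
  apply Real.log_nonneg
  rw [le_div_iff₀ hp0]; linarith

theorem Dense.density {W : Type*} [Fintype W] {n : ℕ} {H : SimpleGraph W} {p : ℝ}
    (hd : Dense n H p) (hn : 1 ≤ n) (hp : p ≤ 1 / 2) {J : Finset (Sym2 W)} {V : Finset W}
    (hJ : ∀ e ∈ J, e ∈ H.edgeSet) (hV : ∀ e ∈ J, ∀ w ∈ e, w ∈ V) :
    (J.card : ℝ) ≤ DD n p * V.card + 1 := by
  have hp0 := hd.pos
  have hD := DD_nonneg (n := n) hp0 hd.le_one
  rcases J.eq_empty_or_nonempty with rfl | hne
  · simp only [Finset.card_empty, Nat.cast_zero]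
    positivity
  have h1 := hd.half_le J hne hJ
  have h2 := card_copies_le_pow (n := n) hV
  have h3 : (1:ℝ) / 2 ≤ (n : ℝ) ^ V.card * p ^ J.card :=
    h1.trans (mul_le_mul_of_nonneg_right h2 (by positivity))
  have hn0 : (0:ℝ) < n := by exact_mod_cast hn
  have h4 : Real.log (1 / 2) ≤ V.card * Real.log n + J.card * Real.log p := by
    have := Real.log_le_log (by norm_num) h3
    rwa [Real.log_mul (by positivity) (by positivity), Real.log_pow, Real.log_pow] at this
  have hl : Real.log (1 / p) = - Real.log p := by rw [one_div, Real.log_inv]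
  have hl2 : Real.log (1 / 2) = - Real.log 2 := by rw [one_div, Real.log_inv]
  have hlp : Real.log 2 ≤ Real.log (1 / p) := by
    apply Real.log_le_log (by norm_num)
    rw [le_div_iff₀ hp0]; linarith
  have hlog2 : 0 < Real.log 2 := Real.log_pos (by norm_num)
  have hlpos : 0 < Real.log (1 / p) := by linarith
  have h5 : (J.card : ℝ) * Real.log (1 / p) ≤ V.card * Real.log n + Real.log (1 / p) := by
    rw [hl2] at h4
    rw [hl] at hlp ⊢
    nlinarith [h4, hlp]
  unfold DD
  rw [div_mul_eq_mul_div, div_add_one (ne_of_gt hlpos), le_div_iff₀ hlpos]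
  linarith

/-- All edges between `Z` and `T`. -/
noncomputable def biJ {W : Type*} (Z T : Finset W) : Finset (Sym2 W) := by
  classical
  exact (Z ×ˢ T).image (fun x => s(x.1, x.2))

theorem mem_biJ {W : Type*} {Z T : Finset W} {e : Sym2 W} :
    e ∈ biJ Z T ↔ ∃ a ∈ Z, ∃ b ∈ T, s(a, b) = e := by
  classical
  unfold biJ
  simp only [Finset.mem_image, Finset.mem_product, Prod.exists]
  constructor
  · rintro ⟨a, b, ⟨ha, hb⟩, h⟩; exact ⟨a, ha, b, hb, h⟩
  · rintro ⟨a, ha, b, hb, h⟩; exact ⟨a, b, ⟨ha, hb⟩, h⟩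

theorem card_biJ {W : Type*} {Z T : Finset W} (hZT : Disjoint Z T) :
    (biJ Z T).card = Z.card * T.card := by
  classical
  unfold biJ
  rw [Finset.card_image_of_injOn, Finset.card_product]
  rintro ⟨a, b⟩ hab ⟨a', b'⟩ hab' h
  simp only [Finset.coe_product, Set.mem_prod, Finset.mem_coe] at hab hab'
  simp only [Sym2.eq_iff] at h
  rcases h with ⟨rfl, rfl⟩ | ⟨h1, h2⟩
  · rfl
  · exfalso
    exact Finset.disjoint_left.1 hZT hab.1 (h1 ▸ hab'.2)

theorem card_copies_biJ {W : Type*} [Fintype W] (n : ℕ) (Z T : Finset W) :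
    (copies n (biJ Z T)).card ≤ n.choose Z.card * n.choose T.card := by
  classical
  have := copies_card_le_of_code (n := n) (J := biJ Z T)
    (fun f : W ↪ Fin n => (Z.map f, T.map f))
    ((Finset.univ : Finset (Fin n)).powersetCard Z.card ×ˢ
      (Finset.univ : Finset (Fin n)).powersetCard T.card)
    (fun f => by simp [Finset.mem_powersetCard]) ?_
  · simpa [Finset.card_powersetCard] using this
  · intro f f' h
    simp only [Prod.mk.injEq] at h
    obtain ⟨h1, h2⟩ := h
    have key : ∀ g g' : W ↪ Fin n, Z.map g = Z.map g' → T.map g = T.map g' →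
        cs n (biJ Z T) g ⊆ cs n (biJ Z T) g' := by
      intro g g' h1 h2 s hs
      rw [mem_cs] at hs ⊢
      obtain ⟨e, he, hs⟩ := hs
      rw [mem_biJ] at he
      obtain ⟨a, ha, b, hb, rfl⟩ := he
      have ha' : g a ∈ Z.map g' := by rw [← h1]; exact Finset.mem_map_of_mem g ha
      have hb' : g b ∈ T.map g' := by rw [← h2]; exact Finset.mem_map_of_mem g hb
      rw [Finset.mem_map] at ha' hb'
      obtain ⟨a', ha', haa⟩ := ha'
      obtain ⟨b', hb', hbb⟩ := hb'
      refine ⟨s(a', b'), mem_biJ.2 ⟨a', ha', b', hb', rfl⟩, ?_⟩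
      rw [← hs, Sym2.map_mk, Sym2.map_mk, haa, hbb]
    exact Finset.Subset.antisymm (key f f' h1 h2) (key f' f h1.symm h2.symm)

/-- `C(n,k) ≤ (e n / k)^k`. -/
theorem choose_le_exp (n k : ℕ) (hk : 1 ≤ k) :
    ((n.choose k : ℕ) : ℝ) ≤ (Real.exp 1 * n / k) ^ k := by
  have hk0 : (0:ℝ) < k := by exact_mod_cast hk
  have h1 : ((n.choose k : ℕ) : ℝ) ≤ (n : ℝ) ^ k / (k.factorial : ℝ) := by
    have := Nat.choose_le_pow_div (α := ℝ) k n
    simpa using this
  have h2 : ((k:ℝ) / Real.exp 1) ^ k ≤ (k.factorial : ℝ) := by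
    -- k^k/k! ≤ exp k
    have h3 : ((k:ℝ) ^ k) / (k.factorial : ℝ) ≤ Real.exp k :=
      Real.pow_div_factorial_le_exp (k:ℝ) hk0.le k
    have hf : (0:ℝ) < k.factorial := by exact_mod_cast Nat.factorial_pos k
    rw [div_pow, div_le_iff₀ (by positivity)]
    rw [div_le_iff₀ hf] at h3
    have h4 : Real.exp 1 ^ k = Real.exp k := by
      rw [← Real.exp_nat_mul]; simp
    rw [h4, mul_comm]
    exact h3
  have hpos : (0:ℝ) < ((k:ℝ) / Real.exp 1) ^ k := by positivity
  calc ((n.choose k : ℕ) : ℝ) ≤ (n : ℝ) ^ k / (k.factorial : ℝ) := h1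
    _ ≤ (n : ℝ) ^ k / ((k:ℝ) / Real.exp 1) ^ k := by
        apply div_le_div_of_nonneg_left (by positivity) hpos h2
    _ = (Real.exp 1 * n / k) ^ k := by
        rw [← div_pow]
        congr 1
        field_simp

end Crest.Agent.R052.Setup
end

-- ▼ part R052/Tails
section

/-!
Row 52 (S0073), helper128: tails of hub degrees (`K_{Z,T}`) and star degrees from `Dense`.
-/

set_option autoImplicit false

open Finset
open Crest.CombinatoricsR.RandomGraph

namespace Crest.Agent.R052.Setup

theorem Dense.hub_tail {W : Type*} [Fintype W] {n : ℕ} {H : SimpleGraph W} {p : ℝ}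
    (hd : Dense n H p) (hn : 1 ≤ n) {Z T : Finset W} (hZ : Z.Nonempty) (hZT : Disjoint Z T)
    (hadj : ∀ a ∈ Z, ∀ b ∈ T, H.Adj a b)
    (hlog : (Z.card : ℝ) * Real.log n ≤ n * p ^ Z.card) :
    (T.card : ℝ) ≤ Real.exp 3 * n * p ^ Z.card := by
  have hp0 := hd.pos
  have hn0 : (0:ℝ) < n := by exact_mod_cast hn
  have he3 : (1:ℝ) ≤ Real.exp 3 := Real.one_le_exp (by norm_num)
  have hnp : 0 ≤ (n:ℝ) * p ^ Z.card := by positivity
  rcases T.eq_empty_or_nonempty with rfl | hT
  · simp only [Finset.card_empty, Nat.cast_zero]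
    positivity
  rcases lt_or_ge (T.card : ℝ) ((Z.card : ℝ) * Real.log n) with hlt | hge
  · calc (T.card : ℝ) ≤ (n:ℝ) * p ^ Z.card := (hlt.le.trans hlog)
      _ ≤ Real.exp 3 * ((n:ℝ) * p ^ Z.card) := le_mul_of_one_le_left hnp he3
      _ = _ := by ring
  · have hJne : (biJ Z T).Nonempty := by
      obtain ⟨a, ha⟩ := hZ
      obtain ⟨b, hb⟩ := hT
      exact ⟨s(a, b), mem_biJ.2 ⟨a, ha, b, hb, rfl⟩⟩
    have hJH : ∀ e ∈ biJ Z T, e ∈ H.edgeSet := by
      intro e he
      obtain ⟨a, ha, b, hb, rfl⟩ := mem_biJ.1 he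
      exact hadj a ha b hb
    have h1 := hd.half_le _ hJne hJH
    rw [card_biJ hZT] at h1
    have h2 : ((copies n (biJ Z T)).card : ℝ) ≤ (n.choose Z.card : ℝ) * (n.choose T.card : ℝ) := by
      exact_mod_cast card_copies_biJ n Z T
    have hTc : 1 ≤ T.card := Finset.card_pos.2 hT
    have hT0 : (0:ℝ) < T.card := by exact_mod_cast hTc
    have h3 := choose_le_exp n T.card hTc
    have h4 : (n.choose Z.card : ℝ) ≤ (n:ℝ) ^ Z.card := by
      exact_mod_cast Nat.choose_le_pow n Z.card
    have h5 : (n:ℝ) ^ Z.card ≤ Real.exp 1 ^ T.card := by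
      rw [← Real.exp_nat_mul, mul_one]
      rw [← Real.log_le_iff_le_exp (by positivity), Real.log_pow]
      exact hge
    have h6 : (2:ℝ) ≤ Real.exp 1 ^ T.card := by
      have : (2:ℝ) ≤ Real.exp 1 := by
        have := Real.add_one_le_exp (1:ℝ)
        linarith
      calc (2:ℝ) ≤ Real.exp 1 := this
        _ = Real.exp 1 ^ 1 := (pow_one _).symm
        _ ≤ Real.exp 1 ^ T.card := pow_le_pow_right₀ (by linarith) hTc
    have h7 : (1:ℝ) ≤ (Real.exp 1 * (Real.exp 1 * (Real.exp 1 * n / T.card * p ^ Z.card))) ^ T.card := by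
      have e1 : (1:ℝ) / 2 ≤ Real.exp 1 ^ T.card * (Real.exp 1 * n / T.card) ^ T.card *
          (p ^ Z.card) ^ T.card := by
        calc (1:ℝ) / 2 ≤ ((copies n (biJ Z T)).card : ℝ) * p ^ (Z.card * T.card) := h1
          _ ≤ ((n.choose Z.card : ℝ) * (n.choose T.card : ℝ)) * p ^ (Z.card * T.card) :=
              mul_le_mul_of_nonneg_right h2 (by positivity)
          _ ≤ (Real.exp 1 ^ T.card * (Real.exp 1 * n / T.card) ^ T.card) * p ^ (Z.card * T.card) := by
              apply mul_le_mul_of_nonneg_right _ (by positivity)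
              exact mul_le_mul (h4.trans h5) h3 (by positivity) (by positivity)
          _ = _ := by rw [pow_mul]
      have e2 : (Real.exp 1 * (Real.exp 1 * (Real.exp 1 * n / T.card * p ^ Z.card))) ^ T.card
          = Real.exp 1 ^ T.card * (Real.exp 1 ^ T.card * (Real.exp 1 * n / T.card) ^ T.card *
          (p ^ Z.card) ^ T.card) := by
        rw [mul_pow, mul_pow, mul_pow]
        ring
      rw [e2]
      calc (1:ℝ) = 2 * (1 / 2) := by norm_num
        _ ≤ _ := mul_le_mul h6 e1 (by norm_num) (by positivity)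
    have h8 : (1:ℝ) ≤ Real.exp 1 * (Real.exp 1 * (Real.exp 1 * n / T.card * p ^ Z.card)) := by
      by_contra hcon
      push Not at hcon
      have := pow_lt_one₀ (by positivity) hcon (by omega : T.card ≠ 0)
      linarith
    have h9 : Real.exp 3 = Real.exp 1 * Real.exp 1 * Real.exp 1 := by
      rw [← Real.exp_add, ← Real.exp_add]; norm_num
    have h10 : Real.exp 1 * (Real.exp 1 * (Real.exp 1 * n / T.card * p ^ Z.card))
        = Real.exp 3 * n * p ^ Z.card / T.card := by
      rw [h9]; field_simp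
    rw [h10, le_div_iff₀ hT0] at h8
    linarith

/-- The union of the stars with centre `y ∈ Y` and leaves `L y`. -/
noncomputable def starJ {W : Type*} (Y : Finset W) (L : W → Finset W) : Finset (Sym2 W) := by
  classical
  exact Y.biUnion (fun y => (L y).image (fun v => s(y, v)))

theorem mem_starJ {W : Type*} {Y : Finset W} {L : W → Finset W} {e : Sym2 W} :
    e ∈ starJ Y L ↔ ∃ y ∈ Y, ∃ v ∈ L y, s(y, v) = e := by
  classical
  unfold starJ
  simp only [Finset.mem_biUnion, Finset.mem_image]

theorem card_starJ {W : Type*} {Y : Finset W} {L : W → Finset W} {d : ℕ}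
    (hL : ∀ y ∈ Y, (L y).card = d) (hYL : ∀ y ∈ Y, ∀ v ∈ L y, v ∉ Y) :
    (starJ Y L).card = Y.card * d := by
  classical
  unfold starJ
  rw [Finset.card_biUnion]
  · rw [Finset.sum_congr rfl (g := fun _ => d), Finset.sum_const, smul_eq_mul]
    intro y hy
    rw [Finset.card_image_of_injOn, hL y hy]
    intro v hv v' hv' h
    simp only [Sym2.eq_iff] at h
    rcases h with ⟨-, h⟩ | ⟨h1, h2⟩
    · exact h
    · exact h2.trans h1
  · intro y hy y' hy' hne
    simp only [Function.onFun]
    rw [Finset.disjoint_left]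
    intro e he he'
    rw [Finset.mem_image] at he he'
    obtain ⟨v, hv, rfl⟩ := he
    obtain ⟨v', hv', h⟩ := he'
    simp only [Sym2.eq_iff] at h
    rcases h with ⟨h1, -⟩ | ⟨-, h2⟩
    · exact hne h1.symm
    · exact hYL y' hy' v' hv' (h2 ▸ hy)

theorem card_copies_star {W : Type*} [Fintype W] [Nonempty W] (n : ℕ) {Y : Finset W}
    {L : W → Finset W} {d : ℕ} (hL : ∀ y ∈ Y, (L y).card = d) :
    (copies n (starJ Y L)).card ≤ n.choose Y.card * (n.choose d) ^ Y.card := by
  classical
  have := copies_card_le_of_code (n := n) (J := starJ Y L)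
    (K := Σ _ : Finset (Fin n), (Fin n → Finset (Fin n)))
    (fun f : W ↪ Fin n => ⟨Y.map f, fun a => if a ∈ Y.map f then
      (L (Function.invFun f a)).map f else ∅⟩)
    (((Finset.univ : Finset (Fin n)).powersetCard Y.card).sigma (fun T' =>
      Fintype.piFinset (fun a => if a ∈ T' then (Finset.univ : Finset (Fin n)).powersetCard d
        else {∅}))) ?_ ?_
  · refine this.trans (le_of_eq ?_)
    rw [Finset.card_sigma]
    rw [Finset.sum_congr rfl (g := fun _ => (n.choose d) ^ Y.card)]
    · rw [Finset.sum_const, Finset.card_powersetCard, Finset.card_univ, Fintype.card_fin,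
        smul_eq_mul]
    · intro T' hT'
      rw [Finset.mem_powersetCard] at hT'
      rw [Fintype.card_piFinset]
      have : ∀ a : Fin n, (if a ∈ T' then (Finset.univ : Finset (Fin n)).powersetCard d
        else {∅}).card = if a ∈ T' then n.choose d else 1 := by
        intro a
        split_ifs
        · rw [Finset.card_powersetCard, Finset.card_univ, Fintype.card_fin]
        · rfl
      rw [Finset.prod_congr rfl (fun a _ => this a), Finset.prod_ite, Finset.prod_const,
        Finset.prod_const_one, mul_one]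
      congr 1
      rw [← hT'.2]
      congr 1
      ext a
      simp
  · intro f
    simp only [Finset.mem_sigma, Finset.mem_powersetCard, Finset.subset_univ, Finset.card_map,
      true_and, Fintype.mem_piFinset]
    intro a
    by_cases ha : a ∈ Y.map f
    · rw [if_pos ha, if_pos ha, Finset.mem_powersetCard]
      refine ⟨Finset.subset_univ _, ?_⟩
      rw [Finset.card_map]
      obtain ⟨y, hy, rfl⟩ := Finset.mem_map.1 ha
      rw [Function.leftInverse_invFun f.injective y]
      exact hL y hy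
    · rw [if_neg ha, if_neg ha]
      simp
  · intro f f' h
    simp only [Sigma.mk.injEq, heq_eq_eq] at h
    obtain ⟨h1, h2⟩ := h
    have key : ∀ g g' : W ↪ Fin n, Y.map g = Y.map g' →
        ((fun a => if a ∈ Y.map g then (L (Function.invFun g a)).map g else ∅) =
         (fun a => if a ∈ Y.map g' then (L (Function.invFun g' a)).map g' else ∅)) →
        cs n (starJ Y L) g ⊆ cs n (starJ Y L) g' := by
      intro g g' h1 h2 s hs
      rw [mem_cs] at hs ⊢
      obtain ⟨e, he, hs⟩ := hs
      obtain ⟨y, hy, v, hv, rfl⟩ := mem_starJ.1 he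
      have ha : g y ∈ Y.map g := Finset.mem_map_of_mem g hy
      have ha' : g y ∈ Y.map g' := by rw [← h1]; exact ha
      have h3 := congrFun h2 (g y)
      simp only [if_pos ha, if_pos ha'] at h3
      rw [Function.leftInverse_invFun g.injective y] at h3
      obtain ⟨y', hy', hyy⟩ := Finset.mem_map.1 ha'
      rw [← hyy, Function.leftInverse_invFun g'.injective y'] at h3
      have hv' : g v ∈ (L y').map g' := by
        rw [← h3]; exact Finset.mem_map_of_mem g hv
      obtain ⟨v', hv', hvv⟩ := Finset.mem_map.1 hv'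
      refine ⟨s(y', v'), mem_starJ.2 ⟨y', hy', v', hv', rfl⟩, ?_⟩
      rw [← hs, Sym2.map_mk, Sym2.map_mk, hyy, hvv]
    exact Finset.Subset.antisymm (key f f' h1 h2) (key f' f h1.symm h2.symm)

theorem Dense.star_tail {W : Type*} [Fintype W] {n : ℕ} {H : SimpleGraph W} {p : ℝ}
    (hd : Dense n H p) {Y : Finset W} {L : W → Finset W} {d : ℕ} (hd1 : 1 ≤ d)
    (hL : ∀ y ∈ Y, (L y).card = d) (hadj : ∀ y ∈ Y, ∀ v ∈ L y, H.Adj y v)
    (hYL : ∀ y ∈ Y, ∀ v ∈ L y, v ∉ Y) :
    (Y.card : ℝ) ≤ 2 * Real.exp 1 * n * (Real.exp 1 * n * p / d) ^ d := by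
  have hp0 := hd.pos
  have hd0 : (0:ℝ) < d := by exact_mod_cast hd1
  rcases Y.eq_empty_or_nonempty with rfl | hY
  · simp only [Finset.card_empty, Nat.cast_zero]
    positivity
  obtain ⟨y0, hy0⟩ := hY
  have hW : Nonempty W := ⟨y0⟩
  have hYc : 1 ≤ Y.card := Finset.card_pos.2 ⟨y0, hy0⟩
  have hY0 : (0:ℝ) < Y.card := by exact_mod_cast hYc
  have hJne : (starJ Y L).Nonempty := by
    have : (L y0).Nonempty := by
      rw [← Finset.card_pos, hL y0 hy0]; exact hd1
    obtain ⟨v, hv⟩ := this
    exact ⟨s(y0, v), mem_starJ.2 ⟨y0, hy0, v, hv, rfl⟩⟩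
  have hJH : ∀ e ∈ starJ Y L, e ∈ H.edgeSet := by
    intro e he
    obtain ⟨a, ha, b, hb, rfl⟩ := mem_starJ.1 he
    exact hadj a ha b hb
  have h1 := hd.half_le _ hJne hJH
  rw [card_starJ hL hYL] at h1
  have h2 : ((copies n (starJ Y L)).card : ℝ) ≤
      (n.choose Y.card : ℝ) * (n.choose d : ℝ) ^ Y.card := by
    exact_mod_cast card_copies_star n hL
  have h3 := choose_le_exp n Y.card hYc
  have h4 := choose_le_exp n d hd1
  have h7 : (1:ℝ) / 2 ≤ (Real.exp 1 * n / Y.card * (Real.exp 1 * n * p / d) ^ d) ^ Y.card := by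
    calc (1:ℝ) / 2 ≤ ((copies n (starJ Y L)).card : ℝ) * p ^ (Y.card * d) := h1
      _ ≤ ((n.choose Y.card : ℝ) * (n.choose d : ℝ) ^ Y.card) * p ^ (Y.card * d) :=
          mul_le_mul_of_nonneg_right h2 (by positivity)
      _ ≤ ((Real.exp 1 * n / Y.card) ^ Y.card * ((Real.exp 1 * n / d) ^ d) ^ Y.card) *
            p ^ (Y.card * d) := by
          apply mul_le_mul_of_nonneg_right _ (by positivity)
          apply mul_le_mul h3 _ (by positivity) (by positivity)
          exact pow_le_pow_left₀ (by positivity) h4 _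
      _ = _ := by
          have e1 : (Real.exp 1 * n * p / d : ℝ) = Real.exp 1 * n / d * p := by ring
          rw [mul_comm Y.card d, pow_mul, e1, mul_pow (Real.exp 1 * n / d : ℝ) p d,
            mul_pow (Real.exp 1 * n / Y.card : ℝ), mul_pow ((Real.exp 1 * n / d : ℝ) ^ d)]
          ring
  have h8 : (1:ℝ) / 2 ≤ Real.exp 1 * n / Y.card * (Real.exp 1 * n * p / d) ^ d := by
    by_contra hcon
    push Not at hcon
    have h0 : 0 ≤ Real.exp 1 * n / Y.card * (Real.exp 1 * n * p / d) ^ d := by positivity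
    have := pow_lt_pow_left₀ hcon h0 (by omega : Y.card ≠ 0)
    have h9 : ((1:ℝ) / 2) ^ Y.card ≤ (1 / 2) ^ 1 :=
      pow_le_pow_of_le_one (by norm_num) (by norm_num) hYc
    linarith
  have h10 : Real.exp 1 * n / Y.card * (Real.exp 1 * n * p / d) ^ d
      = Real.exp 1 * n * (Real.exp 1 * n * p / d) ^ d / Y.card := by ring
  rw [h10, le_div_iff₀ hY0] at h8
  linarith

/-- `A` = leaves, `c` = core function: the number of cores with at least `d` leaves. -/
theorem Dense.core_tail {W : Type*} [Fintype W] [DecidableEq W] {n : ℕ} {H : SimpleGraph W}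
    {p : ℝ} (hd : Dense n H p) (A : Finset W) (c : W → W) (hadj : ∀ v ∈ A, H.Adj v (c v))
    (hc : ∀ v ∈ A, c v ∉ A) {d : ℕ} (hd1 : 1 ≤ d) :
    ((Finset.univ.filter (fun y => d ≤ (A.filter (fun v => c v = y)).card)).card : ℝ)
      ≤ 2 * Real.exp 1 * n * (Real.exp 1 * n * p / d) ^ d := by
  classical
  have hsel : ∀ y : W, ∃ L : Finset W, L ⊆ A.filter (fun v => c v = y) ∧
      (d ≤ (A.filter (fun v => c v = y)).card → L.card = d) := by
    intro y
    by_cases h : d ≤ (A.filter (fun v => c v = y)).card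
    · obtain ⟨L, hL1, hL2⟩ := Finset.exists_subset_card_eq h
      exact ⟨L, hL1, fun _ => hL2⟩
    · exact ⟨∅, Finset.empty_subset _, fun h' => absurd h' h⟩
  choose L hL1 hL2 using hsel
  have hmem : ∀ y, ∀ v ∈ L y, v ∈ A ∧ c v = y := fun y v hv => by
    simpa using hL1 y hv
  refine hd.star_tail (L := L) hd1 ?_ ?_ ?_
  · intro y hy
    exact hL2 y (Finset.mem_filter.1 hy).2
  · intro y hy v hv
    obtain ⟨h1, h2⟩ := hmem y v hv
    have := (hadj v h1).symm
    rwa [h2] at this
  · intro y hy v hv hvY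
    have h1 := (hmem y v hv).1
    have h2 := (Finset.mem_filter.1 hvY).2
    obtain ⟨u, hu⟩ := Finset.card_pos.1 (lt_of_lt_of_le hd1 h2)
    rw [Finset.mem_filter] at hu
    exact hc u hu.1 (hu.2 ▸ h1)


end Crest.Agent.R052.Setup
end

-- ▼ part R052/SetupI
section

/-!
Row 52 (S0073), helper128: the interface statements `setup`, `star_count`, `common_nbrs`.
-/

set_option autoImplicit false

open Finset Filter
open Crest.CombinatoricsR.RandomGraph

namespace Crest.Agent.R052.Setup

open Crest.Agent.R052.Struct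

theorem setup (n : ℕ) (hn : 2 ≤ n) (W : Type) [Fintype W] [DecidableEq W] (H : SimpleGraph W)
    (hW : Fintype.card W ≤ n) (hH : H ≠ ⊥) :
    ∃ p : ℝ, 1 / (n : ℝ) ^ 2 ≤ p ∧ p ≤ 1 ∧
      (∃ C : Finset (Finset (EdgeSlot n)),
        (∀ A : Finset (EdgeSlot n), H.IsContained (edgeGraph A) → ∃ S ∈ C, S ⊆ A) ∧
        ∑ S ∈ C, p ^ S.card ≤ 1 / 2) ∧
      Crit n p H := by
  obtain ⟨p, h1, h2, h3, h4, -⟩ := setup_strong n hn W H hW hH
  exact ⟨p, h1, h2.le, h3, h4⟩

theorem dense_of_crit {n : ℕ} {W : Type} [Fintype W] {H : SimpleGraph W} {p : ℝ} (hp0 : 0 < p)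
    (hp : p ≤ 1) (hcrit : Crit n p H) : Dense n H p := by
  refine ⟨hp0, hp, ?_⟩
  intro J _ hJH
  have := hcrit (copies n J) (copies_cover hJH)
  rwa [cost_copies (fun e he => H.not_isDiag_of_mem_edgeSet (hJH e he))] at this

theorem star_count (n : ℕ) (W : Type) [Fintype W] [DecidableEq W] (H : SimpleGraph W)
    (p : ℝ) (hp0 : 0 < p) (hp : p ≤ 1 / 2) (hcrit : Crit n p H)
    (A : Finset W) (f : W → W) (hf : ∀ v ∈ A, H.Adj v (f v)) (hfA : ∀ v ∈ A, f v ∉ A)
    (d : ℕ) (hd : 1 ≤ d) :
    ((univ.filter fun b => d ≤ (A.filter fun v => f v = b).card).card : ℝ) ≤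
      2 * Real.exp 1 * n * (Real.exp 1 * n * p / d) ^ d :=
  (dense_of_crit hp0 (by linarith) hcrit).core_tail A f hf hfA hd

theorem eventually_log_sq : ∀ᶠ n : ℕ in atTop, (Real.log n ^ 2) ^ 64 ≤ (n : ℝ) ^ 63 := by
  have h := (isLittleO_log_rpow_atTop (r := 63 / 128) (by norm_num)).bound
    (c := 1) one_pos
  have h2 := tendsto_natCast_atTop_atTop (R := ℝ) |>.eventually h
  filter_upwards [h2, eventually_ge_atTop 1] with n hn h1
  have hn1 : (1:ℝ) ≤ n := by exact_mod_cast h1
  have hl : 0 ≤ Real.log n := Real.log_nonneg hn1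
  rw [one_mul, Real.norm_of_nonneg hl, Real.norm_of_nonneg (by positivity)] at hn
  calc (Real.log n ^ 2) ^ 64 = Real.log n ^ 128 := by ring
    _ ≤ ((n : ℝ) ^ ((63:ℝ) / 128)) ^ 128 := pow_le_pow_left₀ hl hn _
    _ = (n : ℝ) ^ 63 := by
        rw [← Real.rpow_natCast, ← Real.rpow_mul (by linarith), ← Real.rpow_natCast]
        norm_num

theorem common_nbrs : ∃ n0 : ℕ, ∀ n ≥ n0, ∀ (W : Type) [Fintype W] [DecidableEq W]
    (H : SimpleGraph W) (p : ℝ) (z : ℕ), 0 < p → p ≤ 1 / 2 → Crit n p H →
    1 ≤ p ^ (64 * z) * n →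
    ∀ Z : Finset W, Z.Nonempty → Z.card ≤ z →
      (Set.ncard {v | ∀ u ∈ Z, H.Adj v u} : ℝ) ≤ 30 * n * p ^ Z.card := by
  classical
  obtain ⟨n0, hn0⟩ := eventually_atTop.1 (eventually_log_sq.and (eventually_ge_atTop 1))
  refine ⟨n0, fun n hn W _ _ H p z hp0 hp hcrit hz Z hZ hZz => ?_⟩
  obtain ⟨hlogsq, hn1⟩ := hn0 n hn
  have hnr : (1:ℝ) ≤ n := by exact_mod_cast hn1
  have hd := dense_of_crit hp0 (by linarith) hcrit
  have hset : {v | ∀ u ∈ Z, H.Adj v u} =
      ((Finset.univ.filter (fun v => ∀ u ∈ Z, H.Adj v u) : Finset W) : Set W) := by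
    ext v; simp
  rw [hset, Set.ncard_coe_finset]
  have hl : 0 ≤ Real.log n := Real.log_nonneg hnr
  -- size of z
  have hzlog : (z:ℝ) ≤ Real.log n := by
    have h1 : (1:ℝ) ≤ (1 / 2) ^ (64 * z) * n :=
      hz.trans (mul_le_mul_of_nonneg_right (pow_le_pow_left₀ hp0.le hp _) (by linarith))
    have h2 : Real.log 1 ≤ Real.log ((1 / 2 : ℝ) ^ (64 * z) * n) :=
      Real.log_le_log (by norm_num) h1
    rw [Real.log_one, Real.log_mul (by positivity) (by positivity), Real.log_pow, one_div,
      Real.log_inv] at h2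
    have h3 : (0.69:ℝ) < Real.log 2 := by
      have := Real.log_two_gt_d9; linarith
    push_cast at h2
    have h4 : (64 * z : ℝ) * Real.log 2 ≤ Real.log n := by linarith
    have hz0 : (0:ℝ) ≤ z := Nat.cast_nonneg z
    nlinarith
  have hZz' : (Z.card : ℝ) ≤ z := by exact_mod_cast hZz
  have hpZ : p ^ z ≤ p ^ Z.card := pow_le_pow_of_le_one hp0.le (by linarith) hZz
  have hnpz : Real.log n ^ 2 ≤ n * p ^ z := by
    have h1 : (Real.log n ^ 2) ^ 64 ≤ (n * p ^ z) ^ 64 := by
      refine hlogsq.trans ?_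
      calc (n:ℝ) ^ 63 = (n:ℝ) ^ 63 * 1 := (mul_one _).symm
        _ ≤ (n:ℝ) ^ 63 * (p ^ (64 * z) * n) := mul_le_mul_of_nonneg_left hz (by positivity)
        _ = (n * p ^ z) ^ 64 := by
            rw [mul_pow, ← pow_mul, mul_comm z 64]
            ring
    exact le_of_pow_le_pow_left₀ (by norm_num) (by positivity) h1
  have hlog : (Z.card : ℝ) * Real.log n ≤ n * p ^ Z.card := by
    calc (Z.card : ℝ) * Real.log n ≤ Real.log n * Real.log n := by
          apply mul_le_mul_of_nonneg_right _ hl
          linarith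
      _ = Real.log n ^ 2 := by ring
      _ ≤ n * p ^ z := hnpz
      _ ≤ n * p ^ Z.card := mul_le_mul_of_nonneg_left hpZ (by linarith)
  have h := hd.hub_tail (T := Finset.univ.filter (fun v => ∀ u ∈ Z, H.Adj v u)) hn1 hZ ?_ ?_ hlog
  · refine h.trans ?_
    have he : Real.exp 3 ≤ 30 := by
      have h1 := Real.exp_one_lt_d9
      have : Real.exp 3 = Real.exp 1 ^ 3 := by
        rw [← Real.exp_nat_mul]; norm_num
      rw [this]
      calc Real.exp 1 ^ 3 ≤ (2.7182818286) ^ 3 :=
            pow_le_pow_left₀ (Real.exp_pos 1).le h1.le 3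
        _ ≤ 30 := by norm_num
    have : 0 ≤ (n:ℝ) * p ^ Z.card := by positivity
    nlinarith
  · rw [Finset.disjoint_left]
    intro a ha ha'
    rw [Finset.mem_filter] at ha'
    exact (ha'.2 a ha).ne rfl
  · intro a ha b hb
    rw [Finset.mem_filter] at hb
    exact (hb.2 a ha).symm

end Crest.Agent.R052.Setup
end

-- ▼ part R052/StarLem
section

/-! Row 52, S0073: the sparse case lemma consumed by FINAL. -/

set_option autoImplicit false

namespace Crest.Agent.R052.Star

open Finset Crest.CombinatoricsR.RandomGraph Crest.Agent.R052.Struct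

theorem starLemma : ∃ n0 : ℕ, ∃ L : ℝ, ∃ k : ℕ, 1 ≤ L ∧ ∀ n ≥ n0, ∀ (W : Type) [Fintype W]
    [DecidableEq W] (H : SimpleGraph W) (p : ℝ), Fintype.card W ≤ n → 0 < p → L * p ≤ 1 →
    Crit n p H → ∀ (A : Finset W) (f : W → W), 64 * A.card ≤ n → (∀ v ∈ A, H.Adj v (f v)) →
    (∀ v ∈ A, f v ∉ A) → Splits n (L * p) (SimpleGraph.fromRel fun v b => v ∈ A ∧ f v = b) k := by
  refine ⟨2, Real.exp 60, 1, Real.one_le_exp (by norm_num), ?_⟩
  intro n hn W _ _ H p hW hp hLp hcrit A f hA hf hfA
  have h60 : (2 : ℝ) ≤ Real.exp 60 := by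
    have := Real.add_one_le_exp (60 : ℝ)
    linarith
  have hp2 : p ≤ 1 / 2 := by nlinarith
  refine splits_one (by positivity) hLp ?_
  exact star_explicit hn W A f p hW hp hLp hA hfA
    (fun d hd => Setup.star_count n W H p hp hp2 hcrit A f hf hfA d hd)

end Crest.Agent.R052.Star
end

-- ▼ part R052/Degen

/-!
Row 52 (S0073), helper128: the degeneracy order (interface statement `orient`).
-/

set_option autoImplicit false

open Finset
open Crest.CombinatoricsR.RandomGraph

namespace Crest.Agent.R052.Setup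

open Crest.Agent.R052.Struct

/-- the graph `H` restricted to the vertex set `Y` -/
def inside {W : Type*} (H : SimpleGraph W) (Y : Finset W) : SimpleGraph W where
  Adj a b := H.Adj a b ∧ a ∈ Y ∧ b ∈ Y
  symm := ⟨fun _ _ h => ⟨h.1.symm, h.2.2, h.2.1⟩⟩
  loopless := ⟨fun _ h => h.1.ne rfl⟩

theorem exists_low_degree {W : Type*} [Fintype W] (H : SimpleGraph W) (K : ℕ) (Y : Finset W)
    (hY : Y.Nonempty)
    (hK : ∀ J : Finset (Sym2 W), (∀ e ∈ J, e ∈ H.edgeSet) → (∀ e ∈ J, ∀ w ∈ e, w ∈ Y) →
      J.card ≤ K * Y.card) :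
    ∃ v ∈ Y, Set.ncard {u | u ∈ Y ∧ H.Adj v u} ≤ 2 * K := by
  classical
  have h1 := (inside H Y).sum_degrees_eq_twice_card_edges
  have h2 : (inside H Y).edgeFinset.card ≤ K * Y.card := by
    apply hK
    · intro e he
      rw [SimpleGraph.mem_edgeFinset] at he
      induction e with
      | _ a b => exact he.1
    · intro e he w hw
      rw [SimpleGraph.mem_edgeFinset] at he
      induction e with
      | _ a b =>
        rcases Sym2.mem_iff.1 hw with rfl | rfl
        · exact he.2.1
        · exact he.2.2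
  have h3 : ∑ v ∈ Y, (inside H Y).degree v ≤ ∑ v ∈ Y, 2 * K := by
    calc ∑ v ∈ Y, (inside H Y).degree v ≤ ∑ v, (inside H Y).degree v :=
          Finset.sum_le_sum_of_subset (Finset.subset_univ _)
      _ = 2 * (inside H Y).edgeFinset.card := h1
      _ ≤ 2 * (K * Y.card) := Nat.mul_le_mul_left _ h2
      _ = ∑ v ∈ Y, 2 * K := by rw [Finset.sum_const, smul_eq_mul]; ring
  obtain ⟨v, hv, hvd⟩ := Finset.exists_le_of_sum_le hY h3
  refine ⟨v, hv, ?_⟩
  have h4 : {u | u ∈ Y ∧ H.Adj v u} = (((inside H Y).neighborFinset v : Finset W) : Set W) := by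
    ext u
    simp only [Set.mem_ofPred_eq, Finset.mem_coe, SimpleGraph.mem_neighborFinset]
    constructor
    · rintro ⟨h1, h2⟩; exact ⟨h2, hv, h1⟩
    · rintro ⟨h1, h2, h3⟩; exact ⟨h3, h1⟩
  rw [h4, Set.ncard_coe_finset]
  exact hvd

theorem exists_order_aux {W : Type*} [Fintype W] (H : SimpleGraph W) (K : ℕ)
    (hK : ∀ Y : Finset W, Y.Nonempty → ∃ v ∈ Y, Set.ncard {u | u ∈ Y ∧ H.Adj v u} ≤ 2 * K) :
    ∀ (m : ℕ) (Y : Finset W), Y.card = m → ∃ ord : W → ℕ, Set.InjOn ord Y ∧
      (∀ v ∈ Y, ord v < m) ∧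
      ∀ v ∈ Y, Set.ncard {u | u ∈ Y ∧ H.Adj v u ∧ ord u < ord v} ≤ 2 * K := by
  classical
  intro m
  induction m with
  | zero =>
    intro Y hY
    rw [Finset.card_eq_zero] at hY
    subst hY
    exact ⟨fun _ => 0, by simp, by simp, by simp⟩
  | succ m ih =>
    intro Y hY
    have hne : Y.Nonempty := by rw [← Finset.card_pos]; omega
    obtain ⟨v0, hv0, hdeg⟩ := hK Y hne
    obtain ⟨ord, h1, h2, h3⟩ := ih (Y.erase v0) (by rw [Finset.card_erase_of_mem hv0]; omega)
    have hup : ∀ v, v ≠ v0 → Function.update ord v0 m v = ord v := fun v hv => by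
      rw [Function.update_of_ne hv]
    have hup0 : Function.update ord v0 m v0 = m := by simp
    refine ⟨Function.update ord v0 m, ?_, ?_, ?_⟩
    · intro a ha b hb hab
      by_cases ha0 : a = v0
      · by_cases hb0 : b = v0
        · rw [ha0, hb0]
        · exfalso
          subst ha0
          rw [hup0, hup b hb0] at hab
          have := h2 b (Finset.mem_erase.2 ⟨hb0, hb⟩)
          omega
      · by_cases hb0 : b = v0
        · exfalso
          subst hb0
          rw [hup0, hup a ha0] at hab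
          have := h2 a (Finset.mem_erase.2 ⟨ha0, ha⟩)
          omega
        · rw [hup a ha0, hup b hb0] at hab
          exact h1 (Finset.mem_erase.2 ⟨ha0, ha⟩) (Finset.mem_erase.2 ⟨hb0, hb⟩) hab
    · intro v hv
      by_cases hv' : v = v0
      · rw [hv', hup0]; omega
      · rw [hup v hv']
        have := h2 v (Finset.mem_erase.2 ⟨hv', hv⟩)
        omega
    · intro v hv
      by_cases hv' : v = v0
      · subst hv'
        refine le_trans (Set.ncard_le_ncard ?_ (Set.toFinite _)) hdeg
        rintro u ⟨hu1, hu2, -⟩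
        exact ⟨hu1, hu2⟩
      · refine le_trans (Set.ncard_le_ncard ?_ (Set.toFinite _)) (h3 v (Finset.mem_erase.2 ⟨hv', hv⟩))
        rintro u ⟨hu1, hu2, hu3⟩
        have hvm := h2 v (Finset.mem_erase.2 ⟨hv', hv⟩)
        by_cases hu0 : u = v0
        · exfalso
          subst hu0
          rw [hup0, hup v hv'] at hu3
          omega
        · rw [hup u hu0, hup v hv'] at hu3
          exact ⟨Finset.mem_erase.2 ⟨hu0, hu1⟩, hu2, hu3⟩

theorem orient (n : ℕ) (W : Type) [Fintype W] [DecidableEq W] (H : SimpleGraph W)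
    (p : ℝ) (z : ℕ) (hp0 : 0 < p) (hp : p ≤ 1 / 2) (hcrit : Crit n p H)
    (hz : p ^ (64 * (z + 1)) * n < 1) :
    ∃ ord : W → ℕ, Function.Injective ord ∧
      ∀ v, Set.ncard {u | H.Adj v u ∧ ord u < ord v} ≤ 128 * (z + 1) := by
  classical
  have hd := dense_of_crit hp0 (by linarith) hcrit
  have key : ∀ Y : Finset W, Y.Nonempty →
      ∃ v ∈ Y, Set.ncard {u | u ∈ Y ∧ H.Adj v u} ≤ 2 * (64 * (z + 1)) := by
    intro Y hY
    apply exists_low_degree H _ Y hY
    intro J hJH hJV
    rcases J.eq_empty_or_nonempty with rfl | hJne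
    · simp
    -- n ≥ 1
    have hn1 : 1 ≤ n := by
      by_contra hcon
      have hn0 : n = 0 := by omega
      have h1 := hd.half_le J hJne hJH
      have h2 : (copies n J).card = 0 := by
        rw [Finset.card_eq_zero, Finset.eq_empty_iff_forall_notMem]
        intro S hS
        obtain ⟨f, -⟩ := mem_copies.1 hS
        obtain ⟨v, -⟩ := hY
        have := (f v).2
        omega
      rw [h2] at h1
      norm_num at h1
    have hden := hd.density hn1 hp hJH hJV
    have hn0 : (0:ℝ) < n := by exact_mod_cast hn1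
    have hlog2 : 0 < Real.log (1 / p) := by
      apply Real.log_pos
      rw [lt_div_iff₀ hp0]; linarith
    have hD : DD n p < 64 * (z + 1) := by
      unfold DD
      rw [div_lt_iff₀ hlog2]
      have h1 : Real.log (p ^ (64 * (z + 1)) * n) < 0 := Real.log_neg (by positivity) hz
      rw [Real.log_mul (by positivity) (by positivity), Real.log_pow] at h1
      rw [one_div, Real.log_inv]
      push_cast at h1
      linarith
    have hYc : (1:ℝ) ≤ Y.card := by exact_mod_cast Finset.card_pos.2 hY
    have h2 : (J.card : ℝ) < 64 * (z + 1) * Y.card + 1 := by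
      have : DD n p * Y.card < 64 * (z + 1) * Y.card :=
        mul_lt_mul_of_pos_right hD (by linarith)
      linarith
    have h3 : J.card < 64 * (z + 1) * Y.card + 1 := by exact_mod_cast h2
    omega
  obtain ⟨ord, h1, -, h3⟩ := exists_order_aux H (64 * (z + 1)) key _ Finset.univ rfl
  refine ⟨ord, ?_, ?_⟩
  · intro a b hab
    exact h1 (by simp) (by simp) hab
  · intro v
    have := h3 v (Finset.mem_univ v)
    have e : {u | u ∈ (Finset.univ : Finset W) ∧ H.Adj v u ∧ ord u < ord v} =
        {u | H.Adj v u ∧ ord u < ord v} := by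
      ext u; simp
    rw [e] at this
    omega

end Crest.Agent.R052.Setup
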