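import Mathlib
import Crest.Prelude.Def_CopyThreshold

/-!
# Generic lemmas on `bernoulliProb` / `gnpProb`

Everything is a finite sum.  `Ex p f = ∑ ω, bernoulliWeight p ω * f ω`.
-/

set_option autoImplicit false
set_option linter.unusedSectionVars false

open Finset
open Crest.FinProb Crest.CombinatoricsR.RandomGraph

namespace Crest.Agent.R052.Tr

variable {I : Type*} [Fintype I] [DecidableEq I]

theorem weight_nonneg {ι : Type*} [Fintype ι] {p : ℝ} (hp0 : 0 ≤ p) (hp1 : p ≤ 1)
    (ω : ι → Bool) : 0 ≤ bernoulliWeight p ω := by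
  unfold bernoulliWeight
  refine Finset.prod_nonneg fun i _ => ?_
  split_ifs
  · exact hp0
  · linarith

/-- expectation -/
noncomputable def Ex {ι : Type*} [Fintype ι] [DecidableEq ι] (p : ℝ) (f : (ι → Bool) → ℝ) : ℝ :=
  ∑ ω : ι → Bool, bernoulliWeight p ω * f ω

theorem prob_eq_Ex {ι : Type*} [Fintype ι] [DecidableEq ι] (p : ℝ) (E : Set (ι → Bool))
    [DecidablePred (· ∈ E)] :
    bernoulliProb p E = Ex p (fun ω => if ω ∈ E then 1 else 0) := by
  unfold bernoulliProb Ex
  rw [Finset.sum_filter]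
  refine Finset.sum_congr rfl fun ω _ => ?_
  by_cases h : ω ∈ E <;> simp [h]

theorem prob_setOf_eq_Ex {ι : Type*} [Fintype ι] [DecidableEq ι] (p : ℝ) (Q : (ι → Bool) → Prop)
    [DecidablePred Q] :
    bernoulliProb p {ω | Q ω} = Ex p (fun ω => if Q ω then 1 else 0) := by
  classical
  rw [prob_eq_Ex]
  unfold Ex
  refine Finset.sum_congr rfl fun ω _ => ?_
  by_cases h : Q ω <;> simp [h]

theorem Ex_mono {ι : Type*} [Fintype ι] [DecidableEq ι] {p : ℝ} (hp0 : 0 ≤ p) (hp1 : p ≤ 1)
    {f g : (ι → Bool) → ℝ} (h : ∀ ω, f ω ≤ g ω) : Ex p f ≤ Ex p g :=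
  Finset.sum_le_sum fun ω _ => mul_le_mul_of_nonneg_left (h ω) (weight_nonneg hp0 hp1 ω)





/-- `∑_ω ∏_i F i (ω i) = ∏_i (F i true + F i false)` -/
theorem sum_prod_bool {ι : Type*} [Fintype ι] [DecidableEq ι] (F : ι → Bool → ℝ) :
    ∑ ω : ι → Bool, ∏ i, F i (ω i) = ∏ i, (F i true + F i false) := by
  have h2 := Finset.prod_univ_sum (fun _ : ι => (Finset.univ : Finset Bool)) F
  rw [Fintype.piFinset_univ] at h2
  rw [← h2]
  exact Finset.prod_congr rfl fun i _ => by simp


theorem sum_weight {ι : Type*} [Fintype ι] [DecidableEq ι] (p : ℝ) :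
    ∑ ω : ι → Bool, bernoulliWeight p ω = 1 := by
  unfold bernoulliWeight
  rw [sum_prod_bool (fun _ b => if b then p else 1 - p)]
  simp

theorem Ex_const {ι : Type*} [Fintype ι] [DecidableEq ι] (p a : ℝ) :
    Ex p (fun _ : ι → Bool => a) = a := by
  unfold Ex
  rw [← Finset.sum_mul, sum_weight, one_mul]

theorem prob_mono {ι : Type*} [Fintype ι] [DecidableEq ι] {p : ℝ} (hp0 : 0 ≤ p) (hp1 : p ≤ 1)
    {E F : Set (ι → Bool)} (h : E ⊆ F) : bernoulliProb p E ≤ bernoulliProb p F := by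
  classical
  rw [prob_eq_Ex, prob_eq_Ex]
  refine Ex_mono hp0 hp1 fun ω => ?_
  by_cases h1 : ω ∈ E
  · simp [h1, h h1]
  · simp only [h1, if_false]; split_ifs <;> norm_num









/-! ### Reindexing and marginals -/

theorem weight_equiv {ι κ : Type*} [Fintype ι] [Fintype κ] (e : κ ≃ ι) (p : ℝ) (ω : ι → Bool) :
    bernoulliWeight p (ω ∘ e) = bernoulliWeight p ω := by
  unfold bernoulliWeight
  exact Equiv.prod_comp e (fun i => if ω i then p else 1 - p)

theorem Ex_equiv {ι κ : Type*} [Fintype ι] [DecidableEq ι] [Fintype κ] [DecidableEq κ]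
    (e : κ ≃ ι) (p : ℝ) (f : (κ → Bool) → ℝ) :
    Ex p (fun ω : ι → Bool => f (ω ∘ e)) = Ex p f := by
  unfold Ex
  rw [← Equiv.sum_comp (e.arrowCongr (Equiv.refl Bool)).symm]
  refine Finset.sum_congr rfl fun ω _ => ?_
  rw [← weight_equiv e]
  rfl

theorem Ex_sumType {ι κ : Type*} [Fintype ι] [DecidableEq ι] [Fintype κ] [DecidableEq κ]
    (p : ℝ) (f : (ι ⊕ κ → Bool) → ℝ) :
    Ex p f = Ex p (fun a : ι → Bool => Ex p (fun b : κ → Bool => f (Sum.elim a b))) := by
  unfold Ex
  rw [← Equiv.sum_comp (Equiv.sumArrowEquivProdArrow ι κ Bool).symm, Fintype.sum_prod_type]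
  refine Finset.sum_congr rfl fun a _ => ?_
  rw [Finset.mul_sum]
  refine Finset.sum_congr rfl fun b _ => ?_
  have : bernoulliWeight p ((Equiv.sumArrowEquivProdArrow ι κ Bool).symm (a, b)) =
      bernoulliWeight p a * bernoulliWeight p b := by
    unfold bernoulliWeight
    rw [Fintype.prod_sum_type]
    rfl
  rw [this]
  have h2 : (Equiv.sumArrowEquivProdArrow ι κ Bool).symm (a, b) = Sum.elim a b := rfl
  rw [h2]
  ring

/-- A function of the coordinates in the range of an injection has the same expectation. -/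
theorem Ex_marginal {ι κ : Type*} [Fintype ι] [DecidableEq ι] [Fintype κ] [DecidableEq κ]
    (e : κ → ι) (he : Function.Injective e) (p : ℝ) (f : (κ → Bool) → ℝ) :
    Ex p (fun ω : ι → Bool => f (ω ∘ e)) = Ex p f := by
  classical
  let e1 : κ ⊕ {i // i ∉ Set.range e} ≃ ι :=
    (Equiv.sumCongr (Equiv.ofInjective e he) (Equiv.refl _)).trans
      (Equiv.Set.sumCompl (Set.range e))
  have h1 : ∀ k, e1 (Sum.inl k) = e k := fun k => rfl
  rw [← Ex_equiv e1.symm p (fun ω => f (ω ∘ e))]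
  rw [Ex_sumType]
  have h2 : ∀ (a : κ → Bool) (b : {i // i ∉ Set.range e} → Bool),
      ((Sum.elim a b) ∘ e1.symm) ∘ e = a := by
    intro a b
    funext k
    simp only [Function.comp]
    rw [← h1 k, Equiv.symm_apply_apply]
    rfl
  simp_rw [h2, Ex_const]

/-- Marginal of an event. -/
theorem prob_marginal {ι κ : Type*} [Fintype ι] [DecidableEq ι] [Fintype κ] [DecidableEq κ]
    (e : κ → ι) (he : Function.Injective e) (p : ℝ) (Q : (κ → Bool) → Prop) :
    bernoulliProb p {ω : ι → Bool | Q (ω ∘ e)} = bernoulliProb p {η | Q η} := by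
  classical
  rw [prob_setOf_eq_Ex, prob_setOf_eq_Ex]
  exact Ex_marginal e he p (fun η => if Q η then 1 else 0)




/-! ### Sprinkling and monotonicity in `p` -/

theorem sum_sum_prod {ι : Type*} [Fintype ι] [DecidableEq ι] (F : ι → Bool → Bool → ℝ) :
    ∑ ω : ι → Bool, ∑ η : ι → Bool, ∏ i, F i (ω i) (η i) =
      ∏ i, (F i true true + F i true false + (F i false true + F i false false)) := by
  have h1 : ∀ ω : ι → Bool, ∑ η : ι → Bool, ∏ i, F i (ω i) (η i) =
      ∏ i, (F i (ω i) true + F i (ω i) false) := fun ω => sum_prod_bool (fun i b => F i (ω i) b)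
  rw [Finset.sum_congr rfl fun ω _ => h1 ω]
  rw [sum_prod_bool (fun i a => F i a true + F i a false)]

/-- The union of two independent Bernoulli sets of densities `p`, `r` is Bernoulli of density
`1 - (1-p)(1-r)`. -/
theorem Ex_sprinkle {ι : Type*} [Fintype ι] [DecidableEq ι] (p r : ℝ) (f : (ι → Bool) → ℝ) :
    Ex p (fun ω => Ex r (fun η => f (fun i => ω i || η i))) = Ex (1 - (1 - p) * (1 - r)) f := by
  classical
  unfold Ex
  have h1 : ∀ ω η : ι → Bool, f (fun i => ω i || η i) =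
      ∑ ζ : ι → Bool, (∏ i, if (ω i || η i) = ζ i then (1 : ℝ) else 0) * f ζ := by
    intro ω η
    rw [Finset.sum_eq_single (fun i => ω i || η i)]
    · simp
    · intro ζ _ hζ
      have : ∃ i, ¬ (ω i || η i) = ζ i := by
        by_contra h
        push Not at h
        exact hζ (funext fun i => (h i).symm)
      obtain ⟨i, hi⟩ := this
      rw [Finset.prod_eq_zero (mem_univ i) (if_neg hi), zero_mul]
    · intro h; exact absurd (mem_univ _) h
  have h2 : ∀ ω : ι → Bool, bernoulliWeight p ω * ∑ η : ι → Bool, bernoulliWeight r η *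
      f (fun i => ω i || η i) = ∑ η : ι → Bool, ∑ ζ : ι → Bool, (∏ i,
        ((if ω i then p else 1 - p) * (if η i then r else 1 - r) *
          (if (ω i || η i) = ζ i then (1 : ℝ) else 0))) * f ζ := by
    intro ω
    rw [Finset.mul_sum]
    refine Finset.sum_congr rfl fun η _ => ?_
    rw [h1 ω η, Finset.mul_sum, Finset.mul_sum]
    refine Finset.sum_congr rfl fun ζ _ => ?_
    rw [Finset.prod_mul_distrib, Finset.prod_mul_distrib]
    unfold bernoulliWeight
    ring
  rw [Finset.sum_congr rfl fun ω _ => h2 ω]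
  have h3 : ∑ ω : ι → Bool, ∑ η : ι → Bool, ∑ ζ : ι → Bool, (∏ i,
        ((if ω i then p else 1 - p) * (if η i then r else 1 - r) *
          (if (ω i || η i) = ζ i then (1 : ℝ) else 0))) * f ζ =
      ∑ ζ : ι → Bool, (∑ ω : ι → Bool, ∑ η : ι → Bool, ∏ i,
        ((if ω i then p else 1 - p) * (if η i then r else 1 - r) *
          (if (ω i || η i) = ζ i then (1 : ℝ) else 0))) * f ζ := by
    rw [Finset.sum_congr rfl fun ω _ => Finset.sum_comm, Finset.sum_comm]
    refine Finset.sum_congr rfl fun ζ _ => ?_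
    rw [Finset.sum_mul]
    exact Finset.sum_congr rfl fun ω _ => by rw [Finset.sum_mul]
  rw [h3]
  refine Finset.sum_congr rfl fun ζ _ => ?_
  rw [sum_sum_prod (fun i a b => (if a then p else 1 - p) * (if b then r else 1 - r) *
          (if (a || b) = ζ i then (1 : ℝ) else 0))]
  congr 1
  unfold bernoulliWeight
  refine Finset.prod_congr rfl fun i _ => ?_
  cases h : ζ i <;> simp <;> ring


/-- Monotonicity in `p` of increasing functions. -/
theorem Ex_mono_p {ι : Type*} [Fintype ι] [DecidableEq ι] {p q : ℝ} (hp0 : 0 ≤ p) (hpq : p ≤ q)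
    (hq1 : q ≤ 1) (f : (ι → Bool) → ℝ)
    (hf : ∀ ω ω' : ι → Bool, (∀ i, ω i = true → ω' i = true) → f ω ≤ f ω') :
    Ex p f ≤ Ex q f := by
  rcases eq_or_lt_of_le (hpq.trans hq1) with h1 | h1
  · have : p = q := by linarith
    rw [this]
  · set r : ℝ := (q - p) / (1 - p) with hr
    have hr0 : 0 ≤ r := div_nonneg (by linarith) (by linarith)
    have hr1 : r ≤ 1 := by
      rw [hr, div_le_one (by linarith)]; linarith
    have hq : 1 - (1 - p) * (1 - r) = q := by
      rw [hr]
      have : (1 - p) ≠ 0 := by linarith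
      field_simp
      ring
    rw [← hq, ← Ex_sprinkle p r f]
    refine Ex_mono hp0 h1.le fun ω => ?_
    rw [← Ex_const (ι := ι) r (f ω)]
    refine Ex_mono hr0 hr1 fun η => ?_
    exact hf _ _ fun i hi => by simp [hi]

theorem prob_mono_p {ι : Type*} [Fintype ι] [DecidableEq ι] {p q : ℝ} (hp0 : 0 ≤ p) (hpq : p ≤ q)
    (hq1 : q ≤ 1) (E : Set (ι → Bool))
    (hE : ∀ ω ω' : ι → Bool, (∀ i, ω i = true → ω' i = true) → ω ∈ E → ω' ∈ E) :
    bernoulliProb p E ≤ bernoulliProb q E := by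
  classical
  rw [prob_eq_Ex, prob_eq_Ex]
  refine Ex_mono_p hp0 hpq hq1 _ fun ω ω' h => ?_
  by_cases h1 : ω ∈ E
  · simp [h1, hE ω ω' h h1]
  · simp only [h1, if_false]; split_ifs <;> norm_num



end Crest.Agent.R052.Tr
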