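import Mathlib
import Crest.Prelude.Def_CopyThreshold
import Crest.Agent.R052.Transport
set_option autoImplicit false
open Finset Crest.FinProb Crest.CombinatoricsR.RandomGraph
namespace Crest.Agent.R052.Gr

/-- the coin of a pair of distinct vertices -/
def slot {n : ℕ} (i j : Fin n) (h : i ≠ j) : EdgeSlot n := ⟨s(i, j), by simpa using h⟩

theorem graphOf_adj {n : ℕ} (ω : EdgeSlot n → Bool) (i j : Fin n) :
    (graphOf ω).Adj i j ↔ ∃ h : i ≠ j, ω (slot i j h) = true := by
  unfold graphOf slot
  rw [SimpleGraph.fromEdgeSet_adj]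
  simp only [Set.mem_setOf_eq]
  constructor
  · rintro ⟨⟨h1, h2⟩, h3⟩
    exact ⟨h3, h2⟩
  · rintro ⟨h1, h2⟩
    exact ⟨⟨by simpa using h1, h2⟩, h1⟩




theorem slot_eq_iff {n : ℕ} {i j k l : Fin n} (h : i ≠ j) (h' : k ≠ l) :
    slot i j h = slot k l h' ↔ (i = k ∧ j = l) ∨ (i = l ∧ j = k) := by
  unfold slot
  rw [Subtype.mk.injEq, Sym2.eq_iff]

/-- A partial injection into `Fin n` extends. -/
theorem exists_extend {W : Type*} [Fintype W] [DecidableEq W] {n : ℕ} (hW : Fintype.card W ≤ n)
    (s : Finset W) (f : W → Fin n) (hf : Set.InjOn f s) :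
    ∃ g : W → Fin n, Function.Injective g ∧ ∀ i ∈ s, g i = f i := by
  classical
  obtain ⟨t, hst, -, ht⟩ := Finset.exists_subsuperset_card_eq
    (s := s.image f) (t := Finset.univ) (n := Fintype.card W) (Finset.subset_univ _)
    (by rw [Finset.card_image_of_injOn hf]; exact Finset.card_le_univ s) (by simpa using hW)
  obtain ⟨g, hg⟩ := Finset.exists_equiv_extend_of_card_eq ht.symm hst hf
  exact ⟨fun w => (g w : Fin n), fun a b h => g.injective (Subtype.ext h), hg⟩

/-- An injective map sending edges to edges gives containment. -/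
theorem isContained_of {V W : Type*} {H : SimpleGraph V} {G : SimpleGraph W} (g : V → W)
    (hg : Function.Injective g) (h : ∀ u v, H.Adj u v → G.Adj (g u) (g v)) : H.IsContained G :=
  ⟨⟨⟨g, fun {a b} hab => h a b hab⟩, hg⟩⟩

/-- Containment when the map is only given on a set `s` containing all non-isolated vertices. -/
theorem isContained_of_partial {W : Type*} [Fintype W] [DecidableEq W] {n : ℕ}
    (hW : Fintype.card W ≤ n) {F : SimpleGraph W} {G : SimpleGraph (Fin n)} (s : Finset W)
    (f : W → Fin n) (hf : Set.InjOn f s) (hs : ∀ u v, F.Adj u v → u ∈ s)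
    (h : ∀ u v, F.Adj u v → G.Adj (f u) (f v)) : F.IsContained G := by
  obtain ⟨g, hg, hgf⟩ := exists_extend hW s f hf
  refine isContained_of g hg fun u v huv => ?_
  rw [hgf u (hs u v huv), hgf v (hs v u huv.symm)]
  exact h u v huv

theorem isContained_mono {V : Type*} {n : ℕ} {F : SimpleGraph V} {G G' : SimpleGraph (Fin n)}
    (h : F.IsContained G) (hG : G ≤ G') : F.IsContained G' := by
  obtain ⟨φ⟩ := h
  exact isContained_of φ φ.injective fun u v huv => hG (φ.toHom.map_adj huv)

theorem graphOf_mono {n : ℕ} {ω ω' : EdgeSlot n → Bool} (h : ∀ i, ω i = true → ω' i = true) :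
    graphOf ω ≤ graphOf ω' := by
  intro i j hij
  rw [graphOf_adj] at hij ⊢
  obtain ⟨h1, h2⟩ := hij
  exact ⟨h1, h _ h2⟩

/-- monotonicity in `p` of the containment probability -/
theorem gnp_contained_mono {W : Type*} {n : ℕ} (F : SimpleGraph W) {p q : ℝ} (hp : 0 ≤ p)
    (hpq : p ≤ q) (hq : q ≤ 1) :
    gnpProb n p {G | F.IsContained G} ≤ gnpProb n q {G | F.IsContained G} := by
  unfold gnpProb
  exact Tr.prob_mono_p hp hpq hq _ fun ω ω' h hω => isContained_mono hω (graphOf_mono h)



/-- at `p = 1` everything on at most `n` vertices is contained -/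
theorem gnp_one {W : Type*} [Fintype W] {n : ℕ} (hW : Fintype.card W ≤ n) (F : SimpleGraph W) :
    gnpProb n 1 {G | F.IsContained G} = 1 := by
  classical
  have h1 : gnpProb n 1 {G | F.IsContained G} = Tr.Ex 1 (fun ω : EdgeSlot n → Bool =>
      if F.IsContained (graphOf ω) then 1 else 0) := by
    unfold gnpProb
    exact Tr.prob_setOf_eq_Ex 1 (fun ω : EdgeSlot n → Bool => F.IsContained (graphOf ω))
  rw [h1]
  unfold Tr.Ex
  rw [Finset.sum_eq_single (fun _ => true)]
  · obtain ⟨g, hg, -⟩ := exists_extend hW (∅ : Finset W)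
      (fun w => ⟨(Fintype.equivFin W w).1, lt_of_lt_of_le (Fintype.equivFin W w).2 hW⟩) (by simp)
    have h3 : F.IsContained (graphOf (fun _ : EdgeSlot n => true)) := by
      refine isContained_of g hg fun u v huv => ?_
      rw [graphOf_adj]
      exact ⟨fun h => huv.ne (hg h), rfl⟩
    simp [bernoulliWeight, h3]
  · intro ω _ hω
    have : ∃ i, ω i = false := by
      by_contra h
      push Not at h
      exact hω (funext fun i => by simpa using h i)
    obtain ⟨i, hi⟩ := this
    have : bernoulliWeight 1 ω = 0 := by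
      unfold bernoulliWeight
      exact Finset.prod_eq_zero (mem_univ i) (by simp [hi])
    rw [this, zero_mul]
  · intro h; exact absurd (mem_univ _) h

end Crest.Agent.R052.Gr
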