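import Crest.Agent.R052.Struct
import Crest.Agent.R052.Graph

-- ▼ part R052/Struct2
section

/-!
Row 52, S0073: combinatorics of the decomposition (parts, index of a neighbour, hubs,
greedy colouring, numeric facts).
-/

set_option autoImplicit false

open Finset
open Crest.CombinatoricsR.RandomGraph

namespace Crest.Agent.R052.Struct

section parts

/-- A set with at most `n` elements can be divided into `128` parts of size at most `n / 64`. -/
theorem exists_parts (n : ℕ) (hn : 128 ≤ n) (W : Type) [Fintype W] [DecidableEq W]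
    (hW : Fintype.card W ≤ n) :
    ∃ part : W → Fin 128, ∀ a, 64 * (univ.filter fun v => part v = a).card ≤ n := by
  classical
  let e := Fintype.equivFin W
  refine ⟨fun v => ⟨(e v : ℕ) % 128, Nat.mod_lt _ (by norm_num)⟩, fun a => ?_⟩
  have h : (univ.filter fun v : W =>
      (⟨(e v : ℕ) % 128, Nat.mod_lt _ (by norm_num)⟩ : Fin 128) = a).card ≤
      (range (n / 128 + 1)).card := by
    apply Finset.card_le_card_of_injOn (fun v => (e v : ℕ) / 128)
    · intro v _
      simp only [coe_range, Set.mem_Iio]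
      have h1 : (e v : ℕ) < Fintype.card W := (e v).isLt
      have h2 : (e v : ℕ) / 128 ≤ n / 128 := Nat.div_le_div_right (by omega)
      omega
    · intro v hv v' hv' heq
      simp only [coe_filter, mem_univ, true_and, Set.mem_ofPred_eq] at hv hv' heq
      have h1 : (e v : ℕ) % 128 = (e v' : ℕ) % 128 := by
        have := congrArg Fin.val (hv.trans hv'.symm)
        simpa using this
      have h2 : (e v : ℕ) = (e v' : ℕ) := by
        rw [← Nat.div_add_mod (e v : ℕ) 128, ← Nat.div_add_mod (e v' : ℕ) 128, h1, heq]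
      exact e.injective (Fin.ext h2)
  rw [card_range] at h
  change 64 * (univ.filter fun v : W =>
      (⟨(e v : ℕ) % 128, Nat.mod_lt _ (by norm_num)⟩ : Fin 128) = a).card ≤ n
  omega

end parts

section idx

variable {W : Type} [Fintype W] [DecidableEq W]

open Classical in
/-- the number of earlier neighbours of `v` which come before `u` -/
noncomputable def idx (H : SimpleGraph W) (ord : W → ℕ) (v u : W) : ℕ :=
  (univ.filter fun u' => (H.Adj v u' ∧ ord u' < ord v) ∧ ord u' < ord u).card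

theorem idx_lt (H : SimpleGraph W) (ord : W → ℕ) (d : ℕ) (v u : W)
    (hd : Set.ncard {u | H.Adj v u ∧ ord u < ord v} ≤ d)
    (hu : H.Adj v u ∧ ord u < ord v) : idx H ord v u < d := by
  classical
  refine lt_of_lt_of_le ?_ hd
  rw [Set.ncard_eq_toFinset_card', idx]
  apply Finset.card_lt_card
  rw [Finset.ssubset_iff_of_subset]
  · exact ⟨u, by simpa using hu, by simp⟩
  · intro x hx
    simp only [mem_filter, mem_univ, true_and] at hx
    simpa using hx.1

theorem idx_strictMono (H : SimpleGraph W) (ord : W → ℕ) (v u u' : W)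
    (hu : H.Adj v u ∧ ord u < ord v) (h : ord u < ord u') :
    idx H ord v u < idx H ord v u' := by
  classical
  rw [idx, idx]
  apply Finset.card_lt_card
  rw [Finset.ssubset_iff_of_subset]
  · exact ⟨u, by simp [hu, h], by simp⟩
  · intro x hx
    simp only [mem_filter, mem_univ, true_and] at hx ⊢
    exact ⟨hx.1, hx.2.trans h⟩

theorem idx_inj (H : SimpleGraph W) (ord : W → ℕ) (hord : Function.Injective ord) (v u u' : W)
    (hu : H.Adj v u ∧ ord u < ord v) (hu' : H.Adj v u' ∧ ord u' < ord v)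
    (h : idx H ord v u = idx H ord v u') : u = u' := by
  rcases lt_trichotomy (ord u) (ord u') with h1 | h1 | h1
  · exact absurd h (idx_strictMono H ord v u u' hu h1).ne
  · exact hord h1
  · exact absurd h.symm (idx_strictMono H ord v u' u hu' h1).ne

/-- each group of indices has at most `z` neighbours -/
theorem group_card (H : SimpleGraph W) (ord : W → ℕ) (hord : Function.Injective ord)
    (z : ℕ) (hz : 1 ≤ z) (v : W) (γ : ℕ) (s : Finset W)
    (hs : ∀ u ∈ s, (H.Adj v u ∧ ord u < ord v) ∧ idx H ord v u / z = γ) : s.card ≤ z := by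
  have h : s.card ≤ (Finset.Ico (γ * z) (γ * z + z)).card := by
    apply Finset.card_le_card_of_injOn (fun u => idx H ord v u)
    · intro u hu
      have := (hs u hu).2
      simp only [coe_Ico, Set.mem_Ico]
      constructor
      · rw [← this]; exact Nat.div_mul_le_self _ _
      · rw [← this]; exact Nat.lt_div_mul_add hz
    · intro u hu u' hu' heq
      exact idx_inj H ord hord v u u' (hs u hu).1 (hs u' hu').1 heq
  simpa using h

/-- number of hubs -/
theorem hubs_card (H : SimpleGraph W) (ord : W → ℕ) (d D : ℕ)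
    (hd : ∀ v, Set.ncard {u | H.Adj v u ∧ ord u < ord v} ≤ d)
    (B : Finset W) (hB : ∀ u ∈ B, D < Set.ncard {v | H.Adj v u ∧ ord u < ord v}) :
    B.card * (D + 1) ≤ Fintype.card W * d := by
  classical
  have h1 : B.card * (D + 1) ≤
      ∑ u ∈ B, (univ.filter fun v => H.Adj v u ∧ ord u < ord v).card := by
    rw [← smul_eq_mul]
    apply Finset.card_nsmul_le_sum
    intro u hu
    have := hB u hu
    rw [Set.ncard_eq_toFinset_card'] at this
    have h2 : (Set.toFinset {v | H.Adj v u ∧ ord u < ord v}) =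
        univ.filter fun v => H.Adj v u ∧ ord u < ord v := by ext; simp
    rw [h2] at this
    exact this
  refine h1.trans ?_
  calc ∑ u ∈ B, (univ.filter fun v => H.Adj v u ∧ ord u < ord v).card
      ≤ ∑ u : W, (univ.filter fun v => H.Adj v u ∧ ord u < ord v).card :=
        Finset.sum_le_sum_of_subset (Finset.subset_univ _)
    _ = ∑ v : W, (univ.filter fun u => H.Adj v u ∧ ord u < ord v).card := by
        simp only [Finset.card_filter]
        rw [Finset.sum_comm]
    _ ≤ ∑ v : W, d := by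
        apply Finset.sum_le_sum
        intro v _
        have := hd v
        rw [Set.ncard_eq_toFinset_card'] at this
        have h2 : (Set.toFinset {u | H.Adj v u ∧ ord u < ord v}) =
            univ.filter fun u => H.Adj v u ∧ ord u < ord v := by ext; simp
        rw [h2] at this
        exact this
    _ = Fintype.card W * d := by simp

/-- greedy colouring along a degenerate order -/
theorem exists_coloring (H : SimpleGraph W) (ord : W → ℕ) (hord : Function.Injective ord) (d : ℕ)
    (hd : ∀ v, Set.ncard {u | H.Adj v u ∧ ord u < ord v} ≤ d) :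
    ∃ χ : W → Fin (d + 1), ∀ u v, H.Adj u v → χ u ≠ χ v := by
  classical
  have key : ∀ m : ℕ, ∃ χ : W → Fin (d + 1),
      ∀ u v, ord u < m → ord v < m → H.Adj u v → χ u ≠ χ v := by
    intro m
    induction m with
    | zero => exact ⟨fun _ => 0, fun u v hu => absurd hu (by omega)⟩
    | succ m ih =>
      obtain ⟨χ, hχ⟩ := ih
      by_cases hm : ∃ w, ord w = m
      · obtain ⟨w, hw⟩ := hm
        obtain ⟨c, hc⟩ : ∃ c : Fin (d + 1),
            c ∉ (univ.filter fun u => H.Adj w u ∧ ord u < ord w).image χ := by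
          by_contra hcon
          push Not at hcon
          have h1 : (univ : Finset (Fin (d + 1))) ⊆
              (univ.filter fun u => H.Adj w u ∧ ord u < ord w).image χ := fun c _ => hcon c
          have h2 := Finset.card_le_card h1
          have h3 := (h2.trans Finset.card_image_le)
          have := hd w
          rw [Set.ncard_eq_toFinset_card'] at this
          have h4 : (Set.toFinset {u | H.Adj w u ∧ ord u < ord w}) =
              univ.filter fun u => H.Adj w u ∧ ord u < ord w := by ext; simp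
          rw [h4] at this
          simp at h3
          omega
        refine ⟨Function.update χ w c, fun u v hu hv huv => ?_⟩
        simp only [Finset.mem_image, Finset.mem_filter, Finset.mem_univ, true_and, not_exists,
          not_and] at hc
        by_cases hu' : u = w
        · subst hu'
          have hvu : v ≠ u := huv.ne'
          rw [Function.update_self, Function.update_of_ne hvu]
          have : ord v < ord u := by
            have : ord v ≠ ord u := fun h => hvu (hord h)
            omega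
          exact fun h => hc v ⟨huv, this⟩ h.symm
        · by_cases hv' : v = w
          · subst hv'
            rw [Function.update_self, Function.update_of_ne hu']
            have : ord u < ord v := by
              have : ord u ≠ ord v := fun h => hu' (hord h)
              omega
            exact fun h => hc u ⟨huv.symm, this⟩ h
          · rw [Function.update_of_ne hu', Function.update_of_ne hv']
            apply hχ u v _ _ huv
            · have : ord u ≠ m := fun h => hu' (hord (h.trans hw.symm))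
              omega
            · have : ord v ≠ m := fun h => hv' (hord (h.trans hw.symm))
              omega
      · refine ⟨χ, fun u v hu hv huv => hχ u v ?_ ?_ huv⟩
        · have : ord u ≠ m := fun h => hm ⟨u, h⟩
          omega
        · have : ord v ≠ m := fun h => hm ⟨v, h⟩
          omega
  obtain ⟨χ, hχ⟩ := key (univ.sup ord + 1)
  refine ⟨χ, fun u v huv => hχ u v ?_ ?_ huv⟩
  · exact Nat.lt_succ_of_le (Finset.le_sup (f := ord) (Finset.mem_univ u))
  · exact Nat.lt_succ_of_le (Finset.le_sup (f := ord) (Finset.mem_univ v))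

end idx

end Crest.Agent.R052.Struct
end

-- ▼ part R052/Final
section

/-!
Row 52, S0073: assembly of the class lemmas.
-/

set_option autoImplicit false

open Finset
open Crest.CombinatoricsR.RandomGraph

namespace Crest.Agent.R052.Final

open Crest.Agent.R052.Struct

theorem Splits.mono_p {n : ℕ} {p q : ℝ} (hp : 0 ≤ p) (hpq : p ≤ q) (hq : q ≤ 1) {W : Type}
    {F : SimpleGraph W} {k : ℕ} (h : Splits n p F k) : Splits n q F k := by
  obtain ⟨c, hc⟩ := h
  exact ⟨c, fun i => (hc i).trans (Gr.gnp_contained_mono _ hp hpq hq)⟩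

theorem splits_one_prob {n : ℕ} {W : Type} [Fintype W] (hW : Fintype.card W ≤ n)
    (F : SimpleGraph W) : Splits n 1 F 1 := by
  apply splits_one zero_le_one le_rfl
  rw [Gr.gnp_one hW]
  norm_num

section numeric

/-- `z` is at most logarithmic -/
theorem z_small (n : ℕ) (hn : 1280 ^ 32 ≤ n) (p : ℝ) (z : ℕ) (hp0 : 0 < p) (hp : p ≤ 1 / 2)
    (hz : 1 ≤ p ^ (64 * z) * n) : (256 * z) ^ 32 ≤ n := by
  have h1 : (1 : ℝ) ≤ (1 / 2) ^ (64 * z) * n := by
    refine hz.trans ?_
    apply mul_le_mul_of_nonneg_right _ (Nat.cast_nonneg n)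
    exact pow_le_pow_left₀ hp0.le hp _
  have h2 : (2 : ℝ) ^ (64 * z) ≤ n := by
    rw [one_div, inv_pow] at h1
    have h3 : (0 : ℝ) < 2 ^ (64 * z) := by positivity
    calc (2 : ℝ) ^ (64 * z) = 2 ^ (64 * z) * 1 := by ring
      _ ≤ 2 ^ (64 * z) * ((2 ^ (64 * z))⁻¹ * n) := by gcongr
      _ = n := by field_simp
  have h4 : 2 ^ (64 * z) ≤ n := by exact_mod_cast h2
  rcases Nat.lt_or_ge z 6 with hz6 | hz6
  · refine le_trans ?_ hn
    apply Nat.pow_le_pow_left
    omega
  · refine le_trans ?_ h4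
    have h5 : ∀ m : ℕ, 6 ≤ m → 256 * m ≤ 2 ^ (2 * m) := by
      intro m hm
      induction m, hm using Nat.le_induction with
      | base => norm_num
      | succ m hm ih =>
        have : 2 ^ (2 * (m + 1)) = 4 * 2 ^ (2 * m) := by ring
        rw [this]
        omega
    calc (256 * z) ^ 32 ≤ (2 ^ (2 * z)) ^ 32 := Nat.pow_le_pow_left (h5 z hz6) 32
      _ = 2 ^ (64 * z) := by rw [← pow_mul]; ring_nf

/-- the number of hubs is small -/
theorem hubs_small (n z D b : ℕ) (hn : 1280 ^ 32 ≤ n) (hz : (256 * z) ^ 32 ≤ n)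
    (hD : n < (D + 1) ^ 16) (hb : b * (D + 1) ≤ n * (256 * z)) : b ^ 32 ≤ n ^ 31 ∧ 4 * b ≤ n := by
  have hn0 : 0 < n := lt_of_lt_of_le (by positivity) hn
  have h1 : b ^ 32 * n ^ 2 ≤ n ^ 31 * n ^ 2 := by
    calc b ^ 32 * n ^ 2 ≤ b ^ 32 * ((D + 1) ^ 16) ^ 2 := by gcongr
      _ = (b * (D + 1)) ^ 32 := by rw [mul_pow, ← pow_mul]
      _ ≤ (n * (256 * z)) ^ 32 := Nat.pow_le_pow_left hb 32
      _ = n ^ 32 * (256 * z) ^ 32 := by rw [mul_pow]
      _ ≤ n ^ 32 * n := by gcongr
      _ = n ^ 31 * n ^ 2 := by ring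
  have h2 : b ^ 32 ≤ n ^ 31 := Nat.le_of_mul_le_mul_right h1 (by positivity)
  refine ⟨h2, ?_⟩
  have h3 : (4 * b) ^ 32 ≤ n ^ 32 := by
    calc (4 * b) ^ 32 = 4 ^ 32 * b ^ 32 := by rw [mul_pow]
      _ ≤ 4 ^ 32 * n ^ 31 := by gcongr
      _ ≤ n * n ^ 31 := by
        apply Nat.mul_le_mul_right
        refine le_trans ?_ hn
        norm_num
      _ = n ^ 32 := by ring
  exact (Nat.pow_le_pow_iff_left (by norm_num)).1 h3

end numeric

section relgraph

variable {W : Type}


theorem fromRel_adj_earlier (ord : W → ℕ) (R : W → W → Prop) (h : ∀ v u, R v u → ord u < ord v)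
    (v u : W) : ((SimpleGraph.fromRel R).Adj v u ∧ ord u < ord v) ↔ R v u := by
  rw [SimpleGraph.fromRel_adj]
  constructor
  · rintro ⟨⟨_, h1 | h1⟩, h2⟩
    · exact h1
    · exact absurd (h _ _ h1) (by omega)
  · intro h1
    have h2 := h _ _ h1
    exact ⟨⟨fun h3 => by subst h3; omega, Or.inl h1⟩, h2⟩

end relgraph

/-- The star class lemma in the form used by the assembly. -/
def StarLemma : Prop :=
  ∃ n0 : ℕ, ∃ L : ℝ, ∃ k : ℕ, 1 ≤ L ∧ ∀ n ≥ n0, ∀ (W : Type) [Fintype W] [DecidableEq W]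
    (H : SimpleGraph W) (p : ℝ), Fintype.card W ≤ n → 0 < p → L * p ≤ 1 → Crit n p H →
    ∀ (A : Finset W) (f : W → W), 64 * A.card ≤ n → (∀ v ∈ A, H.Adj v (f v)) →
    (∀ v ∈ A, f v ∉ A) →
    Splits n (L * p) (SimpleGraph.fromRel fun v b => v ∈ A ∧ f v = b) k


/-- The degenerate order. -/
def OrientLemma : Prop :=
  ∀ (n : ℕ) (W : Type) [Fintype W] [DecidableEq W] (H : SimpleGraph W)
    (p : ℝ) (z : ℕ), 0 < p → p ≤ 1 / 2 → Crit n p H → p ^ (64 * (z + 1)) * n < 1 →
    ∃ ord : W → ℕ, Function.Injective ord ∧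
      ∀ v, Set.ncard {u | H.Adj v u ∧ ord u < ord v} ≤ 128 * (z + 1)

/-- Few common neighbours. -/
def CommonLemma : Prop :=
  ∃ n0 : ℕ, ∀ n ≥ n0, ∀ (W : Type) [Fintype W] [DecidableEq W]
    (H : SimpleGraph W) (p : ℝ) (z : ℕ), 0 < p → p ≤ 1 / 2 → Crit n p H →
    1 ≤ p ^ (64 * z) * n →
    ∀ Z : Finset W, Z.Nonempty → Z.card ≤ z →
      (Set.ncard {v | ∀ u ∈ Z, H.Adj v u} : ℝ) ≤ 30 * n * p ^ Z.card

/-- The hub class lemma. -/
def HubLemma : Prop :=
  ∃ n0 : ℕ, ∃ L : ℝ, 1 ≤ L ∧ ∀ n ≥ n0, ∀ (W : Type) [Fintype W] [DecidableEq W]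
    (A B : Finset W) (S : W → Finset W) (p : ℝ) (z : ℕ),
    Fintype.card W ≤ n → Disjoint A B → 64 * A.card ≤ n → 4 * B.card ≤ n →
    0 < p → L * p ≤ 1 → 1 ≤ p ^ (64 * z) * n →
    (∀ v ∈ A, S v ⊆ B) → (∀ v ∈ A, (S v).card ≤ z) →
    (∀ Z : Finset W, Z.Nonempty → Z.card ≤ z →
      ((A.filter fun v => Z ⊆ S v).card : ℝ) ≤ 30 * n * p ^ Z.card) →
    Splits n (L * p) (SimpleGraph.fromRel fun v b => v ∈ A ∧ b ∈ S v) 2

/-- The low class lemma. -/
def LowLemma : Prop :=
  ∃ n0 : ℕ, ∀ n ≥ n0, ∀ (W : Type) [Fintype W] [DecidableEq W]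
    (F : SimpleGraph W) (ord : W → ℕ) (A : Finset W) (p : ℝ) (z D : ℕ),
    Fintype.card W ≤ n → 0 < p → p ≤ 1 / 2 → Function.Injective ord →
    (∀ u v, F.Adj u v → u ∈ A) → 2 * A.card ≤ n → 1 ≤ p ^ (64 * z) * n → D ^ 16 ≤ n →
    (∀ v, Set.ncard {u | F.Adj v u ∧ ord u < ord v} ≤ z) →
    (∀ u, Set.ncard {v | F.Adj v u ∧ ord u < ord v} ≤ D) →
    1 / 2 ≤ gnpProb n p {G | F.IsContained G}

/-- The small class lemma. -/
def SmallLemma : Prop :=
  ∃ n0 : ℕ, ∀ n ≥ n0, ∀ (W : Type) [Fintype W] [DecidableEq W]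
    (F : SimpleGraph W) (ord : W → ℕ) (A : Finset W) (p : ℝ) (z : ℕ),
    Fintype.card W ≤ n → 0 < p → p ≤ 1 / 2 → Function.Injective ord →
    (∀ u v, F.Adj u v → u ∈ A) → A.card ^ 32 ≤ n ^ 31 → 1 ≤ p ^ (64 * z) * n →
    (∀ v, Set.ncard {u | F.Adj v u ∧ ord u < ord v} ≤ z) →
    1 / 2 ≤ gnpProb n p {G | F.IsContained G}

/-- the sparse case -/
theorem sparse (hstar : StarLemma) (hor : OrientLemma) :
    ∃ n0 : ℕ, ∃ L : ℝ, ∃ k : ℕ, 2 ≤ L ∧ ∀ n ≥ n0, ∀ (W : Type) [Fintype W] [DecidableEq W]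
    (H : SimpleGraph W) (p : ℝ), Fintype.card W ≤ n → 0 < p → L * p ≤ 1 → Crit n p H →
    p ^ 64 * n < 1 → Splits n (L * p) H k := by
  obtain ⟨n0, L, k, hL, hst⟩ := hstar
  refine ⟨max n0 128, L + 1, Fintype.card (Fin 128 × Fin 129 × Fin 129 × Fin 128) * k,
    by linarith, ?_⟩
  intro n hn W _ _ H p hW hp0 hLp hcrit hz
  classical
  have hn0 : n0 ≤ n := (le_max_left _ _).trans hn
  have hn1 : 128 ≤ n := (le_max_right _ _).trans hn
  have hp2 : p ≤ 1 / 2 := by nlinarith
  obtain ⟨ord, hord, hdeg⟩ := hor n W H p 0 hp0 hp2 hcrit (by simpa using hz)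
  simp only [zero_add, mul_one] at hdeg
  obtain ⟨part, hpart⟩ := exists_parts n hn1 W hW
  obtain ⟨χ, hχ⟩ := exists_coloring H ord hord 128 hdeg
  have hLp' : L * p ≤ 1 := by nlinarith
  -- the neighbour function
  have hf : ∀ (j : ℕ) (v : W), ∃ u, (∃ u', (H.Adj v u' ∧ ord u' < ord v) ∧ idx H ord v u' = j) →
      (H.Adj v u ∧ ord u < ord v) ∧ idx H ord v u = j := by
    intro j v
    by_cases h : ∃ u', (H.Adj v u' ∧ ord u' < ord v) ∧ idx H ord v u' = j
    · obtain ⟨u, hu⟩ := h
      exact ⟨u, fun _ => hu⟩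
    · exact ⟨v, fun h' => absurd h' h⟩
  choose f hf using hf
  have key : ∀ t : Fin 128 × Fin 129 × Fin 129 × Fin 128,
      Splits n ((L + 1) * p) (SimpleGraph.fromRel fun v b =>
        (v ∈ univ.filter fun v => (part v = t.2.2.2 ∧ χ v = t.2.1 ∧ t.2.1 ≠ t.2.2.1 ∧
          χ (f t.1 v) = t.2.2.1 ∧ (H.Adj v (f t.1 v) ∧ ord (f t.1 v) < ord v))) ∧
        f t.1 v = b) k := by
    intro t
    refine Splits.mono_p (by positivity) (by nlinarith) hLp
      (hst n hn0 W H p hW hp0 hLp' hcrit _ (f t.1) ?_ ?_ ?_)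
    · refine le_trans ?_ (hpart t.2.2.2)
      apply Nat.mul_le_mul_left
      apply Finset.card_le_card
      intro v hv
      simp only [mem_filter, mem_univ, true_and] at hv ⊢
      exact hv.1
    · intro v hv
      simp only [mem_filter, mem_univ, true_and] at hv
      exact hv.2.2.2.2.1
    · intro v hv hv'
      simp only [mem_filter, mem_univ, true_and] at hv hv'
      apply hv.2.2.1
      rw [← hv'.2.1, hv.2.2.2.1]
  refine Splits.cover (by positivity) hLp _ ?_ key
  -- covering
  have hcov : ∀ v u, H.Adj v u → ord u < ord v → ∃ t : Fin 128 × Fin 129 × Fin 129 × Fin 128,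
      (v ∈ univ.filter fun v => (part v = t.2.2.2 ∧ χ v = t.2.1 ∧ t.2.1 ≠ t.2.2.1 ∧
          χ (f t.1 v) = t.2.2.1 ∧ (H.Adj v (f t.1 v) ∧ ord (f t.1 v) < ord v))) ∧
        f t.1 v = u := by
    intro v u hvu hlt
    have hj : idx H ord v u < 128 := idx_lt H ord 128 v u (hdeg v) ⟨hvu, hlt⟩
    have h1 := hf (idx H ord v u) v ⟨u, ⟨hvu, hlt⟩, rfl⟩
    have h2 : f (idx H ord v u) v = u := idx_inj H ord hord v _ _ h1.1 ⟨hvu, hlt⟩ h1.2
    refine ⟨(⟨idx H ord v u, hj⟩, χ v, χ u, part v), ?_, h2⟩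
    simp only [mem_filter, mem_univ, true_and]
    rw [h2]
    exact ⟨hχ v u hvu, rfl, hvu, hlt⟩
  intro u v huv
  rcases lt_trichotomy (ord u) (ord v) with h | h | h
  · obtain ⟨t, ht⟩ := hcov v u huv.symm h
    refine ⟨t, ?_⟩
    rw [SimpleGraph.fromRel_adj]
    exact ⟨huv.ne, Or.inr ht⟩
  · exact absurd (hord h) huv.ne
  · obtain ⟨t, ht⟩ := hcov u v huv h
    refine ⟨t, ?_⟩
    rw [SimpleGraph.fromRel_adj]
    exact ⟨huv.ne, Or.inl ht⟩

theorem case_split {n : ℕ} (hn : 2 ≤ n) (L1 L2 : ℝ) (hL1 : 2 ≤ L1) (hL2 : 2 ≤ L2)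
    (n1 n2 k1 k2 : ℕ)
    (W : Type) [Fintype W] (H : SimpleGraph W) (hW : Fintype.card W ≤ n)
    (p : ℝ) (hpn : 1 / (n : ℝ) ^ 2 ≤ p)
    (h1 : n1 ≤ n → 0 < p → L1 * p ≤ 1 → p ^ 64 * n < 1 → Splits n (L1 * p) H k1)
    (h2 : ∀ z : ℕ, n2 ≤ n → 0 < p → L2 * p ≤ 1 → 1 ≤ z → 1 ≤ p ^ (64 * z) * n →
      p ^ (64 * (z + 1)) * n < 1 → Splits n (L2 * p) H k2) :
    Splits n (min 1 (max (max L1 L2) (((max n1 n2 : ℕ) : ℝ) ^ 2) * p)) H (max (max k1 k2) 2) := by
  have hn2 : (2 : ℝ) ≤ n := by exact_mod_cast hn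
  have hn0 : (0 : ℝ) < n := by linarith
  have hp0 : 0 < p := lt_of_lt_of_le (by positivity) hpn
  set L := max (max L1 L2) (((max n1 n2 : ℕ) : ℝ) ^ 2) with hL
  have hLL1 : L1 ≤ L := (le_max_left _ _).trans (le_max_left _ _)
  have hLL2 : L2 ≤ L := (le_max_right _ _).trans (le_max_left _ _)
  have hLN : ((max n1 n2 : ℕ) : ℝ) ^ 2 ≤ L := le_max_right _ _
  rcases le_or_gt 1 (L * p) with hLp | hLp
  · rw [min_eq_left hLp]
    exact Splits.mono_k zero_le_one le_rfl hW
      (le_trans (by norm_num) (le_max_right _ _)) (splits_one_prob hW H)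
  · rw [min_eq_right hLp.le]
    have hLp0 : 0 ≤ L * p := by nlinarith
    have hnN : max n1 n2 ≤ n := by
      have h3 : ((max n1 n2 : ℕ) : ℝ) ^ 2 < (n : ℝ) ^ 2 := by
        have h4 : ((max n1 n2 : ℕ) : ℝ) ^ 2 * p < 1 := by
          refine lt_of_le_of_lt ?_ hLp
          exact mul_le_mul_of_nonneg_right hLN hp0.le
        have h5 : ((max n1 n2 : ℕ) : ℝ) ^ 2 * (1 / (n : ℝ) ^ 2) < 1 := by
          refine lt_of_le_of_lt ?_ h4
          exact mul_le_mul_of_nonneg_left hpn (by positivity)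
        rw [mul_one_div, div_lt_one (by positivity)] at h5
        exact h5
      have h6 := lt_of_pow_lt_pow_left₀ 2 hn0.le h3
      exact_mod_cast h6.le
    have hn1 : n1 ≤ n := (le_max_left _ _).trans hnN
    have hn2 : n2 ≤ n := (le_max_right _ _).trans hnN
    have hL1p : L1 * p ≤ 1 := (mul_le_mul_of_nonneg_right hLL1 hp0.le).trans hLp.le
    have hL2p : L2 * p ≤ 1 := (mul_le_mul_of_nonneg_right hLL2 hp0.le).trans hLp.le
    have hp1 : p ≤ 1 / 2 := by nlinarith
    have hex : ∃ z : ℕ, p ^ (64 * z) * n < 1 := by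
      obtain ⟨m, hm⟩ := exists_pow_lt_of_lt_one (show (0 : ℝ) < 1 / n by positivity)
        (show p < 1 by linarith)
      refine ⟨m, ?_⟩
      have h3 : p ^ (64 * m) ≤ p ^ m := by
        apply pow_le_pow_of_le_one hp0.le (by linarith)
        omega
      have h4 : p ^ (64 * m) < 1 / n := lt_of_le_of_lt h3 hm
      rwa [lt_div_iff₀ hn0] at h4
    classical
    obtain ⟨z, hz1, hz2⟩ : ∃ z : ℕ, 1 ≤ p ^ (64 * z) * n ∧ p ^ (64 * (z + 1)) * n < 1 := by
      have h3 := Nat.find_spec hex
      have h4 : Nat.find hex ≠ 0 := by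
        intro h5
        rw [h5] at h3
        simp at h3
        linarith
      obtain ⟨z, hz⟩ := Nat.exists_eq_succ_of_ne_zero h4
      refine ⟨z, ?_, ?_⟩
      · have h5 := Nat.find_min hex (m := z) (by omega)
        exact not_lt.1 h5
      · rw [hz] at h3
        exact h3
    rcases Nat.eq_zero_or_pos z with rfl | hz
    · have h3 := h1 hn1 hp0 hL1p (by simpa using hz2)
      exact Splits.mono_k hLp0 hLp.le hW ((le_max_left _ _).trans (le_max_left _ _))
        (Splits.mono_p (by positivity) (mul_le_mul_of_nonneg_right hLL1 hp0.le) hLp.le h3)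
    · have h3 := h2 z hn2 hp0 hL2p hz hz1 hz2
      exact Splits.mono_k hLp0 hLp.le hW ((le_max_right _ _).trans (le_max_left _ _))
        (Splits.mono_p (by positivity) (mul_le_mul_of_nonneg_right hLL2 hp0.le) hLp.le h3)

theorem of_splits {n : ℕ} {P : ℝ} {W : Type} {H : SimpleGraph W} {k : ℕ} (h : Splits n P H k) :
    ∃ c : H.edgeSet → Fin k, ∀ i : Fin k,
      1 / 2 ≤ gnpProb n P {G | (pieceGraph H c i).IsContained G} := by
  obtain ⟨c, hc⟩ := h
  refine ⟨fun e => c e.1, fun i => ?_⟩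
  have : pieceGraph H (fun e => c e.1) i = SimpleGraph.fromEdgeSet {e | e ∈ H.edgeSet ∧ c e = i} := by
    unfold pieceGraph
    congr 1
    ext e
    simp
  rw [this]
  exact hc i
end Crest.Agent.R052.Final
end

-- ▼ part R052/Dense

/-!
Row 52, S0073: the dense case.
-/

set_option autoImplicit false
set_option maxHeartbeats 1000000

open Finset
open Crest.CombinatoricsR.RandomGraph

namespace Crest.Agent.R052.Final

open Crest.Agent.R052.Struct

/-- the dense case -/
theorem dense (hhub : HubLemma) (hlow : LowLemma) (hsmall : SmallLemma) (hor : OrientLemma)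
    (hcom : CommonLemma) :
    ∃ n0 : ℕ, ∃ L : ℝ, ∃ k : ℕ, 2 ≤ L ∧ ∀ n ≥ n0, ∀ (W : Type) [Fintype W] [DecidableEq W]
    (H : SimpleGraph W) (p : ℝ) (z : ℕ), Fintype.card W ≤ n → 0 < p → L * p ≤ 1 → Crit n p H →
    1 ≤ z → 1 ≤ p ^ (64 * z) * n → p ^ (64 * (z + 1)) * n < 1 → Splits n (L * p) H k := by
  obtain ⟨nh, L, hL, hhub⟩ := hhub
  obtain ⟨nl, hlow⟩ := hlow
  obtain ⟨ns, hsmall⟩ := hsmall
  obtain ⟨nc, hcom⟩ := hcom
  refine ⟨max (max (max nh nl) (max ns nc)) (1280 ^ 32), L + 1,
    Fintype.card ((Fin 256 × Fin 128 × Fin 128) ⊕ (Fin 256 ⊕ (Fin 256 × Fin 128))) * 2,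
    by linarith, ?_⟩
  intro n hn W _ _ H p z hW hp0 hLp hcrit hz1 hz2 hz3
  classical
  have hnh : nh ≤ n := ((le_max_left _ _).trans (le_max_left _ _)).trans
    ((le_max_left _ _).trans hn)
  have hnl : nl ≤ n := ((le_max_right _ _).trans (le_max_left _ _)).trans
    ((le_max_left _ _).trans hn)
  have hns : ns ≤ n := ((le_max_left _ _).trans (le_max_right _ _)).trans
    ((le_max_left _ _).trans hn)
  have hnc : nc ≤ n := ((le_max_right _ _).trans (le_max_right _ _)).trans
    ((le_max_left _ _).trans hn)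
  have hnb : 1280 ^ 32 ≤ n := (le_max_right _ _).trans hn
  have hn1 : 128 ≤ n := le_trans (by norm_num) hnb
  have hp2 : p ≤ 1 / 2 := by nlinarith
  have hLp' : L * p ≤ 1 := by nlinarith
  have hpL : p ≤ (L + 1) * p := by nlinarith
  have hL0 : 0 ≤ L * p := by nlinarith
  have hLL : L * p ≤ (L + 1) * p := by nlinarith
  have hL1 : 0 ≤ (L + 1) * p := by nlinarith
  obtain ⟨ord, hord, hdeg⟩ := hor n W H p z hp0 hp2 hcrit hz3
  have hdeg' : ∀ v, Set.ncard {u | H.Adj v u ∧ ord u < ord v} ≤ 256 * z :=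
    fun v => (hdeg v).trans (by omega)
  obtain ⟨part, hpart⟩ := exists_parts n hn1 W hW
  -- the degree bound `D`
  obtain ⟨D, hD1, hD2⟩ : ∃ D : ℕ, D ^ 16 ≤ n ∧ n < (D + 1) ^ 16 := by
    refine ⟨Nat.findGreatest (fun D => D ^ 16 ≤ n) n, ?_, ?_⟩
    · exact Nat.findGreatest_spec (P := fun D => D ^ 16 ≤ n) (m := 0) (Nat.zero_le _) (by simp)
    · by_contra hcon
      push Not at hcon
      have h1 : Nat.findGreatest (fun D => D ^ 16 ≤ n) n + 1 ≤ n := by
        refine le_trans ?_ hcon
        exact Nat.le_self_pow (by norm_num) _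
      have h2 := Nat.le_findGreatest (P := fun D => D ^ 16 ≤ n) h1 hcon
      omega
  set B0 : Finset W := univ.filter fun u => D < Set.ncard {v | H.Adj v u ∧ ord u < ord v}
    with hB0
  have hB0c : B0.card * (D + 1) ≤ n * (256 * z) := by
    refine (hubs_card H ord (256 * z) D hdeg' B0 ?_).trans (Nat.mul_le_mul_right _ hW)
    intro u hu
    rw [hB0] at hu
    simpa using hu
  obtain ⟨hB1, hB2⟩ := hubs_small n z D B0.card hnb (z_small n hnb p z hp0 hp2 hz2) hD2 hB0c
  -- the classes
  let Rl : ℕ → W → W → Prop := fun γ v u =>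
    (H.Adj v u ∧ ord u < ord v) ∧ idx H ord v u / z = γ
  have hRz : ∀ γ v (s : Finset W), (∀ u ∈ s, Rl γ v u) → s.card ≤ z :=
    fun γ v s hs => group_card H ord hord z hz1 v γ s hs
  let R0 : Fin 256 × Fin 128 × Fin 128 → W → W → Prop := fun t v u =>
    Rl t.1 v u ∧ part v = t.2.1 ∧ part u = t.2.2 ∧ u ∉ B0
  let R1 : Fin 256 → W → W → Prop := fun t v u => Rl t v u ∧ u ∈ B0 ∧ v ∈ B0
  let A2 : Fin 256 × Fin 128 → Finset W := fun t => univ.filter fun v => part v = t.2 ∧ v ∉ B0
  let S2 : Fin 256 × Fin 128 → W → Finset W := fun t v => B0.filter fun u => Rl t.1 v u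
  let R2 : Fin 256 × Fin 128 → W → W → Prop := fun t v u => v ∈ A2 t ∧ u ∈ S2 t v
  have hncard : ∀ (Q : W → Prop) (m : ℕ), (∀ s : Finset W, (∀ u ∈ s, Q u) → s.card ≤ m) →
      Set.ncard {u | Q u} ≤ m := by
    intro Q m h
    rw [Set.ncard_eq_toFinset_card']
    apply h
    intro u hu
    simpa using hu
  have key0 : ∀ t, Splits n ((L + 1) * p) (SimpleGraph.fromRel (R0 t)) 2 := by
    intro t
    refine Splits.mono_k hL1 hLp hW (show 1 ≤ 2 by norm_num) ?_
    refine Splits.mono_p hp0.le hpL hLp (splits_one hp0.le (by linarith) ?_)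
    have hR : ∀ v u, R0 t v u → ord u < ord v := fun v u h => h.1.1.2
    refine hlow n hnl W _ ord ((univ.filter fun v => part v = t.2.1) ∪
      (univ.filter fun v => part v = t.2.2)) p z D hW hp0 hp2 hord ?_ ?_ hz2 hD1 ?_ ?_
    · intro u v huv
      rw [SimpleGraph.fromRel_adj] at huv
      rcases huv.2 with h | h
      · exact Finset.mem_union_left _ (by simpa using h.2.1)
      · exact Finset.mem_union_right _ (by simpa using h.2.2.1)
    · have h1 := hpart t.2.1
      have h2 := hpart t.2.2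
      have h3 := Finset.card_union_le (univ.filter fun v => part v = t.2.1)
        (univ.filter fun v => part v = t.2.2)
      omega
    · intro v
      apply hncard
      intro s hs
      apply hRz t.1 v s
      intro u hu
      exact ((fromRel_adj_earlier ord (R0 t) hR v u).1 (hs u hu)).1
    · intro u
      apply hncard
      intro s hs
      rcases s.eq_empty_or_nonempty with rfl | ⟨v, hv⟩
      · simp
      · have h1 := ((fromRel_adj_earlier ord (R0 t) hR v u).1 (hs v hv)).2.2.2
        rw [hB0] at h1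
        simp only [mem_filter, mem_univ, true_and, not_lt] at h1
        refine le_trans ?_ h1
        rw [Set.ncard_eq_toFinset_card']
        apply Finset.card_le_card
        intro v' hv'
        have h2 := ((fromRel_adj_earlier ord (R0 t) hR v' u).1 (hs v' hv')).1.1
        simpa using h2
  have key1 : ∀ t, Splits n ((L + 1) * p) (SimpleGraph.fromRel (R1 t)) 2 := by
    intro t
    refine Splits.mono_k hL1 hLp hW (show 1 ≤ 2 by norm_num) ?_
    refine Splits.mono_p hp0.le hpL hLp (splits_one hp0.le (by linarith) ?_)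
    have hR : ∀ v u, R1 t v u → ord u < ord v := fun v u h => h.1.1.2
    refine hsmall n hns W _ ord B0 p z hW hp0 hp2 hord ?_ hB1 hz2 ?_
    · intro u v huv
      rw [SimpleGraph.fromRel_adj] at huv
      rcases huv.2 with h | h
      · exact h.2.2
      · exact h.2.1
    · intro v
      apply hncard
      intro s hs
      apply hRz t v s
      intro u hu
      exact ((fromRel_adj_earlier ord (R1 t) hR v u).1 (hs u hu)).1
  have key2 : ∀ t, Splits n ((L + 1) * p) (SimpleGraph.fromRel (R2 t)) 2 := by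
    intro t
    refine Splits.mono_p hL0 hLL hLp
      (hhub n hnh W (A2 t) B0 (S2 t) p z hW ?_ ?_ hB2 hp0 hLp' hz2 ?_ ?_ ?_)
    · rw [Finset.disjoint_left]
      intro v hv
      simp only [A2, mem_filter, mem_univ, true_and] at hv
      exact hv.2
    · refine le_trans ?_ (hpart t.2)
      apply Nat.mul_le_mul_left
      apply Finset.card_le_card
      intro v hv
      simp only [A2, mem_filter, mem_univ, true_and] at hv ⊢
      exact hv.1
    · intro v _
      exact Finset.filter_subset _ _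
    · intro v _
      apply hRz t.1 v
      intro u hu
      simp only [S2, mem_filter] at hu
      exact hu.2
    · intro Z hZ hZz
      refine le_trans ?_ (hcom n hnc W H p z hp0 hp2 hcrit hz2 Z hZ hZz)
      rw [Set.ncard_eq_toFinset_card']
      norm_cast
      apply Finset.card_le_card
      intro v hv
      simp only [mem_filter] at hv
      simp only [Set.mem_toFinset, Set.mem_ofPred_eq]
      intro u hu
      have := hv.2 hu
      simp only [S2, mem_filter] at this
      exact this.2.1.1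
  let Fs : (Fin 256 × Fin 128 × Fin 128) ⊕ (Fin 256 ⊕ (Fin 256 × Fin 128)) → SimpleGraph W :=
    Sum.elim (fun t => SimpleGraph.fromRel (R0 t))
      (Sum.elim (fun t => SimpleGraph.fromRel (R1 t)) (fun t => SimpleGraph.fromRel (R2 t)))
  refine Splits.cover hL1 hLp Fs ?_ ?_
  · have hcov : ∀ v u, H.Adj v u → ord u < ord v → ∃ j, (Fs j).Adj v u := by
      intro v u hvu hlt
      have h1 : idx H ord v u < 256 * z := idx_lt H ord _ v u (hdeg' v) ⟨hvu, hlt⟩
      have h2 : idx H ord v u / z < 256 := by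
        rw [Nat.div_lt_iff_lt_mul (by omega)]
        exact h1
      by_cases hu : u ∈ B0
      · by_cases hv : v ∈ B0
        · refine ⟨Sum.inr (Sum.inl ⟨idx H ord v u / z, h2⟩), ?_⟩
          change (SimpleGraph.fromRel (R1 ⟨idx H ord v u / z, h2⟩)).Adj v u
          rw [SimpleGraph.fromRel_adj]
          exact ⟨hvu.ne, Or.inl ⟨⟨⟨hvu, hlt⟩, rfl⟩, hu, hv⟩⟩
        · refine ⟨Sum.inr (Sum.inr (⟨idx H ord v u / z, h2⟩, part v)), ?_⟩
          change (SimpleGraph.fromRel (R2 (⟨idx H ord v u / z, h2⟩, part v))).Adj v u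
          rw [SimpleGraph.fromRel_adj]
          refine ⟨hvu.ne, Or.inl ⟨?_, ?_⟩⟩
          · simp only [A2, mem_filter, mem_univ, true_and]
            exact hv
          · simp only [S2, mem_filter]
            exact ⟨hu, ⟨hvu, hlt⟩, rfl⟩
      · refine ⟨Sum.inl (⟨idx H ord v u / z, h2⟩, part v, part u), ?_⟩
        change (SimpleGraph.fromRel (R0 (⟨idx H ord v u / z, h2⟩, part v, part u))).Adj v u
        rw [SimpleGraph.fromRel_adj]
        exact ⟨hvu.ne, Or.inl ⟨⟨⟨hvu, hlt⟩, rfl⟩, rfl, rfl, hu⟩⟩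
    intro u v huv
    rcases lt_trichotomy (ord u) (ord v) with h | h | h
    · obtain ⟨j, hj⟩ := hcov v u huv.symm h
      exact ⟨j, hj.symm⟩
    · exact absurd (hord h) huv.ne
    · exact hcov u v huv h
  · rintro (t | t | t)
    · exact key0 t
    · exact key1 t
    · exact key2 t

end Crest.Agent.R052.Final
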