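import Mathlib
import Crest.Agent.S0071

-- ▼ part R052/Odds
section

/-!
# Domination of mixtures of product measures (odds form)

For a finite type `α`, `p : α → ℝ`, `mu p S = ∏_{x ∈ S} p x · ∏_{x ∉ S} (1 - p x)`.
For an up-closed family `U` and `r : α → ℝ` there is an explicit nonnegative function
`(phi r U S)^2` with
`(∑_{R ∈ U} mu p R) * mu p ∅ ≤ ∑_S mu p S * (phi r U S)^2` for every `p ∈ [0,1]^α`, with equality at
`p = r`.  (The left side is the squared distance, in `L²(mu p)`, of the indicator of `∅` to the span of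
`{1[T ⊆ ·] : T ∉ U}`.)
-/

set_option autoImplicit false

namespace Crest.Agent.R052.Odds

open Finset

variable {α : Type*} [Fintype α] [DecidableEq α]

/-- product weight -/
noncomputable def mu (p : α → ℝ) (S : Finset α) : ℝ := ∏ x, if x ∈ S then p x else 1 - p x

/-- centred monomial -/
noncomputable def chi (r : α → ℝ) (R S : Finset α) : ℝ :=
  ∏ x ∈ R, ((if x ∈ S then 1 else 0) - r x)

/-- the residual of the indicator of `∅` -/
noncomputable def phi (r : α → ℝ) (U : Finset (Finset α)) (S : Finset α) : ℝ :=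
  ∑ R ∈ U, (-1 : ℝ) ^ R.card * (∏ x ∈ univ \ R, (1 - r x)) * chi r R S

theorem sum_prod_ite (a b : α → ℝ) :
    ∑ S : Finset α, ∏ x, (if x ∈ S then a x else b x) = ∏ x, (a x + b x) := by
  rw [Finset.prod_add]
  rw [Finset.powerset_univ]
  refine Finset.sum_congr rfl fun S _ => ?_
  rw [← Finset.prod_sdiff (Finset.subset_univ S), mul_comm]
  congr 1
  · exact Finset.prod_congr rfl fun x hx => by simp [hx]
  · exact Finset.prod_congr rfl fun x hx => by
      simp only [mem_sdiff, mem_univ, true_and] at hx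
      simp [hx]

theorem prod_subset_ite (R : Finset α) (f : α → ℝ) :
    ∏ x ∈ R, f x = ∏ x, if x ∈ R then f x else 1 := by
  rw [Finset.prod_ite_mem]
  simp

theorem mu_mul_chi_chi (p r t : α → ℝ) (R T S : Finset α) :
    mu p S * chi r R S * chi t T S =
      ∏ x, (if x ∈ S then p x * (if x ∈ R then 1 - r x else 1) * (if x ∈ T then 1 - t x else 1)
        else (1 - p x) * (if x ∈ R then - r x else 1) * (if x ∈ T then - t x else 1)) := by
  unfold mu chi
  rw [prod_subset_ite R, prod_subset_ite T, ← prod_mul_distrib, ← prod_mul_distrib]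
  refine Finset.prod_congr rfl fun x _ => ?_
  by_cases h1 : x ∈ S <;> by_cases h2 : x ∈ R <;> by_cases h3 : x ∈ T <;> simp [h1, h2, h3]

theorem sum_mu_chi_chi (p r t : α → ℝ) (R T : Finset α) :
    ∑ S, mu p S * chi r R S * chi t T S =
      ∏ x, (p x * (if x ∈ R then 1 - r x else 1) * (if x ∈ T then 1 - t x else 1)
        + (1 - p x) * (if x ∈ R then - r x else 1) * (if x ∈ T then - t x else 1)) := by
  rw [← sum_prod_ite]
  exact Finset.sum_congr rfl fun S _ => mu_mul_chi_chi p r t R T S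

/-- orthogonality: `chi p T` is orthogonal to `chi r R` unless `T ⊆ R` -/
theorem sum_mu_chi_chi_eq_zero (p r : α → ℝ) (R T : Finset α) (h : ¬ T ⊆ R) :
    ∑ S, mu p S * chi r R S * chi p T S = 0 := by
  rw [sum_mu_chi_chi]
  obtain ⟨x, hxT, hxR⟩ := Finset.not_subset.mp h
  refine Finset.prod_eq_zero (mem_univ x) ?_
  simp only [hxT, hxR, if_true, if_false]
  ring

theorem sum_mu_chi_sq (p : α → ℝ) (R : Finset α) :
    ∑ S, mu p S * chi p R S * chi p R S = ∏ x ∈ R, (p x * (1 - p x)) := by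
  rw [sum_mu_chi_chi, prod_subset_ite R (fun x => p x * (1 - p x))]
  refine Finset.prod_congr rfl fun x _ => ?_
  by_cases h : x ∈ R
  · simp only [h, if_true]; ring
  · simp only [h, if_false]; ring

theorem sum_all (r : α → ℝ) (S : Finset α) :
    ∑ R : Finset α, (-1 : ℝ) ^ R.card * (∏ x ∈ univ \ R, (1 - r x)) * chi r R S =
      if S = ∅ then 1 else 0 := by
  have h1 : ∀ R : Finset α, (-1 : ℝ) ^ R.card * (∏ x ∈ univ \ R, (1 - r x)) * chi r R S
      = ∏ x, (if x ∈ R then - ((if x ∈ S then 1 else 0) - r x) else 1 - r x) := by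
    intro R
    unfold chi
    rw [← Finset.prod_sdiff (Finset.subset_univ R) (f := fun x =>
      (if x ∈ R then - ((if x ∈ S then (1 : ℝ) else 0) - r x) else 1 - r x))]
    have h2 : ∏ x ∈ R, (if x ∈ R then - ((if x ∈ S then (1 : ℝ) else 0) - r x) else 1 - r x)
        = (-1) ^ R.card * ∏ x ∈ R, ((if x ∈ S then (1 : ℝ) else 0) - r x) := by
      rw [← Finset.prod_const, ← Finset.prod_mul_distrib]
      refine Finset.prod_congr rfl fun x hx => ?_
      rw [if_pos hx]; ring
    have h3 : ∏ x ∈ univ \ R, (if x ∈ R then - ((if x ∈ S then (1 : ℝ) else 0) - r x) else 1 - r x)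
        = ∏ x ∈ univ \ R, (1 - r x) := by
      refine Finset.prod_congr rfl fun x hx => ?_
      simp only [mem_sdiff, mem_univ, true_and] at hx
      rw [if_neg hx]
    rw [h2, h3]; ring
  rw [Finset.sum_congr rfl fun R _ => h1 R, sum_prod_ite]
  by_cases hS : S = ∅
  · subst hS
    simp
  · rw [if_neg hS]
    obtain ⟨x, hx⟩ := Finset.nonempty_iff_ne_empty.mpr hS
    refine Finset.prod_eq_zero (mem_univ x) ?_
    rw [if_pos hx]; ring

theorem phi_compl (r : α → ℝ) (U : Finset (Finset α)) (S : Finset α) :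
    phi r U S = (if S = ∅ then 1 else 0) - phi r Uᶜ S := by
  rw [← sum_all r S]
  unfold phi
  rw [← Finset.sum_add_sum_compl U]
  ring

theorem mu_empty (p : α → ℝ) : mu p ∅ = ∏ x, (1 - p x) := by
  unfold mu; simp

theorem mu_mul_mu_empty (p : α → ℝ) (R : Finset α) :
    mu p R * mu p ∅ = (∏ x ∈ univ \ R, (1 - p x)) ^ 2 * ∏ x ∈ R, (p x * (1 - p x)) := by
  unfold mu
  rw [← prod_mul_distrib, ← Finset.prod_sdiff (Finset.subset_univ R), ← Finset.prod_pow]
  congr 1
  · refine Finset.prod_congr rfl fun x hx => ?_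
    simp only [mem_sdiff, mem_univ, true_and] at hx
    simp [hx]; ring
  · refine Finset.prod_congr rfl fun x hx => ?_
    simp [hx]

theorem phi_empty (p : α → ℝ) (U : Finset (Finset α)) :
    phi p U ∅ = ∑ R ∈ U, mu p R := by
  unfold phi
  refine Finset.sum_congr rfl fun R _ => ?_
  unfold chi mu
  rw [← Finset.prod_sdiff (Finset.subset_univ R) (f := fun x => if x ∈ R then p x else 1 - p x)]
  have h2 : ∏ x ∈ R, (if x ∈ R then p x else 1 - p x)
      = (-1) ^ R.card * ∏ x ∈ R, ((if x ∈ (∅ : Finset α) then (1 : ℝ) else 0) - p x) := by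
    rw [← Finset.prod_const, ← Finset.prod_mul_distrib]
    refine Finset.prod_congr rfl fun x hx => ?_
    rw [if_pos hx]; simp
  have h3 : ∏ x ∈ univ \ R, (if x ∈ R then p x else 1 - p x) = ∏ x ∈ univ \ R, (1 - p x) := by
    refine Finset.prod_congr rfl fun x hx => ?_
    simp only [mem_sdiff, mem_univ, true_and] at hx
    rw [if_neg hx]
  rw [h2, h3]; ring

/-- second moment of the residual -/
theorem sum_mu_phi_sq (p : α → ℝ) (U : Finset (Finset α)) :
    ∑ S, mu p S * phi p U S ^ 2 = (∑ R ∈ U, mu p R) * mu p ∅ := by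
  have h1 : ∀ S, mu p S * phi p U S ^ 2 = ∑ R ∈ U, ∑ T ∈ U,
      ((-1 : ℝ) ^ R.card * (∏ x ∈ univ \ R, (1 - p x))) *
        ((-1 : ℝ) ^ T.card * (∏ x ∈ univ \ T, (1 - p x))) *
        (mu p S * chi p R S * chi p T S) := by
    intro S
    unfold phi
    rw [sq, Finset.sum_mul_sum, Finset.mul_sum]
    refine Finset.sum_congr rfl fun R _ => ?_
    rw [Finset.mul_sum]
    refine Finset.sum_congr rfl fun T _ => ?_
    ring
  rw [Finset.sum_congr rfl fun S _ => h1 S, Finset.sum_comm, Finset.sum_mul]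
  refine Finset.sum_congr rfl fun R hR => ?_
  rw [Finset.sum_comm, mu_mul_mu_empty]
  rw [Finset.sum_eq_single R]
  · rw [← Finset.mul_sum, sum_mu_chi_sq]
    have : ((-1 : ℝ) ^ R.card) * ((-1 : ℝ) ^ R.card) = 1 := by
      rw [← mul_pow]; simp
    linear_combination ((∏ x ∈ univ \ R, (1 - p x)) ^ 2 * ∏ x ∈ R, (p x * (1 - p x))) * this
  · intro T _ hTR
    rw [← Finset.mul_sum]
    by_cases h : T ⊆ R
    · have h' : ¬ R ⊆ T := fun h2 => hTR (Finset.Subset.antisymm h h2)
      have := sum_mu_chi_chi_eq_zero p p T R h'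
      have h3 : ∑ S, mu p S * chi p R S * chi p T S = 0 := by
        rw [← this]
        exact Finset.sum_congr rfl fun S _ => by ring
      rw [h3, mul_zero]
    · rw [sum_mu_chi_chi_eq_zero p p R T h, mul_zero]
  · intro h; exact absurd hR h

/-- the residual at `p` is orthogonal to everything coming from outside `U` -/
theorem sum_mu_phi_phi_compl (p r : α → ℝ) (U : Finset (Finset α))
    (hU : ∀ A ∈ U, ∀ B : Finset α, A ⊆ B → B ∈ U) :
    ∑ S, mu p S * phi r Uᶜ S * phi p U S = 0 := by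
  have h1 : ∀ S, mu p S * phi r Uᶜ S * phi p U S = ∑ R ∈ Uᶜ, ∑ T ∈ U,
      ((-1 : ℝ) ^ R.card * (∏ x ∈ univ \ R, (1 - r x))) *
        ((-1 : ℝ) ^ T.card * (∏ x ∈ univ \ T, (1 - p x))) *
        (mu p S * chi r R S * chi p T S) := by
    intro S
    unfold phi
    rw [mul_assoc, Finset.sum_mul_sum, Finset.mul_sum]
    refine Finset.sum_congr rfl fun R _ => ?_
    rw [Finset.mul_sum]
    refine Finset.sum_congr rfl fun T _ => ?_
    ring
  rw [Finset.sum_congr rfl fun S _ => h1 S, Finset.sum_comm]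
  refine Finset.sum_eq_zero fun R hR => ?_
  rw [Finset.sum_comm]
  refine Finset.sum_eq_zero fun T hT => ?_
  rw [← Finset.mul_sum, sum_mu_chi_chi_eq_zero p r R T, mul_zero]
  intro h
  exact (Finset.mem_compl.mp hR) (hU T hT R h)

theorem mu_nonneg (p : α → ℝ) (h0 : ∀ x, 0 ≤ p x) (h1 : ∀ x, p x ≤ 1) (S : Finset α) :
    0 ≤ mu p S := by
  unfold mu
  refine Finset.prod_nonneg fun x _ => ?_
  split_ifs
  · exact h0 x
  · linarith [h1 x]

/-- **Certificate.** For an up-closed family `U`, every `r` and every `p ∈ [0,1]^α`. -/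
theorem certificate (p r : α → ℝ) (h0 : ∀ x, 0 ≤ p x) (h1 : ∀ x, p x ≤ 1) (U : Finset (Finset α))
    (hU : ∀ A ∈ U, ∀ B : Finset α, A ⊆ B → B ∈ U) :
    (∑ R ∈ U, mu p R) * mu p ∅ ≤ ∑ S, mu p S * phi r U S ^ 2 := by
  have h2 : 0 ≤ ∑ S, mu p S * (phi r U S - phi p U S) ^ 2 :=
    Finset.sum_nonneg fun S _ => mul_nonneg (mu_nonneg p h0 h1 S) (sq_nonneg _)
  have h3 : ∑ S, mu p S * (phi r U S - phi p U S) ^ 2 =
      ∑ S, mu p S * phi r U S ^ 2 + ∑ S, mu p S * phi p U S ^ 2
        - 2 * ∑ S, mu p S * phi r U S * phi p U S := by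
    rw [Finset.mul_sum, ← Finset.sum_add_distrib, ← Finset.sum_sub_distrib]
    exact Finset.sum_congr rfl fun S _ => by ring
  have h4 : ∑ S, mu p S * phi r U S * phi p U S = (∑ R ∈ U, mu p R) * mu p ∅ := by
    have h5 : ∀ S, mu p S * phi r U S * phi p U S =
        mu p S * (if S = ∅ then 1 else 0) * phi p U S - mu p S * phi r Uᶜ S * phi p U S := by
      intro S
      rw [phi_compl r U S]; ring
    rw [Finset.sum_congr rfl fun S _ => h5 S, Finset.sum_sub_distrib,
      sum_mu_phi_phi_compl p r U hU, sub_zero, Finset.sum_eq_single ∅]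
    · rw [if_pos rfl, phi_empty]; ring
    · intro S _ hS
      rw [if_neg hS]; ring
    · intro h; exact absurd (mem_univ _) h
  rw [h3, h4, sum_mu_phi_sq] at h2
  linarith

end Crest.Agent.R052.Odds
end

-- ▼ part R052/Union

/-!
# Talagrand's union theorem from the odds certificate and the fractional/integral cover theorem
-/

set_option autoImplicit false

namespace Crest.Agent.R052.Union

open Finset Crest.Agent.R052.Odds

variable {α : Type} [Fintype α] [DecidableEq α]

theorem mu_eq_empty_mul (p : α → ℝ) (h1 : ∀ x, p x < 1) (S : Finset α) :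
    mu p S = mu p ∅ * ∏ x ∈ S, (p x / (1 - p x)) := by
  rw [mu_empty, prod_subset_ite S]
  unfold mu
  rw [← Finset.prod_mul_distrib]
  refine Finset.prod_congr rfl fun x _ => ?_
  have : (1 - p x) ≠ 0 := by have := h1 x; exact ne_of_gt (by linarith)
  by_cases h : x ∈ S
  · simp only [h, if_true]; field_simp
  · simp only [h, if_false]; ring

theorem mu_empty_pos (p : α → ℝ) (h1 : ∀ x, p x < 1) : 0 < mu p ∅ := by
  rw [mu_empty]
  exact Finset.prod_pos fun x _ => by linarith [h1 x]

/-- certificate with odds -/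
theorem cert_odds (p r : α → ℝ) (h0 : ∀ x, 0 ≤ p x) (h1 : ∀ x, p x < 1) (U : Finset (Finset α))
    (hU : ∀ A ∈ U, ∀ B : Finset α, A ⊆ B → B ∈ U) :
    ∑ R ∈ U, mu p R ≤ ∑ S, (∏ x ∈ S, (p x / (1 - p x))) * phi r U S ^ 2 := by
  have h2 := certificate p r h0 (fun x => (h1 x).le) U hU
  have h3 : ∑ S, mu p S * phi r U S ^ 2 =
      (∑ S, (∏ x ∈ S, (p x / (1 - p x))) * phi r U S ^ 2) * mu p ∅ := by
    rw [Finset.sum_mul]
    refine Finset.sum_congr rfl fun S _ => ?_
    rw [mu_eq_empty_mul p h1 S]; ring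
  rw [h3] at h2
  exact le_of_mul_le_mul_right h2 (mu_empty_pos p h1)

theorem cert_odds_eq (p : α → ℝ) (h1 : ∀ x, p x < 1) (U : Finset (Finset α)) :
    ∑ S, (∏ x ∈ S, (p x / (1 - p x))) * phi p U S ^ 2 = ∑ R ∈ U, mu p R := by
  have h2 := sum_mu_phi_sq p U
  have h3 : ∑ S, mu p S * phi p U S ^ 2 =
      (∑ S, (∏ x ∈ S, (p x / (1 - p x))) * phi p U S ^ 2) * mu p ∅ := by
    rw [Finset.sum_mul]
    refine Finset.sum_congr rfl fun S _ => ?_
    rw [mu_eq_empty_mul p h1 S]; ring
  rw [h3] at h2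
  exact mul_right_cancel₀ (mu_empty_pos p h1).ne' h2

theorem sum_mu (p : α → ℝ) : ∑ S : Finset α, mu p S = 1 := by
  unfold mu
  rw [sum_prod_ite]
  simp

theorem mu_const (p : ℝ) (S : Finset α) :
    mu (fun _ : α => p) S = p ^ S.card * (1 - p) ^ (Fintype.card α - S.card) := by
  unfold mu
  rw [← Finset.prod_sdiff (Finset.subset_univ S), mul_comm]
  congr 1
  · rw [Finset.prod_congr rfl (g := fun _ => p) fun x hx => by simp [hx], Finset.prod_const]
  · rw [Finset.prod_congr rfl (g := fun _ => 1 - p) fun x hx => by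
      simp only [mem_sdiff, mem_univ, true_and] at hx
      simp [hx], Finset.prod_const, Finset.card_univ_sdiff]

/-- counting colourings -/
theorem count_colour (j : ℕ) (i : Fin j) (H S : Finset α) (hj : 0 < j) :
    ∑ f : α → Fin j, (if (H.filter fun x => f x = i) = S then (1 : ℝ) else 0) =
      (j : ℝ) ^ Fintype.card α * mu (fun x => if x ∈ H then 1 / (j : ℝ) else 0) S := by
  have h1 : ∀ f : α → Fin j, (if (H.filter fun x => f x = i) = S then (1 : ℝ) else 0) =
      ∏ x, (if ((x ∈ H ∧ f x = i) ↔ x ∈ S) then (1 : ℝ) else 0) := by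
    intro f
    by_cases h : (H.filter fun x => f x = i) = S
    · rw [if_pos h]
      symm
      refine Finset.prod_eq_one fun x _ => ?_
      rw [if_pos]
      rw [← h]; simp
    · rw [if_neg h]
      symm
      have : ∃ x, ¬ ((x ∈ H ∧ f x = i) ↔ x ∈ S) := by
        by_contra h2
        push Not at h2
        apply h
        ext x
        rw [mem_filter]; exact h2 x
      obtain ⟨x, hx⟩ := this
      exact Finset.prod_eq_zero (mem_univ x) (if_neg hx)
  rw [Finset.sum_congr rfl fun f _ => h1 f]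
  have h2 := Finset.prod_univ_sum (fun _ : α => (Finset.univ : Finset (Fin j)))
    (fun x c => if ((x ∈ H ∧ c = i) ↔ x ∈ S) then (1 : ℝ) else 0)
  rw [Fintype.piFinset_univ] at h2
  rw [← h2]
  have h3 : (j : ℝ) ^ Fintype.card α = ∏ _x : α, (j : ℝ) := by simp
  rw [h3]
  unfold mu
  rw [← Finset.prod_mul_distrib]
  refine Finset.prod_congr rfl fun x _ => ?_
  have hj0 : (j : ℝ) ≠ 0 := by positivity
  by_cases hS : x ∈ S <;> by_cases hH : x ∈ H
  · simp only [hS, hH, true_and, iff_true, if_true]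
    rw [Finset.sum_ite_eq' univ i]
    simp [hj0]
  · simp [hS, hH]
  · simp only [hS, hH, true_and, iff_false, if_true, if_false]
    have : ∀ c : Fin j, (if ¬ c = i then (1 : ℝ) else 0) = 1 - (if c = i then 1 else 0) := by
      intro c; split_ifs <;> simp_all
    rw [Finset.sum_congr rfl fun c _ => this c, Finset.sum_sub_distrib, Finset.sum_ite_eq' univ i]
    simp
    field_simp
  · simp [hS, hH]

/-- if every `j`-colouring of `H` has a class in `U` then a random class is in `U` with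
probability at least `1/j` -/
theorem one_le_of_colour (j : ℕ) (hj : 0 < j) (H : Finset α) (U : Finset (Finset α))
    (h : ∀ f : α → Fin j, ∃ i, (H.filter fun x => f x = i) ∈ U) :
    1 ≤ (j : ℝ) * ∑ S ∈ U, mu (fun x => if x ∈ H then 1 / (j : ℝ) else 0) S := by
  have h1 : ((j : ℝ) ^ Fintype.card α) ≤
      ∑ f : α → Fin j, ∑ i : Fin j, ∑ S ∈ U, (if (H.filter fun x => f x = i) = S then (1 : ℝ) else 0) := by
    have h2 : ((j : ℝ) ^ Fintype.card α) = ∑ _f : α → Fin j, (1 : ℝ) := by
      simp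
    rw [h2]
    refine Finset.sum_le_sum fun f _ => ?_
    obtain ⟨i, hi⟩ := h f
    calc (1 : ℝ) = ∑ S ∈ U, (if (H.filter fun x => f x = i) = S then (1 : ℝ) else 0) := by
          rw [Finset.sum_ite_eq U, if_pos hi]
      _ ≤ _ := Finset.single_le_sum (f := fun i => ∑ S ∈ U,
          (if (H.filter fun x => f x = i) = S then (1 : ℝ) else 0))
          (fun i _ => Finset.sum_nonneg fun S _ => by positivity) (mem_univ i)
  have h3 : ∑ f : α → Fin j, ∑ i : Fin j, ∑ S ∈ U,
      (if (H.filter fun x => f x = i) = S then (1 : ℝ) else 0) =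
      (j : ℝ) ^ Fintype.card α *
        ((j : ℝ) * ∑ S ∈ U, mu (fun x => if x ∈ H then 1 / (j : ℝ) else 0) S) := by
    rw [Finset.sum_comm]
    have h4 : ∀ i : Fin j, ∑ f : α → Fin j, ∑ S ∈ U,
      (if (H.filter fun x => f x = i) = S then (1 : ℝ) else 0) =
      (j : ℝ) ^ Fintype.card α * ∑ S ∈ U, mu (fun x => if x ∈ H then 1 / (j : ℝ) else 0) S := by
      intro i
      rw [Finset.sum_comm, Finset.mul_sum]
      exact Finset.sum_congr rfl fun S _ => count_colour j i H S hj
    rw [Finset.sum_congr rfl fun i _ => h4 i, Finset.sum_const, Finset.card_univ, Fintype.card_fin,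
      nsmul_eq_mul]
    ring
  rw [h3] at h1
  have h5 : (0 : ℝ) < (j : ℝ) ^ Fintype.card α := by positivity
  by_contra h6
  push Not at h6
  have := mul_lt_mul_of_pos_left h6 h5
  linarith

/-- **Union theorem** for a product measure with constant density. -/
theorem union_cover [Nonempty α] (p : ℝ) (hp0 : 0 < p) (hp1 : p < 1) (D : Finset (Finset α))
    (k : ℕ) (hk : 2 * (25 * 512 ^ 4 + 1) ≤ k)
    (hD : 1 - 1 / (k : ℝ) ≤ ∑ S ∈ D, p ^ S.card * (1 - p) ^ (Fintype.card α - S.card)) :
    ∃ G : Finset (Finset α),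
      (∀ S : Finset α,
        (∀ f : Fin k → Finset α, (∀ i, f i ∈ D) → ¬ S ⊆ Finset.univ.biUnion f) →
          ∃ I ∈ G, I ⊆ S) ∧
      ∑ I ∈ G, p ^ I.card ≤ 1 / 2 := by
  classical
  obtain ⟨K, hK⟩ : ∃ K : ℕ, K = 25 * 512 ^ 4 := ⟨_, rfl⟩
  rw [← hK] at hk
  have hK1 : 1 ≤ K := by rw [hK]; norm_num
  have hk0 : 0 < k := by omega
  have hkR : (2 * ((K : ℝ) + 1)) ≤ k := by exact_mod_cast hk
  have hKR : (1 : ℝ) ≤ K := by exact_mod_cast hK1
  have hkpos : (0 : ℝ) < k := by exact_mod_cast hk0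
  -- the down closure and its complement
  set D0 : Finset (Finset α) := univ.filter fun S => ∃ T ∈ D, S ⊆ T with hD0
  set U : Finset (Finset α) := D0ᶜ with hUdef
  have hU : ∀ A ∈ U, ∀ B : Finset α, A ⊆ B → B ∈ U := by
    intro A hA B hAB
    rw [hUdef, mem_compl, hD0, mem_filter] at hA ⊢
    rintro ⟨_, T, hT, hBT⟩
    exact hA ⟨mem_univ _, T, hT, hAB.trans hBT⟩
  have hmuU : ∑ R ∈ U, mu (fun _ : α => p) R ≤ 1 / k := by
    have h1 : ∑ R ∈ D0, mu (fun _ : α => p) R + ∑ R ∈ U, mu (fun _ : α => p) R = 1 := by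
      rw [hUdef, Finset.sum_add_sum_compl, sum_mu]
    have h2 : ∑ S ∈ D, mu (fun _ : α => p) S ≤ ∑ R ∈ D0, mu (fun _ : α => p) R := by
      refine Finset.sum_le_sum_of_subset_of_nonneg ?_ fun S _ _ =>
        mu_nonneg _ (fun _ => hp0.le) (fun _ => hp1.le) S
      intro S hS
      rw [hD0, mem_filter]
      exact ⟨mem_univ _, S, hS, Subset.rfl⟩
    have h3 : 1 - 1 / (k : ℝ) ≤ ∑ S ∈ D, mu (fun _ : α => p) S := by
      refine hD.trans (le_of_eq ?_)
      exact Finset.sum_congr rfl fun S _ => (mu_const p S).symm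
    linarith
  have hDne : D.Nonempty := by
    rw [Finset.nonempty_iff_ne_empty]
    rintro rfl
    simp only [sum_empty] at hD
    have : (1 : ℝ) / k ≤ 1 / 2 := by
      apply one_div_le_one_div_of_le <;> linarith
    linarith
  set F : Finset (Finset α) := univ.filter fun S =>
    ∀ f : Fin k → Finset α, (∀ i, f i ∈ D) → ¬ S ⊆ Finset.univ.biUnion f with hF
  set c : Finset α → ℝ := fun S => phi (fun _ : α => p) U S ^ 2 with hc
  have hc0 : ∀ S, 0 ≤ c S := fun S => sq_nonneg _
  -- key inequality for members of F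
  have hkey : ∀ H ∈ F, 1 ≤ ((K : ℝ) + 1) * ∑ S ∈ H.powerset, (1 / (K : ℝ)) ^ S.card * c S := by
    intro H hH
    rw [hF, mem_filter] at hH
    have hcol : ∀ f : α → Fin (K + 1), ∃ i, (H.filter fun x => f x = i) ∈ U := by
      intro f
      by_contra hcon
      push Not at hcon
      have h1 : ∀ i, ∃ T ∈ D, (H.filter fun x => f x = i) ⊆ T := by
        intro i
        have h2 := hcon i
        rw [hUdef, mem_compl, not_not, hD0, mem_filter] at h2
        exact h2.2
      choose T hT hTs using h1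
      obtain ⟨T0, hT0⟩ := hDne
      apply hH.2 (fun i => if h : (i : ℕ) < K + 1 then T ⟨i, h⟩ else T0)
      · intro i
        split_ifs
        · exact hT _
        · exact hT0
      · intro x hx
        rw [mem_biUnion]
        refine ⟨⟨(f x : ℕ), by have := (f x).2; omega⟩, mem_univ _, ?_⟩
        dsimp only
        rw [dif_pos (f x).2]
        exact hTs (f x) (by rw [mem_filter]; exact ⟨hx, rfl⟩)
    have h2 := one_le_of_colour (K + 1) (Nat.succ_pos K) H U hcol
    push_cast at h2
    set θ : α → ℝ := fun x => if x ∈ H then 1 / ((K : ℝ) + 1) else 0 with hθ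
    have hθ0 : ∀ x, 0 ≤ θ x := by
      intro x; rw [hθ]; dsimp only; split_ifs <;> positivity
    have hθ1 : ∀ x, θ x < 1 := by
      intro x; rw [hθ]; dsimp only; split_ifs
      · rw [div_lt_one (by positivity)]; linarith
      · norm_num
    have h3 := cert_odds θ (fun _ : α => p) hθ0 hθ1 U hU
    have h4 : ∑ S, (∏ x ∈ S, (θ x / (1 - θ x))) * phi (fun _ : α => p) U S ^ 2 =
        ∑ S ∈ H.powerset, (1 / (K : ℝ)) ^ S.card * c S := by
      rw [← Finset.sum_subset (Finset.subset_univ H.powerset)]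
      · refine Finset.sum_congr rfl fun S hS => ?_
        rw [mem_powerset] at hS
        congr 1
        rw [← Finset.prod_const]
        refine Finset.prod_congr rfl fun x hx => ?_
        rw [hθ]
        dsimp only
        rw [if_pos (hS hx)]
        have hK0 : (K : ℝ) ≠ 0 := by positivity
        have hK2 : (K : ℝ) + 1 ≠ 0 := by positivity
        have hK3 : 1 - 1 / ((K : ℝ) + 1) = K / (K + 1) := by field_simp; ring
        rw [hK3]
        field_simp
      · intro S _ hS
        rw [mem_powerset] at hS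
        obtain ⟨x, hxS, hxH⟩ := Finset.not_subset.mp hS
        rw [Finset.prod_eq_zero hxS, zero_mul]
        rw [hθ]
        dsimp only
        rw [if_neg hxH]; simp
    rw [h4] at h3
    have h5 : (0 : ℝ) < (K : ℝ) + 1 := by positivity
    calc (1 : ℝ) ≤ _ := h2
      _ ≤ _ := mul_le_mul_of_nonneg_left h3 h5.le
  -- total cost at density `p`
  have hcost : ∑ S, p ^ S.card * c S ≤ 1 / k := by
    have h1 := cert_odds_eq (fun _ : α => p) (fun _ => hp1) U
    refine le_trans ?_ (h1.le.trans hmuU)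
    refine Finset.sum_le_sum fun S _ => ?_
    refine mul_le_mul_of_nonneg_right ?_ (sq_nonneg _)
    rw [Finset.prod_const]
    refine pow_le_pow_left₀ hp0.le ?_ _
    rw [le_div_iff₀ (by linarith)]
    nlinarith
  rcases F.eq_empty_or_nonempty with hFe | hFne
  · refine ⟨∅, ?_, by simp⟩
    intro S hS
    exfalso
    have : S ∈ F := by rw [hF, mem_filter]; exact ⟨mem_univ _, hS⟩
    rw [hFe] at this
    exact absurd this (Finset.notMem_empty S)
  have hFempty : ∅ ∉ F := by
    rw [hF, mem_filter]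
    rintro ⟨_, h⟩
    obtain ⟨T0, hT0⟩ := hDne
    exact h (fun _ => T0) (fun _ => hT0) (Finset.empty_subset _)
  have hFup : ∀ A ∈ F, ∀ B : Finset α, A ⊆ B → B ∈ F := by
    intro A hA B hAB
    rw [hF, mem_filter] at hA ⊢
    exact ⟨mem_univ _, fun f hf hB => hA.2 f hf (hAB.trans hB)⟩
  rcases le_or_gt ((K : ℝ) * p) 1 with hKp | hKp
  · -- main case
    set g : Finset α → ℝ := fun S => min 1 (((K : ℝ) + 1) * ((1 / (K : ℝ)) ^ S.card * c S)) with hg
    have hg0 : ∀ S, 0 ≤ g S ∧ g S ≤ 1 := by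
      intro S
      refine ⟨le_min zero_le_one ?_, min_le_left _ _⟩
      have := hc0 S
      positivity
    have hcov : ∀ H ∈ F, 1 ≤ ∑ S ∈ H.powerset, g S := by
      intro H hH
      by_cases h1 : ∃ S ∈ H.powerset, 1 ≤ ((K : ℝ) + 1) * ((1 / (K : ℝ)) ^ S.card * c S)
      · obtain ⟨S, hS, hS1⟩ := h1
        have h2 : g S = 1 := min_eq_left hS1
        rw [← h2]
        exact Finset.single_le_sum (f := g) (fun T _ => (hg0 T).1) hS
      · push Not at h1
        have h2 : ∑ S ∈ H.powerset, g S =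
            ((K : ℝ) + 1) * ∑ S ∈ H.powerset, (1 / (K : ℝ)) ^ S.card * c S := by
          rw [Finset.mul_sum]
          exact Finset.sum_congr rfl fun S hS => min_eq_right (h1 S hS).le
        rw [h2]
        exact hkey H hH
    have hgcost : ∑ S : Finset α, g S * ((K : ℝ) * p) ^ S.card ≤ 1 / 2 := by
      have h1 : ∑ S : Finset α, g S * ((K : ℝ) * p) ^ S.card ≤
          ((K : ℝ) + 1) * ∑ S, p ^ S.card * c S := by
        rw [Finset.mul_sum]
        refine Finset.sum_le_sum fun S _ => ?_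
        have h2 : g S ≤ ((K : ℝ) + 1) * ((1 / (K : ℝ)) ^ S.card * c S) := min_le_right _ _
        have h3 : (0 : ℝ) ≤ ((K : ℝ) * p) ^ S.card := by positivity
        refine (mul_le_mul_of_nonneg_right h2 h3).trans (le_of_eq ?_)
        have h4 : (1 / (K : ℝ)) ^ S.card * ((K : ℝ) * p) ^ S.card = p ^ S.card := by
          rw [← mul_pow]
          congr 1
          field_simp
        calc ((K : ℝ) + 1) * ((1 / (K : ℝ)) ^ S.card * c S) * ((K : ℝ) * p) ^ S.card
            = ((K : ℝ) + 1) * (((1 / (K : ℝ)) ^ S.card * ((K : ℝ) * p) ^ S.card) * c S) := by ring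
          _ = _ := by rw [h4]
      refine h1.trans ?_
      have h5 : ((K : ℝ) + 1) * ∑ S, p ^ S.card * c S ≤ ((K : ℝ) + 1) * (1 / k) :=
        mul_le_mul_of_nonneg_left hcost (by positivity)
      refine h5.trans ?_
      rw [mul_one_div, div_le_iff₀ hkpos]
      linarith
    obtain ⟨G, hG1, hG2⟩ := Crest.Agent.S0071.result α F hFne hFempty hFup ((K : ℝ) * p)
      (by positivity) hKp g hg0 hcov hgcost
    refine ⟨G, ?_, ?_⟩
    · intro S hS
      exact hG1 S (by rw [hF, mem_filter]; exact ⟨mem_univ _, hS⟩)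
    · have h6 : ((K : ℝ) * p) / (25 * 512 ^ 4) = p := by
        have h7 : (K : ℝ) = 25 * 512 ^ 4 := by rw [hK]; norm_num
        rw [h7]; field_simp
      rw [h6] at hG2
      exact hG2
  · -- dense case: `F` is empty
    exfalso
    obtain ⟨H, hH⟩ := hFne
    have h1 := hkey H hH
    have h2 : ∑ S ∈ H.powerset, (1 / (K : ℝ)) ^ S.card * c S ≤ ∑ S, p ^ S.card * c S := by
      calc ∑ S ∈ H.powerset, (1 / (K : ℝ)) ^ S.card * c S
          ≤ ∑ S, (1 / (K : ℝ)) ^ S.card * c S :=
            Finset.sum_le_sum_of_subset_of_nonneg (Finset.subset_univ _) fun S _ _ => by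
              have := hc0 S; positivity
        _ ≤ _ := by
            refine Finset.sum_le_sum fun S _ => ?_
            refine mul_le_mul_of_nonneg_right ?_ (hc0 S)
            refine pow_le_pow_left₀ (by positivity) ?_ _
            rw [div_le_iff₀ (by positivity)]
            linarith
    have h3 : ((K : ℝ) + 1) * ∑ S ∈ H.powerset, (1 / (K : ℝ)) ^ S.card * c S ≤
        ((K : ℝ) + 1) * (1 / k) := mul_le_mul_of_nonneg_left (h2.trans hcost) (by positivity)
    have h4 : ((K : ℝ) + 1) * (1 / (k : ℝ)) ≤ 1 / 2 := by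
      rw [mul_one_div, div_le_iff₀ hkpos]
      linarith
    linarith

end Crest.Agent.R052.Union
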