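import Mathlib
import Crest.Prelude.Def_FinProb
import Crest.Agent.R052.Union
import Crest.Agent.R052.Transport
import Crest.Agent.R052.Graph
import Crest.Agent.R052.Struct

-- ▼ part R052/HubAux
section

/-!
# R052.HubAux (helper646): finite product measures, pushforwards, exponential moments
-/

set_option autoImplicit false

open Finset

namespace Crest.Agent.R052.Hub

open Crest.FinProb

section Push

variable {B : Type*} [Fintype B] [DecidableEq B]

theorem sum_prod_fun {Ω : Type*} [Fintype Ω] (F : B → Ω → ℝ) :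
    ∑ ω : B → Ω, ∏ b, F b (ω b) = ∏ b, ∑ x, F b x := by
  rw [Finset.prod_univ_sum]
  simp

/-- pushforward of a product weight under a coordinatewise map -/
theorem push {Ω Ω' : Type*} [Fintype Ω] [Fintype Ω'] [DecidableEq Ω'] (w : B → Ω → ℝ)
    (h : B → Ω → Ω') (w' : B → Ω' → ℝ)
    (hw : ∀ b y, ∑ x, (if h b x = y then w b x else 0) = w' b y) (f : (B → Ω') → ℝ) :
    ∑ ω : B → Ω, (∏ b, w b (ω b)) * f (fun b => h b (ω b))
      = ∑ τ : B → Ω', (∏ b, w' b (τ b)) * f τ := by
  have h1 : ∀ τ : B → Ω', ∏ b, w' b (τ b)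
      = ∑ ω : B → Ω, if (fun b => h b (ω b)) = τ then ∏ b, w b (ω b) else 0 := by
    intro τ
    have : ∏ b, w' b (τ b) = ∏ b, ∑ x, (if h b x = τ b then w b x else 0) :=
      Finset.prod_congr rfl fun b _ => (hw b (τ b)).symm
    rw [this, ← sum_prod_fun (fun b x => if h b x = τ b then w b x else 0)]
    refine Finset.sum_congr rfl fun ω _ => ?_
    by_cases hτ : (fun b => h b (ω b)) = τ
    · rw [if_pos hτ]
      refine Finset.prod_congr rfl fun b _ => ?_
      rw [if_pos (congrFun hτ b)]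
    · rw [if_neg hτ]
      obtain ⟨b, hb⟩ : ∃ b, ¬ h b (ω b) = τ b := by
        by_contra hne
        push Not at hne
        exact hτ (funext hne)
      exact Finset.prod_eq_zero (Finset.mem_univ b) (if_neg hb)
  simp only [h1]
  rw [Finset.sum_congr rfl (fun τ _ => Finset.sum_mul _ _ _), Finset.sum_comm]
  refine Finset.sum_congr rfl fun ω _ => ?_
  simp only [ite_mul, zero_mul]
  rw [Finset.sum_ite_eq]
  simp

omit [DecidableEq B] in
theorem bw_eq (p : ℝ) (ω : B → Bool) :
    bernoulliWeight p ω = ∏ b, (fun x : Bool => if x then p else 1 - p) (ω b) := rfl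

omit [DecidableEq B] in
theorem bw_nonneg {p : ℝ} (h0 : 0 ≤ p) (h1 : p ≤ 1) (ω : B → Bool) : 0 ≤ bernoulliWeight p ω := by
  unfold bernoulliWeight
  refine Finset.prod_nonneg fun b _ => ?_
  split_ifs <;> linarith

theorem sum_bw (p : ℝ) : ∑ ω : B → Bool, bernoulliWeight p ω = 1 := by
  simp only [bw_eq]
  rw [sum_prod_fun (fun (_ : B) (x : Bool) => if x then p else 1 - p)]
  simp

/-- union of two independent Bernoulli sets -/
theorem sum_union (p : ℝ) (f : (B → Bool) → ℝ) :
    ∑ ω : B → Bool, ∑ ω' : B → Bool,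
      bernoulliWeight p ω * (bernoulliWeight p ω' * f (fun b => ω b || ω' b))
      = ∑ τ : B → Bool, bernoulliWeight (2 * p - p ^ 2) τ * f τ := by
  have h := push (B := B) (Ω := Bool × Bool) (Ω' := Bool)
    (fun _ x => (if x.1 then p else 1 - p) * (if x.2 then p else 1 - p))
    (fun _ x => x.1 || x.2)
    (fun _ y => if y then 2 * p - p ^ 2 else 1 - (2 * p - p ^ 2))
    (by
      intro b y
      rw [Fintype.sum_prod_type]
      cases y <;> simp <;> ring) f
  have h2 : ∑ τ : B → Bool, bernoulliWeight (2 * p - p ^ 2) τ * f τ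
      = ∑ τ : B → Bool, (∏ b, (fun (_ : B) (y : Bool) =>
          if y then 2 * p - p ^ 2 else 1 - (2 * p - p ^ 2)) b (τ b)) * f τ := rfl
  rw [h2, ← h, ← (Equiv.arrowProdEquivProdArrow B (fun _ => Bool) (fun _ => Bool)).symm.sum_comp,
    Fintype.sum_prod_type]
  refine Finset.sum_congr rfl fun ω _ => Finset.sum_congr rfl fun ω' _ => ?_
  simp only [Equiv.arrowProdEquivProdArrow, Equiv.coe_fn_symm_mk, Finset.prod_mul_distrib]
  unfold bernoulliWeight
  rw [mul_assoc]
  rfl

/-- conditioning on containing `s` -/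
theorem sum_insert (p : ℝ) (s : Finset B) (f : (B → Bool) → ℝ) :
    p ^ s.card * ∑ ω : B → Bool, bernoulliWeight p ω * f (fun b => ω b || decide (b ∈ s))
      = ∑ ω : B → Bool, bernoulliWeight p ω * (if ∀ b ∈ s, ω b = true then f ω else 0) := by
  have h := push (B := B) (Ω := Bool) (Ω' := Bool)
    (fun _ x => if x then p else 1 - p)
    (fun b x => x || decide (b ∈ s))
    (fun b y => if b ∈ s then (if y then 1 else 0) else (if y then p else 1 - p))
    (by
      intro b y
      by_cases hb : b ∈ s <;> cases y <;> simp [hb]) f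
  have h1 : ∑ ω : B → Bool, bernoulliWeight p ω * f (fun b => ω b || decide (b ∈ s))
      = ∑ ω : B → Bool, (∏ b, (fun (_ : B) (x : Bool) => if x then p else 1 - p) b (ω b)) *
        f (fun b => (fun (b : B) (x : Bool) => x || decide (b ∈ s)) b (ω b)) := rfl
  rw [h1, h, Finset.mul_sum]
  refine Finset.sum_congr rfl fun τ _ => ?_
  by_cases hτ : ∀ b ∈ s, τ b = true
  · rw [if_pos hτ, ← mul_assoc]
    congr 1
    rw [← Finset.prod_const, ← Finset.prod_filter_mul_prod_filter_not Finset.univ (· ∈ s)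
      (fun b => if b ∈ s then (if τ b then (1 : ℝ) else 0) else (if τ b then p else 1 - p))]
    unfold bernoulliWeight
    rw [← Finset.prod_filter_mul_prod_filter_not Finset.univ (· ∈ s)
      (fun b => if τ b then p else 1 - p)]
    have e1 : ∏ b ∈ Finset.univ.filter (· ∈ s),
        (if b ∈ s then (if τ b then (1 : ℝ) else 0) else (if τ b then p else 1 - p)) = 1 := by
      refine Finset.prod_eq_one fun b hb => ?_
      have hb' : b ∈ s := (Finset.mem_filter.1 hb).2
      rw [if_pos hb', hτ b hb']; simp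
    have e2 : ∏ b ∈ Finset.univ.filter (fun b => ¬ b ∈ s),
        (if b ∈ s then (if τ b then (1 : ℝ) else 0) else (if τ b then p else 1 - p))
        = ∏ b ∈ Finset.univ.filter (fun b => ¬ b ∈ s), (if τ b then p else 1 - p) := by
      refine Finset.prod_congr rfl fun b hb => ?_
      rw [if_neg (Finset.mem_filter.1 hb).2]
    have e3 : ∏ b ∈ Finset.univ.filter (· ∈ s), (if τ b then p else 1 - p)
        = ∏ _b ∈ s, p := by
      have : Finset.univ.filter (· ∈ s) = s := by ext; simp
      rw [this]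
      refine Finset.prod_congr rfl fun b hb => ?_
      rw [hτ b hb]; simp
    rw [e1, e2, e3]
    ring
  · rw [if_neg hτ, mul_zero]
    push Not at hτ
    obtain ⟨b, hb, hb'⟩ := hτ
    have : ∏ b, (if b ∈ s then (if τ b then (1 : ℝ) else 0) else (if τ b then p else 1 - p)) = 0 := by
      refine Finset.prod_eq_zero (Finset.mem_univ b) ?_
      rw [if_pos hb]; simp [hb']
    rw [this]; ring

end Push

end Crest.Agent.R052.Hub
end

-- ▼ part R052/Hub
section

/-!
# R052.Hub (helper646): the hub lemma (few generators + exponential moments + Hall)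
-/

set_option autoImplicit false

open Finset

namespace Crest.Agent.R052.Hub

open Crest.FinProb

section Hit

variable {B : Type*} [Fintype B] [DecidableEq B]

/-- some member of `G` is contained in the random set `ω` -/
def hit (G : Finset (Finset B)) (ω : B → Bool) : Prop := ∃ s ∈ G, ∀ b ∈ s, ω b = true

instance (G : Finset (Finset B)) (ω : B → Bool) : Decidable (hit G ω) :=
  inferInstanceAs (Decidable (∃ s ∈ G, ∀ b ∈ s, ω b = true))

/-- probability that the random set contains a member of `G` -/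
noncomputable def muG (q : ℝ) (G : Finset (Finset B)) : ℝ :=
  ∑ ω : B → Bool, bernoulliWeight q ω * (if hit G ω then 1 else 0)

/-- probability that the random set together with `s` contains a member of `G` -/
noncomputable def fG (P : ℝ) (G : Finset (Finset B)) (s : Finset B) : ℝ :=
  ∑ ω : B → Bool, bernoulliWeight P ω * (if hit G (fun b => ω b || decide (b ∈ s)) then 1 else 0)

theorem muG_nonneg {q : ℝ} (h0 : 0 ≤ q) (h1 : q ≤ 1) (G : Finset (Finset B)) : 0 ≤ muG q G :=
  Finset.sum_nonneg fun ω _ => mul_nonneg (bw_nonneg h0 h1 ω) (by split_ifs <;> norm_num)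

theorem muG_le_one {q : ℝ} (h0 : 0 ≤ q) (h1 : q ≤ 1) (G : Finset (Finset B)) : muG q G ≤ 1 := by
  rw [← sum_bw (B := B) q]
  refine Finset.sum_le_sum fun ω _ => ?_
  have := bw_nonneg (B := B) h0 h1 ω
  split_ifs <;> linarith

theorem fG_nonneg {P : ℝ} (h0 : 0 ≤ P) (h1 : P ≤ 1) (G : Finset (Finset B)) (s : Finset B) :
    0 ≤ fG P G s :=
  Finset.sum_nonneg fun ω _ => mul_nonneg (bw_nonneg h0 h1 ω) (by split_ifs <;> norm_num)

theorem fG_le_one {P : ℝ} (h0 : 0 ≤ P) (h1 : P ≤ 1) (G : Finset (Finset B)) (s : Finset B) :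
    fG P G s ≤ 1 := by
  rw [← sum_bw (B := B) P]
  refine Finset.sum_le_sum fun ω _ => ?_
  have := bw_nonneg (B := B) h0 h1 ω
  split_ifs <;> linarith

theorem muG_ge {q : ℝ} (h0 : 0 ≤ q) (h1 : q ≤ 1) {G : Finset (Finset B)} {s : Finset B}
    (hs : s ∈ G) : q ^ s.card ≤ muG q G := by
  have h := sum_insert q s (fun _ => (1 : ℝ))
  simp only [mul_one, sum_bw] at h
  rw [h]
  refine Finset.sum_le_sum fun ω _ => mul_le_mul_of_nonneg_left ?_ (bw_nonneg h0 h1 ω)
  by_cases hω : ∀ b ∈ s, ω b = true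
  · rw [if_pos hω, if_pos ⟨s, hs, hω⟩]
  · rw [if_neg hω]; split_ifs <;> norm_num

/-- Few generators. -/
theorem exists_few {P : ℝ} (hP0 : 0 < P) (hP1 : P ≤ 1) (Γ : Finset (Finset B)) (z : ℕ)
    (hz : ∀ s ∈ Γ, s.card ≤ z) :
    ∃ G ⊆ Γ, (G.card : ℝ) * P ^ z ≤ 2 ∧ ∀ s ∈ Γ, 1 / 2 ≤ fG P G s := by
  obtain ⟨G, hG, hmax⟩ := Finset.exists_max_image Γ.powerset
    (fun G => muG P G - (P ^ z / 2) * (G.card : ℝ)) ⟨∅, Finset.empty_mem_powerset _⟩
  have hGΓ : G ⊆ Γ := Finset.mem_powerset.1 hG
  have hPz : 0 < P ^ z := pow_pos hP0 z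
  refine ⟨G, hGΓ, ?_, ?_⟩
  · have h1 := hmax ∅ (Finset.empty_mem_powerset _)
    have h2 := muG_le_one hP0.le hP1 G
    have h3 : muG P (∅ : Finset (Finset B)) = 0 := by
      unfold muG
      refine Finset.sum_eq_zero fun ω _ => ?_
      rw [if_neg]; · simp
      rintro ⟨s, hs, -⟩
      simp at hs
    rw [h3] at h1
    simp only [Finset.card_empty, Nat.cast_zero, mul_zero, sub_zero] at h1
    nlinarith
  · intro s hs
    have h1 := hmax (insert s G) (Finset.mem_powerset.2 (Finset.insert_subset hs hGΓ))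
    have hcard : ((insert s G).card : ℝ) ≤ G.card + 1 := by
      exact_mod_cast Finset.card_insert_le s G
    have h2 : muG P (insert s G) - muG P G ≤ P ^ z / 2 := by
      have : (P ^ z / 2) * ((insert s G).card : ℝ) ≤ (P ^ z / 2) * (G.card + 1) := by gcongr
      linarith
    have h3 : P ^ s.card * (1 - fG P G s) ≤ muG P (insert s G) - muG P G := by
      have e1 : 1 - fG P G s = ∑ ω : B → Bool, bernoulliWeight P ω *
          (fun ω => if hit G ω then (0 : ℝ) else 1) (fun b => ω b || decide (b ∈ s)) := by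
        have e0 : (1 : ℝ) - fG P G s = (∑ ω : B → Bool, bernoulliWeight P ω) - fG P G s := by
          rw [sum_bw]
        rw [e0]
        unfold fG
        rw [← Finset.sum_sub_distrib]
        refine Finset.sum_congr rfl fun ω _ => ?_
        simp only
        split_ifs <;> ring
      rw [e1, sum_insert P s (fun ω => if hit G ω then (0 : ℝ) else 1)]
      unfold muG
      rw [← Finset.sum_sub_distrib]
      refine Finset.sum_le_sum fun ω _ => ?_
      rw [← mul_sub]
      refine mul_le_mul_of_nonneg_left ?_ (bw_nonneg hP0.le hP1 ω)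
      by_cases hω : ∀ b ∈ s, ω b = true
      · rw [if_pos hω, if_pos (show hit (insert s G) ω from ⟨s, Finset.mem_insert_self _ _, hω⟩)]
        split_ifs <;> norm_num
      · rw [if_neg hω]
        by_cases hh : hit G ω
        · have : hit (insert s G) ω := by
            obtain ⟨t, ht, htω⟩ := hh
            exact ⟨t, Finset.mem_insert_of_mem ht, htω⟩
          rw [if_pos this, if_pos hh]; norm_num
        · rw [if_neg hh]; split_ifs <;> norm_num
    have h4 : P ^ z ≤ P ^ s.card := pow_le_pow_of_le_one hP0.le hP1 (hz s hs)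
    have h5 : 0 < P ^ s.card := pow_pos hP0 _
    have h6 : P ^ s.card * (1 - fG P G s) ≤ P ^ s.card * (1 / 2) := by linarith
    have := le_of_mul_le_mul_left h6 h5
    linarith

end Hit

/-- number of subsets with at most `m` elements -/
theorem card_small_subsets {α : Type*} [DecidableEq α] (Pat : Finset α) (m : ℕ) :
    ((Pat.powerset.filter (fun G => G.card ≤ m)).card : ℝ) ≤ ((Pat.card : ℝ) + 1) ^ m := by
  classical
  have h : Pat.powerset.filter (fun G => G.card ≤ m) ⊆
      (Finset.univ : Finset (Fin m → Option Pat)).image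
        (fun g => Finset.univ.biUnion (fun i => ((g i).map Subtype.val).toFinset)) := by
    intro G hG
    rw [Finset.mem_filter, Finset.mem_powerset] at hG
    rw [Finset.mem_image]
    let e := G.equivFin
    refine ⟨fun i => if h : (i : ℕ) < G.card then some ⟨(e.symm ⟨i, h⟩ : α), hG.1 (e.symm ⟨i, h⟩).2⟩
      else none, Finset.mem_univ _, ?_⟩
    ext x
    simp only [Finset.mem_biUnion, Finset.mem_univ, true_and]
    constructor
    · rintro ⟨i, hi⟩
      by_cases h : (i : ℕ) < G.card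
      · simp only [h, dite_true, Option.map_some, Option.mem_toFinset, Option.mem_def,
          Option.some.injEq] at hi
        rw [← hi]; exact (e.symm ⟨i, h⟩).2
      · simp [h] at hi
    · intro hx
      refine ⟨⟨(e ⟨x, hx⟩ : Fin _), lt_of_lt_of_le (e ⟨x, hx⟩).2 hG.2⟩, ?_⟩
      simp
  have h2 := Finset.card_le_card h
  have h3 : ((Finset.univ : Finset (Fin m → Option Pat)).image
        (fun g => Finset.univ.biUnion (fun i => ((g i).map Subtype.val).toFinset))).card
        ≤ (Pat.card + 1) ^ m := by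
    refine Finset.card_image_le.trans ?_
    simp
  exact_mod_cast h2.trans h3


section Colour

variable {A B : Type*} [Fintype A] [DecidableEq A] [Fintype B] [DecidableEq B]

/-- `exp y ≤ 1 + (e - 1) y` on `[0,1]`. -/
theorem exp_le_line {y : ℝ} (h0 : 0 ≤ y) (h1 : y ≤ 1) :
    Real.exp y ≤ 1 + (Real.exp 1 - 1) * y := by
  have h := convexOn_exp.2 (Set.mem_univ (0 : ℝ)) (Set.mem_univ (1 : ℝ)) (sub_nonneg.2 h1) h0
    (by ring)
  simp only [smul_eq_mul, mul_zero, mul_one, zero_add, Real.exp_zero] at h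
  linarith

/-- the hypothesis of domination: the random halves of the `S v` are dominated. -/
def Dom (S : A → Finset B) (M P : ℝ) : Prop :=
  ∀ U : Finset B → Prop, (∀ T T' : Finset B, T ⊆ T' → U T → U T') →
    haveI := Classical.decPred U
    ∑ v, (1 / 2 : ℝ) ^ (S v).card * (((S v).powerset.filter U).card : ℝ) ≤
      M * ∑ ω : B → Bool, bernoulliWeight P ω *
        (if U (Finset.univ.filter (fun b => ω b = true)) then 1 else 0)

omit [DecidableEq A] in
theorem mean_le {S : A → Finset B} {M P : ℝ} (hP0 : 0 ≤ P) (hP1 : P ≤ 1)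
    (hdom : Dom S M P) (G : Finset (Finset B)) :
    ∑ v, (1 / 2 : ℝ) ^ (S v).card * ∑ T ∈ (S v).powerset, fG P G T
      ≤ M * muG (2 * P - P ^ 2) G := by
  classical
  have key : ∀ ω : B → Bool,
      ∑ v, (1 / 2 : ℝ) ^ (S v).card * ∑ T ∈ (S v).powerset,
        (if hit G (fun b => ω b || decide (b ∈ T)) then (1 : ℝ) else 0)
      ≤ M * ∑ ω' : B → Bool, bernoulliWeight P ω' *
        (if hit G (fun b => ω b || ω' b) then 1 else 0) := by
    intro ω
    have h := hdom (fun T => hit G (fun b => ω b || decide (b ∈ T))) (by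
      rintro T T' hT ⟨s, hs, hsω⟩
      refine ⟨s, hs, fun b hb => ?_⟩
      have := hsω b hb
      simp only [Bool.or_eq_true, decide_eq_true_eq] at this ⊢
      rcases this with h | h
      · exact Or.inl h
      · exact Or.inr (hT h))
    simp only [Finset.mem_filter, Finset.mem_univ, true_and, Bool.decide_eq_true] at h
    refine le_trans (le_of_eq ?_) h
    refine Finset.sum_congr rfl fun v _ => ?_
    congr 1
    rw [Finset.card_filter]
    push_cast
    refine Finset.sum_congr rfl fun T _ => ?_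
    split_ifs <;> rfl
  have h2 : ∑ v, (1 / 2 : ℝ) ^ (S v).card * ∑ T ∈ (S v).powerset, fG P G T
      = ∑ ω : B → Bool, bernoulliWeight P ω *
        ∑ v, (1 / 2 : ℝ) ^ (S v).card * ∑ T ∈ (S v).powerset,
          (if hit G (fun b => ω b || decide (b ∈ T)) then (1 : ℝ) else 0) := by
    have h3 : ∀ v, (1 / 2 : ℝ) ^ (S v).card * ∑ T ∈ (S v).powerset, fG P G T
        = ∑ ω : B → Bool, bernoulliWeight P ω * ((1 / 2 : ℝ) ^ (S v).card *
          ∑ T ∈ (S v).powerset,
          (if hit G (fun b => ω b || decide (b ∈ T)) then (1 : ℝ) else 0)) := by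
      intro v
      simp only [fG]
      rw [Finset.sum_comm, Finset.mul_sum]
      refine Finset.sum_congr rfl fun ω _ => ?_
      rw [← Finset.mul_sum]; ring
    rw [Finset.sum_congr rfl fun v _ => h3 v, Finset.sum_comm]
    refine Finset.sum_congr rfl fun ω _ => ?_
    rw [Finset.mul_sum]
  rw [h2]
  calc ∑ ω : B → Bool, bernoulliWeight P ω *
        ∑ v, (1 / 2 : ℝ) ^ (S v).card * ∑ T ∈ (S v).powerset,
          (if hit G (fun b => ω b || decide (b ∈ T)) then (1 : ℝ) else 0)
      ≤ ∑ ω : B → Bool, bernoulliWeight P ω * (M * ∑ ω' : B → Bool, bernoulliWeight P ω' *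
        (if hit G (fun b => ω b || ω' b) then 1 else 0)) :=
        Finset.sum_le_sum fun ω _ => mul_le_mul_of_nonneg_left (key ω) (bw_nonneg hP0 hP1 ω)
    _ = M * muG (2 * P - P ^ 2) G := by
        unfold muG
        rw [← sum_union P (fun ω => if hit G ω then (1 : ℝ) else 0), Finset.mul_sum]
        refine Finset.sum_congr rfl fun ω _ => ?_
        rw [← Finset.mul_sum]
        ring

omit [DecidableEq A] in
/-- exponential moment of the sum over the leaves, over all colourings -/
theorem exp_moment {S : A → Finset B} {M P : ℝ} (hP0 : 0 ≤ P) (hP1 : P ≤ 1)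
    (hdom : Dom S M P) (G : Finset (Finset B)) :
    ∏ v, ∑ T ∈ (S v).powerset, Real.exp (fG P G T)
      ≤ (∏ v, ((S v).powerset.card : ℝ)) *
        Real.exp ((Real.exp 1 - 1) * (M * muG (2 * P - P ^ 2) G)) := by
  have he : 0 ≤ Real.exp 1 - 1 := by linarith [Real.add_one_le_exp (1 : ℝ)]
  have h1 : ∀ v, ∑ T ∈ (S v).powerset, Real.exp (fG P G T)
      ≤ ((S v).powerset.card : ℝ) * Real.exp ((Real.exp 1 - 1) *
        ((1 / 2 : ℝ) ^ (S v).card * ∑ T ∈ (S v).powerset, fG P G T)) := by
    intro v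
    have hc : ((S v).powerset.card : ℝ) = 2 ^ (S v).card := by
      rw [Finset.card_powerset]; push_cast; rfl
    have hc' : ((S v).powerset.card : ℝ) * (1 / 2 : ℝ) ^ (S v).card = 1 := by
      rw [hc, ← mul_pow]; norm_num
    calc ∑ T ∈ (S v).powerset, Real.exp (fG P G T)
        ≤ ∑ T ∈ (S v).powerset, (1 + (Real.exp 1 - 1) * fG P G T) :=
          Finset.sum_le_sum fun T _ => exp_le_line (fG_nonneg hP0 hP1 G T) (fG_le_one hP0 hP1 G T)
      _ = ((S v).powerset.card : ℝ) * (1 + (Real.exp 1 - 1) *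
        ((1 / 2 : ℝ) ^ (S v).card * ∑ T ∈ (S v).powerset, fG P G T)) := by
          rw [Finset.sum_add_distrib, ← Finset.mul_sum, Finset.sum_const, nsmul_eq_mul, mul_one,
            mul_add, mul_one]
          congr 1
          calc (Real.exp 1 - 1) * ∑ T ∈ (S v).powerset, fG P G T
              = (((S v).powerset.card : ℝ) * (1 / 2 : ℝ) ^ (S v).card) *
                ((Real.exp 1 - 1) * ∑ T ∈ (S v).powerset, fG P G T) := by rw [hc', one_mul]
            _ = _ := by ring
      _ ≤ _ := by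
          refine mul_le_mul_of_nonneg_left ?_ (Nat.cast_nonneg _)
          have := Real.add_one_le_exp ((Real.exp 1 - 1) *
            ((1 / 2 : ℝ) ^ (S v).card * ∑ T ∈ (S v).powerset, fG P G T))
          linarith
  calc ∏ v, ∑ T ∈ (S v).powerset, Real.exp (fG P G T)
      ≤ ∏ v, ((S v).powerset.card : ℝ) * Real.exp ((Real.exp 1 - 1) *
        ((1 / 2 : ℝ) ^ (S v).card * ∑ T ∈ (S v).powerset, fG P G T)) :=
        Finset.prod_le_prod (fun v _ => Finset.sum_nonneg fun T _ => (Real.exp_pos _).le)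
          (fun v _ => h1 v)
    _ = (∏ v, ((S v).powerset.card : ℝ)) * Real.exp ((Real.exp 1 - 1) *
        ∑ v, ((1 / 2 : ℝ) ^ (S v).card * ∑ T ∈ (S v).powerset, fG P G T)) := by
        rw [Finset.prod_mul_distrib, ← Real.exp_sum, ← Finset.mul_sum]
    _ ≤ _ := by
        refine mul_le_mul_of_nonneg_left ?_ (Finset.prod_nonneg fun v _ => Nat.cast_nonneg _)
        exact Real.exp_le_exp.2 (mul_le_mul_of_nonneg_left (mean_le hP0 hP1 hdom G) he)

/-- the colouring -/
theorem exists_colouring {S : A → Finset B} {M P : ℝ} (hP0 : 0 ≤ P) (hP1 : P ≤ 1)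
    (hdom : Dom S M P) (hM : 0 ≤ M) (FF : Finset (Finset (Finset B))) {r : ℝ}
    (hr : ∀ G ∈ FF, r ≤ muG (2 * P - P ^ 2) G)
    (hsize : 2 * (FF.card : ℝ) * Real.exp (-(M * r / 4)) < 1) :
    ∃ T : A → Finset B, (∀ v, T v ⊆ S v) ∧ ∀ G ∈ FF,
      ∑ v, fG P G (T v) ≤ 2 * M * muG (2 * P - P ^ 2) G ∧
      ∑ v, fG P G (S v \ T v) ≤ 2 * M * muG (2 * P - P ^ 2) G := by
  classical
  set pi := Fintype.piFinset (fun v => (S v).powerset) with hpi
  set mu : Finset (Finset B) → ℝ := fun G => muG (2 * P - P ^ 2) G with hmu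
  have hpicard : (∏ v, ((S v).powerset.card : ℝ)) = (pi.card : ℝ) := by
    rw [hpi, Fintype.card_piFinset]; push_cast; rfl
  have hpipos : 0 < (pi.card : ℝ) := by
    rw [← hpicard]
    refine Finset.prod_pos fun v _ => ?_
    rw [Finset.card_powerset]; positivity
  have hmom : ∀ G ∈ FF, ∑ T ∈ pi, Real.exp (∑ v, fG P G (T v) - 2 * M * mu G)
      ≤ pi.card * Real.exp (-(M * r / 4)) := by
    intro G hG
    have h1 : ∑ T ∈ pi, Real.exp (∑ v, fG P G (T v) - 2 * M * mu G)
        = (∏ v, ∑ T ∈ (S v).powerset, Real.exp (fG P G T)) * Real.exp (-(2 * M * mu G)) := by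
      rw [Finset.prod_univ_sum, Finset.sum_mul]
      refine Finset.sum_congr rfl fun T _ => ?_
      rw [← Real.exp_sum, ← Real.exp_add]; rfl
    rw [h1]
    have h2 := exp_moment hP0 hP1 hdom G
    have h3 : M * r ≤ M * mu G := mul_le_mul_of_nonneg_left (hr G hG) hM
    have he : Real.exp 1 < 2.7182818286 := Real.exp_one_lt_d9
    have hMmu : 0 ≤ M * mu G := by
      rcases lt_or_ge r 0 with hneg | hpos
      · refine mul_nonneg hM ?_
        rw [hmu]
        exact muG_nonneg (by nlinarith) (by nlinarith) G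
      · exact (mul_nonneg hM hpos).trans h3
    calc (∏ v, ∑ T ∈ (S v).powerset, Real.exp (fG P G T)) * Real.exp (-(2 * M * mu G))
        ≤ ((∏ v, ((S v).powerset.card : ℝ)) * Real.exp ((Real.exp 1 - 1) * (M * mu G))) *
          Real.exp (-(2 * M * mu G)) := by gcongr
      _ = pi.card * Real.exp ((Real.exp 1 - 1) * (M * mu G) - 2 * M * mu G) := by
          rw [hpicard, mul_assoc, ← Real.exp_add]
          congr 2
      _ ≤ pi.card * Real.exp (-(M * r / 4)) := by
          refine mul_le_mul_of_nonneg_left (Real.exp_le_exp.2 ?_) (Nat.cast_nonneg _)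
          nlinarith
  have hmom' : ∀ G ∈ FF, ∑ T ∈ pi, Real.exp (∑ v, fG P G (S v \ T v) - 2 * M * mu G)
      ≤ pi.card * Real.exp (-(M * r / 4)) := by
    intro G hG
    refine le_trans (le_of_eq ?_) (hmom G hG)
    refine Finset.sum_bij' (fun T _ => fun v => S v \ T v) (fun T _ => fun v => S v \ T v)
      ?_ ?_ ?_ ?_ ?_
    · intro T _
      rw [hpi, Fintype.mem_piFinset]
      intro v; exact Finset.mem_powerset.2 Finset.sdiff_subset
    · intro T _
      rw [hpi, Fintype.mem_piFinset]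
      intro v; exact Finset.mem_powerset.2 Finset.sdiff_subset
    · intro T hT
      rw [hpi, Fintype.mem_piFinset] at hT
      funext v
      exact Finset.sdiff_sdiff_eq_self (Finset.mem_powerset.1 (hT v))
    · intro T hT
      rw [hpi, Fintype.mem_piFinset] at hT
      funext v
      exact Finset.sdiff_sdiff_eq_self (Finset.mem_powerset.1 (hT v))
    · intro T _; rfl
  have hsum : ∑ T ∈ pi, ∑ G ∈ FF, (Real.exp (∑ v, fG P G (T v) - 2 * M * mu G) +
      Real.exp (∑ v, fG P G (S v \ T v) - 2 * M * mu G)) < ∑ _T ∈ pi, (1 : ℝ) := by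
    rw [Finset.sum_comm]
    calc ∑ G ∈ FF, ∑ T ∈ pi, (Real.exp (∑ v, fG P G (T v) - 2 * M * mu G) +
          Real.exp (∑ v, fG P G (S v \ T v) - 2 * M * mu G))
        ≤ ∑ _G ∈ FF, (pi.card * Real.exp (-(M * r / 4)) + pi.card * Real.exp (-(M * r / 4))) := by
          refine Finset.sum_le_sum fun G hG => ?_
          rw [Finset.sum_add_distrib]
          exact add_le_add (hmom G hG) (hmom' G hG)
      _ = pi.card * (2 * (FF.card : ℝ) * Real.exp (-(M * r / 4))) := by
          rw [Finset.sum_const, nsmul_eq_mul]; ring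
      _ < pi.card * 1 := by gcongr
      _ = ∑ _T ∈ pi, (1 : ℝ) := by rw [Finset.sum_const, nsmul_eq_mul]
  obtain ⟨T, hT, hlt⟩ := Finset.exists_lt_of_sum_lt hsum
  rw [hpi, Fintype.mem_piFinset] at hT
  refine ⟨T, fun v => Finset.mem_powerset.1 (hT v), fun G hG => ?_⟩
  have hone : Real.exp (∑ v, fG P G (T v) - 2 * M * mu G) +
      Real.exp (∑ v, fG P G (S v \ T v) - 2 * M * mu G) < 1 :=
    lt_of_le_of_lt (Finset.single_le_sum (f := fun G => Real.exp (∑ v, fG P G (T v) - 2 * M * mu G)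
      + Real.exp (∑ v, fG P G (S v \ T v) - 2 * M * mu G))
      (fun G _ => (add_pos (Real.exp_pos _) (Real.exp_pos _)).le) hG) hlt
  have hp1 := Real.exp_pos (∑ v, fG P G (T v) - 2 * M * mu G)
  have hp2 := Real.exp_pos (∑ v, fG P G (S v \ T v) - 2 * M * mu G)
  constructor
  · have : Real.exp (∑ v, fG P G (T v) - 2 * M * mu G) < 1 := by linarith
    rw [Real.exp_lt_one_iff] at this
    linarith
  · have : Real.exp (∑ v, fG P G (S v \ T v) - 2 * M * mu G) < 1 := by linarith
    rw [Real.exp_lt_one_iff] at this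
    linarith

end Colour


section Graph

variable {B V : Type*} [Fintype B] [DecidableEq B] [Fintype V] [DecidableEq V]

/-- `exp (-1) ≤ 3/8`. -/
theorem exp_neg_one_le : Real.exp (-1) ≤ 3 / 8 := by
  have h := Real.exp_one_gt_d9
  rw [Real.exp_neg]
  rw [inv_le_comm₀ (Real.exp_pos _) (by norm_num)]
  linarith

/-- number of `x` whose neighbourhood is hit -/
noncomputable def cnt (G : Finset (Finset B)) (ω : V → B → Bool) : ℝ :=
  ∑ x, if hit G (ω x) then (1 : ℝ) else 0

/-- lower tail, exponential moment form -/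
theorem lower_tail {q : ℝ} (h0 : 0 ≤ q) (h1 : q ≤ 1) (G : Finset (Finset B)) :
    ∑ ω : V → B → Bool, (∏ x, bernoulliWeight q (ω x)) *
      (if cnt G ω < Fintype.card V * muG q G / 2 then 1 else 0)
      ≤ Real.exp (-(Fintype.card V * muG q G / 8)) := by
  set m : ℝ := ((Fintype.card V : ℕ) : ℝ) with hm
  set mu : ℝ := muG q G with hmu
  have hmu0 : 0 ≤ mu := muG_nonneg h0 h1 G
  have step : ∀ ω : V → B → Bool, (∏ x, bernoulliWeight q (ω x)) *
      (if cnt G ω < m * mu / 2 then (1 : ℝ) else 0)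
      ≤ Real.exp (m * mu / 2) * ∏ x, (bernoulliWeight q (ω x) *
          Real.exp (-(if hit G (ω x) then (1 : ℝ) else 0))) := by
    intro ω
    have hw : 0 ≤ ∏ x, bernoulliWeight q (ω x) := Finset.prod_nonneg fun x _ => bw_nonneg h0 h1 _
    rw [Finset.prod_mul_distrib, ← Real.exp_sum, Finset.sum_neg_distrib, mul_left_comm,
      ← Real.exp_add]
    refine mul_le_mul_of_nonneg_left ?_ hw
    split_ifs with hlt
    · refine Real.one_le_exp ?_
      unfold cnt at hlt; linarith
    · exact (Real.exp_pos _).le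
  refine (Finset.sum_le_sum fun ω _ => step ω).trans ?_
  rw [← Finset.mul_sum, sum_prod_fun (fun (_ : V) (η : B → Bool) =>
    bernoulliWeight q η * Real.exp (-(if hit G η then (1 : ℝ) else 0))), Finset.prod_const,
    Finset.card_univ]
  have hone : ∑ η : B → Bool, bernoulliWeight q η *
      Real.exp (-(if hit G η then (1 : ℝ) else 0)) ≤ Real.exp (-(5 / 8) * mu) := by
    have e1 : ∀ η : B → Bool, bernoulliWeight q η *
        Real.exp (-(if hit G η then (1 : ℝ) else 0))
        ≤ bernoulliWeight q η - (5 / 8) * (bernoulliWeight q η * (if hit G η then 1 else 0)) := by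
      intro η
      have hw := bw_nonneg h0 h1 η
      have := exp_neg_one_le
      split_ifs
      · nlinarith
      · simp
    calc ∑ η : B → Bool, bernoulliWeight q η * Real.exp (-(if hit G η then (1 : ℝ) else 0))
        ≤ ∑ η : B → Bool, (bernoulliWeight q η -
          (5 / 8) * (bernoulliWeight q η * (if hit G η then 1 else 0))) :=
          Finset.sum_le_sum fun η _ => e1 η
      _ = 1 - (5 / 8) * mu := by
          rw [Finset.sum_sub_distrib, sum_bw, ← Finset.mul_sum]; rfl
      _ ≤ Real.exp (-(5 / 8) * mu) := by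
          have := Real.add_one_le_exp (-(5 / 8) * mu)
          linarith
  have hnn : 0 ≤ ∑ η : B → Bool, bernoulliWeight q η *
      Real.exp (-(if hit G η then (1 : ℝ) else 0)) :=
    Finset.sum_nonneg fun η _ => mul_nonneg (bw_nonneg h0 h1 η) (Real.exp_pos _).le
  calc Real.exp (m * mu / 2) * (∑ η : B → Bool, bernoulliWeight q η *
      Real.exp (-(if hit G η then (1 : ℝ) else 0))) ^ Fintype.card V
      ≤ Real.exp (m * mu / 2) * (Real.exp (-(5 / 8) * mu)) ^ Fintype.card V := by gcongr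
    _ = Real.exp (-(m * mu / 8)) := by
        rw [← Real.exp_nat_mul, ← Real.exp_add]
        congr 1
        rw [← hm]; ring

/-- with high probability every generated up-set is hit often -/
theorem graph_event {q r : ℝ} (h0 : 0 ≤ q) (h1 : q ≤ 1) (FF : Finset (Finset (Finset B)))
    (hr : ∀ G ∈ FF, r ≤ muG q G)
    (hsize : (FF.card : ℝ) * Real.exp (-(Fintype.card V * r / 8)) ≤ 1 / 4) :
    3 / 4 ≤ ∑ ω : V → B → Bool, (∏ x, bernoulliWeight q (ω x)) *
      (if ∀ G ∈ FF, Fintype.card V * muG q G / 2 ≤ cnt G ω then 1 else 0) := by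
  have htot : ∑ ω : V → B → Bool, (∏ x, bernoulliWeight q (ω x)) = 1 := by
    rw [sum_prod_fun (fun (_ : V) (η : B → Bool) => bernoulliWeight q η)]
    simp [sum_bw]
  have hle : ∀ ω : V → B → Bool, (∏ x, bernoulliWeight q (ω x)) ≤
      (∏ x, bernoulliWeight q (ω x)) *
        (if ∀ G ∈ FF, Fintype.card V * muG q G / 2 ≤ cnt G ω then 1 else 0) +
      ∑ G ∈ FF, (∏ x, bernoulliWeight q (ω x)) *
        (if cnt G ω < Fintype.card V * muG q G / 2 then 1 else 0) := by
    intro ω
    have hw : 0 ≤ ∏ x, bernoulliWeight q (ω x) := Finset.prod_nonneg fun x _ => bw_nonneg h0 h1 _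
    have hnn : ∀ G ∈ FF, 0 ≤ (∏ x, bernoulliWeight q (ω x)) *
        (if cnt G ω < Fintype.card V * muG q G / 2 then (1 : ℝ) else 0) := fun G _ =>
      mul_nonneg hw (by split_ifs <;> norm_num)
    by_cases hall : ∀ G ∈ FF, Fintype.card V * muG q G / 2 ≤ cnt G ω
    · rw [if_pos hall, mul_one]
      have := Finset.sum_nonneg hnn
      linarith
    · rw [if_neg hall, mul_zero, zero_add]
      push Not at hall
      obtain ⟨G, hG, hlt⟩ := hall
      refine le_trans ?_ (Finset.single_le_sum hnn hG)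
      rw [if_pos hlt, mul_one]
  have h2 : ∑ ω : V → B → Bool, ∑ G ∈ FF, (∏ x, bernoulliWeight q (ω x)) *
        (if cnt G ω < Fintype.card V * muG q G / 2 then (1 : ℝ) else 0) ≤ 1 / 4 := by
    rw [Finset.sum_comm]
    calc ∑ G ∈ FF, ∑ ω : V → B → Bool, (∏ x, bernoulliWeight q (ω x)) *
        (if cnt G ω < Fintype.card V * muG q G / 2 then (1 : ℝ) else 0)
        ≤ ∑ _G ∈ FF, Real.exp (-(Fintype.card V * r / 8)) := by
          refine Finset.sum_le_sum fun G hG => (lower_tail h0 h1 G).trans ?_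
          refine Real.exp_le_exp.2 ?_
          have := mul_le_mul_of_nonneg_left (hr G hG) (Nat.cast_nonneg (α := ℝ) (Fintype.card V))
          linarith
      _ = (FF.card : ℝ) * Real.exp (-(Fintype.card V * r / 8)) := by
          rw [Finset.sum_const, nsmul_eq_mul]
      _ ≤ 1 / 4 := hsize
  have h3 := Finset.sum_le_sum (s := (Finset.univ : Finset (V → B → Bool))) fun ω _ => hle ω
  rw [htot, Finset.sum_add_distrib] at h3
  linarith

end Graph


section Core

variable {A B V : Type*} [Fintype A] [DecidableEq A] [Fintype B] [DecidableEq B]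
  [Fintype V] [DecidableEq V]

omit [DecidableEq A] in
/-- Deterministic part: Hall's theorem. -/
theorem hall_step (s : A → Finset B) (z m : ℕ) (hz : ∀ v, (s v).card ≤ z) {M P : ℝ}
    (hP0 : 0 < P) (hP1 : P ≤ 1) (hV : 8 * M ≤ Fintype.card V) (hm : 2 ≤ m * P ^ z)
    (FF : Finset (Finset (Finset B)))
    (hFF : ∀ G : Finset (Finset B), G.Nonempty → G.card ≤ m → (∀ t ∈ G, ∃ v, t = s v) → G ∈ FF)
    (hcol : ∀ G ∈ FF, ∑ v, fG P G (s v) ≤ 2 * M * muG (2 * P - P ^ 2) G)
    (ω : V → B → Bool)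
    (hω : ∀ G ∈ FF, Fintype.card V * muG (2 * P - P ^ 2) G / 2 ≤ cnt G ω) :
    ∃ g : A → V, Function.Injective g ∧ ∀ v, ∀ b ∈ s v, ω (g v) b = true := by
  classical
  have hall := (Finset.all_card_le_biUnion_card_iff_exists_injective
    (fun v : A => Finset.univ.filter (fun x : V => ∀ b ∈ s v, ω x b = true))).1 ?_
  · obtain ⟨g, hg, hgm⟩ := hall
    exact ⟨g, hg, fun v => (Finset.mem_filter.1 (hgm v)).2⟩
  intro Γ
  rcases Γ.eq_empty_or_nonempty with rfl | hΓ
  · simp
  have hPz : 0 < P ^ z := pow_pos hP0 z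
  obtain ⟨G, hGΓ, hGcard, hGf⟩ := exists_few hP0 hP1 (Γ.image s) z (by
    intro t ht
    obtain ⟨v, -, rfl⟩ := Finset.mem_image.1 ht
    exact hz v)
  have hGne : G.Nonempty := by
    by_contra hne
    rw [Finset.not_nonempty_iff_eq_empty] at hne
    obtain ⟨v, hv⟩ := hΓ
    have h1 := hGf (s v) (Finset.mem_image_of_mem _ hv)
    have h2 : fG P G (s v) = 0 := by
      unfold fG
      refine Finset.sum_eq_zero fun ω _ => ?_
      rw [if_neg]; · simp
      rintro ⟨t, ht, -⟩
      rw [hne] at ht; simp at ht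
    rw [h2] at h1; norm_num at h1
  have hGm : G.card ≤ m := by
    have : (G.card : ℝ) ≤ m := by
      by_contra hlt
      push Not at hlt
      have := mul_lt_mul_of_pos_right hlt hPz
      linarith
    exact_mod_cast this
  have hGFF : G ∈ FF := hFF G hGne hGm (fun t ht => by
    obtain ⟨v, -, hv⟩ := Finset.mem_image.1 (hGΓ ht)
    exact ⟨v, hv.symm⟩)
  have q0 : 0 ≤ 2 * P - P ^ 2 := by nlinarith
  have q1 : 2 * P - P ^ 2 ≤ 1 := by nlinarith [sq_nonneg (1 - P)]
  have hmu := muG_nonneg q0 q1 G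
  have h1 : (Γ.card : ℝ) ≤ 2 * ∑ v, fG P G (s v) := by
    calc (Γ.card : ℝ) = ∑ _v ∈ Γ, (1 : ℝ) := by simp
      _ ≤ ∑ v ∈ Γ, 2 * fG P G (s v) := by
          refine Finset.sum_le_sum fun v hv => ?_
          have := hGf (s v) (Finset.mem_image_of_mem _ hv)
          linarith
      _ ≤ ∑ v, 2 * fG P G (s v) :=
          Finset.sum_le_sum_of_subset_of_nonneg (Finset.subset_univ _) fun v _ _ =>
            mul_nonneg (by norm_num) (fG_nonneg hP0.le hP1 G _)
      _ = 2 * ∑ v, fG P G (s v) := by rw [Finset.mul_sum]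
  have h2 := hcol G hGFF
  have h3 := hω G hGFF
  have h4 : 8 * M * muG (2 * P - P ^ 2) G ≤ Fintype.card V * muG (2 * P - P ^ 2) G :=
    mul_le_mul_of_nonneg_right hV hmu
  have h5 : cnt G ω ≤ ((Γ.biUnion
      (fun v : A => Finset.univ.filter (fun x : V => ∀ b ∈ s v, ω x b = true))).card : ℝ) := by
    unfold cnt
    rw [← Finset.sum_filter, Finset.sum_const, nsmul_eq_mul, mul_one]
    have : (Finset.univ.filter (fun x : V => hit G (ω x))).card ≤ (Γ.biUnion
      (fun v : A => Finset.univ.filter (fun x : V => ∀ b ∈ s v, ω x b = true))).card := by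
      refine Finset.card_le_card fun x hx => ?_
      obtain ⟨t, ht, htω⟩ := (Finset.mem_filter.1 hx).2
      obtain ⟨v, hv, rfl⟩ := Finset.mem_image.1 (hGΓ ht)
      exact Finset.mem_biUnion.2 ⟨v, hv, Finset.mem_filter.2 ⟨Finset.mem_univ _, htω⟩⟩
    exact_mod_cast this
  have h6 : (Γ.card : ℝ) ≤ ((Γ.biUnion
      (fun v : A => Finset.univ.filter (fun x : V => ∀ b ∈ s v, ω x b = true))).card : ℝ) := by
    linarith
  exact_mod_cast h6

/-- sum over the product space in curried form -/
theorem bernoulliProb_curry (q : ℝ) (E : Set (V × B → Bool)) [DecidablePred (· ∈ E)] :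
    bernoulliProb q E = ∑ ω : V → B → Bool, (∏ x, bernoulliWeight q (ω x)) *
      (if (fun xb : V × B => ω xb.1 xb.2) ∈ E then 1 else 0) := by
  unfold bernoulliProb
  rw [Finset.sum_filter, ← (Equiv.curry V B Bool).symm.sum_comp]
  refine Finset.sum_congr rfl fun ω _ => ?_
  have e1 : bernoulliWeight q ((Equiv.curry V B Bool).symm ω) = ∏ x, bernoulliWeight q (ω x) := by
    unfold bernoulliWeight
    rw [Fintype.prod_prod_type]
    rfl
  rw [e1]
  have e2 : (Equiv.curry V B Bool).symm ω = fun xb : V × B => ω xb.1 xb.2 := by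
    funext xb; rfl
  rw [e2]
  split_ifs with h1
  · rw [mul_one]
  · rw [mul_zero]

/-- **Hub lemma**, abstract form. -/
theorem hub_core (S : A → Finset B) (z m : ℕ) (hz : ∀ v, (S v).card ≤ z) {M P : ℝ}
    (hP0 : 0 < P) (hP1 : P ≤ 1) (hM : 0 ≤ M) (hdom : Dom S M P) (hV : 8 * M ≤ Fintype.card V)
    (hm : 2 ≤ m * P ^ z)
    (hs1 : 2 * (Fintype.card A * 2 ^ z + 1 : ℝ) ^ m * Real.exp (-(M * P ^ z / 4)) < 1)
    (hs2 : (Fintype.card A * 2 ^ z + 1 : ℝ) ^ m * Real.exp (-(Fintype.card V * P ^ z / 8)) ≤ 1 / 4) :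
    ∃ c : A → Finset B, ∀ i : Bool, 3 / 4 ≤ bernoulliProb (2 * P - P ^ 2)
      {ω : V × B → Bool | ∃ g : A → V, Function.Injective g ∧ ∀ v, ∀ b ∈ S v,
        (decide (b ∈ c v) = i) → ω (g v, b) = true} := by
  classical
  set Pat : Finset (Finset B) := Finset.univ.biUnion (fun v => (S v).powerset) with hPat
  have hPatcard : (Pat.card : ℝ) ≤ Fintype.card A * 2 ^ z := by
    have h1 : Pat.card ≤ Fintype.card A * 2 ^ z := by
      calc Pat.card ≤ ∑ v : A, ((S v).powerset).card := Finset.card_biUnion_le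
        _ ≤ ∑ _v : A, 2 ^ z := by
            refine Finset.sum_le_sum fun v _ => ?_
            rw [Finset.card_powerset]
            exact Nat.pow_le_pow_right (by norm_num) (hz v)
        _ = Fintype.card A * 2 ^ z := by simp
    exact_mod_cast h1
  set FF : Finset (Finset (Finset B)) :=
    (Pat.powerset.filter (fun G => G.card ≤ m)).filter (fun G => G.Nonempty) with hFFdef
  have hFFcard : (FF.card : ℝ) ≤ (Fintype.card A * 2 ^ z + 1 : ℝ) ^ m := by
    have h1 : (FF.card : ℝ) ≤ ((Pat.powerset.filter (fun G => G.card ≤ m)).card : ℝ) := by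
      exact_mod_cast Finset.card_le_card (Finset.filter_subset _ _)
    refine h1.trans ((card_small_subsets Pat m).trans ?_)
    gcongr
  have hPz : 0 < P ^ z := pow_pos hP0 z
  have q0 : 0 ≤ 2 * P - P ^ 2 := by nlinarith
  have q1 : 2 * P - P ^ 2 ≤ 1 := by nlinarith [sq_nonneg (1 - P)]
  have hPq : P ≤ 2 * P - P ^ 2 := by nlinarith
  have hPatz : ∀ t ∈ Pat, t.card ≤ z := by
    intro t ht
    obtain ⟨v, -, htv⟩ := Finset.mem_biUnion.1 ht
    exact (Finset.card_le_card (Finset.mem_powerset.1 htv)).trans (hz v)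
  have hr : ∀ G ∈ FF, P ^ z ≤ muG (2 * P - P ^ 2) G := by
    intro G hG
    rw [hFFdef, Finset.mem_filter, Finset.mem_filter, Finset.mem_powerset] at hG
    obtain ⟨⟨hGP, -⟩, ⟨t, ht⟩⟩ := hG
    calc P ^ z ≤ P ^ t.card := pow_le_pow_of_le_one hP0.le hP1 (hPatz t (hGP ht))
      _ ≤ (2 * P - P ^ 2) ^ t.card := pow_le_pow_left₀ hP0.le hPq _
      _ ≤ muG (2 * P - P ^ 2) G := muG_ge q0 q1 ht
  obtain ⟨T, hTS, hT⟩ := exists_colouring hP0.le hP1 hdom hM FF hr (by
    refine lt_of_le_of_lt ?_ hs1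
    gcongr)
  have hgraph := graph_event (V := V) q0 q1 FF hr (by
    refine le_trans ?_ hs2
    gcongr)
  have hFFmem : ∀ (s : A → Finset B), (∀ v, s v ⊆ S v) → ∀ G : Finset (Finset B), G.Nonempty →
      G.card ≤ m → (∀ t ∈ G, ∃ v, t = s v) → G ∈ FF := by
    intro s hs G hne hcard hmem
    rw [hFFdef, Finset.mem_filter, Finset.mem_filter, Finset.mem_powerset]
    refine ⟨⟨fun t ht => ?_, hcard⟩, hne⟩
    obtain ⟨v, rfl⟩ := hmem t ht
    exact Finset.mem_biUnion.2 ⟨v, Finset.mem_univ _, Finset.mem_powerset.2 (hs v)⟩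
  refine ⟨T, fun i => ?_⟩
  rw [bernoulliProb_curry]
  refine hgraph.trans (Finset.sum_le_sum fun ω _ => ?_)
  refine mul_le_mul_of_nonneg_left ?_ (Finset.prod_nonneg fun x _ => bw_nonneg q0 q1 _)
  by_cases hω : ∀ G ∈ FF, Fintype.card V * muG (2 * P - P ^ 2) G / 2 ≤ cnt G ω
  · rw [if_pos hω, if_pos]
    cases i with
    | true =>
      obtain ⟨g, hg, hgω⟩ := hall_step T z m (fun v => (Finset.card_le_card (hTS v)).trans (hz v))
        hP0 hP1 hV hm FF (hFFmem T hTS) (fun G hG => (hT G hG).1) ω hω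
      refine ⟨g, hg, fun v b hb hbi => ?_⟩
      exact hgω v b (by simpa using hbi)
    | false =>
      obtain ⟨g, hg, hgω⟩ := hall_step (fun v => S v \ T v) z m
        (fun v => (Finset.card_le_card Finset.sdiff_subset).trans (hz v))
        hP0 hP1 hV hm FF (hFFmem (fun v => S v \ T v) (fun v => Finset.sdiff_subset))
        (fun G hG => (hT G hG).2) ω hω
      refine ⟨g, hg, fun v b hb hbi => ?_⟩
      exact hgω v b (Finset.mem_sdiff.2 ⟨hb, by simpa using hbi⟩)
  · rw [if_neg hω]
    split_ifs <;> norm_num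

end Core

end Crest.Agent.R052.Hub
end

-- ▼ part R052/Half
section

/-!
# Domination of random halves (module W1 of S0073)

`A` leaves, `S v ⊆ α` the pattern of the leaf `v`, `#{v | Z ⊆ S v} ≤ M * w ^ |Z|` for all `Z`.
Then the random halves of the patterns are dominated by the product measure of density
`w / (1 + w)`: for every up-closed `U`,
`∑ v, 2^{-|S v|} #{T ⊆ S v | T ∈ U} ≤ M * mu_{w/(1+w)}(U)`.
-/

set_option autoImplicit false

namespace Crest.Agent.R052.Half

open Finset Crest.Agent.R052.Odds Crest.Agent.R052.Union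

variable {A : Type*} [Fintype A] {α : Type} [Fintype α] [DecidableEq α]

theorem mu_half (S R : Finset α) :
    mu (fun x => if x ∈ S then (1 / 2 : ℝ) else 0) R =
      if R ⊆ S then (1 / 2 : ℝ) ^ S.card else 0 := by
  unfold mu
  by_cases h : R ⊆ S
  · rw [if_pos h]
    rw [← Finset.prod_const, prod_subset_ite S]
    refine Finset.prod_congr rfl fun x _ => ?_
    by_cases h1 : x ∈ S
    · by_cases h2 : x ∈ R <;> simp [h1, h2]; norm_num
    · have h2 : x ∉ R := fun h2 => h1 (h h2)
      simp [h1, h2]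
  · rw [if_neg h]
    obtain ⟨x, hx, hxS⟩ := Finset.not_subset.1 h
    refine Finset.prod_eq_zero (Finset.mem_univ x) ?_
    simp [hx, hxS]

theorem sum_mu_half (S : Finset α) (U : Finset (Finset α)) :
    ∑ R ∈ U, mu (fun x => if x ∈ S then (1 / 2 : ℝ) else 0) R =
      (1 / 2 : ℝ) ^ S.card * ((S.powerset.filter fun T => T ∈ U).card : ℝ) := by
  rw [Finset.sum_congr rfl fun R _ => mu_half S R, ← Finset.sum_filter, Finset.sum_const,
    nsmul_eq_mul, mul_comm]
  congr 3
  ext T
  simp [and_comm]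

/-- **Domination of random halves.** -/
theorem half_dom (S : A → Finset α) (M w : ℝ) (hw : 0 ≤ w)
    (ht : ∀ Z : Finset α, ((univ.filter fun v => Z ⊆ S v).card : ℝ) ≤ M * w ^ Z.card)
    (U : Finset (Finset α)) (hU : ∀ X ∈ U, ∀ Y : Finset α, X ⊆ Y → Y ∈ U) :
    ∑ v, (1 / 2 : ℝ) ^ (S v).card * (((S v).powerset.filter fun T => T ∈ U).card : ℝ) ≤
      M * ∑ R ∈ U, mu (fun _ : α => w / (1 + w)) R := by
  have hw1 : (0 : ℝ) < 1 + w := by linarith
  have hr1 : w / (1 + w) < 1 := by rw [div_lt_one hw1]; linarith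
  have hodds : w / (1 + w) / (1 - w / (1 + w)) = w := by
    field_simp
    ring
  set r : α → ℝ := fun _ : α => w / (1 + w) with hr
  have h1 : ∀ v, (1 / 2 : ℝ) ^ (S v).card * (((S v).powerset.filter fun T => T ∈ U).card : ℝ) ≤
      ∑ Z, (if Z ⊆ S v then 1 else 0) * phi r U Z ^ 2 := by
    intro v
    rw [← sum_mu_half]
    refine (cert_odds _ r (fun x => ?_) (fun x => ?_) U hU).trans (le_of_eq ?_)
    · by_cases h : x ∈ S v <;> simp [h]
    · by_cases h : x ∈ S v <;> simp [h]; norm_num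
    · refine Finset.sum_congr rfl fun Z _ => ?_
      congr 1
      by_cases h : Z ⊆ S v
      · rw [if_pos h]
        refine Finset.prod_eq_one fun x hx => ?_
        rw [if_pos (h hx)]
        norm_num
      · rw [if_neg h]
        obtain ⟨x, hx, hxS⟩ := Finset.not_subset.1 h
        refine Finset.prod_eq_zero hx ?_
        simp [hxS]
  have h2 : ∑ R ∈ U, mu r R = ∑ Z, w ^ Z.card * phi r U Z ^ 2 := by
    rw [← cert_odds_eq r (fun _ => hr1) U]
    refine Finset.sum_congr rfl fun Z _ => ?_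
    rw [hr]
    simp only [hodds, Finset.prod_const]
  rw [h2, Finset.mul_sum]
  refine (Finset.sum_le_sum fun v _ => h1 v).trans ?_
  rw [Finset.sum_comm]
  refine Finset.sum_le_sum fun Z _ => ?_
  rw [← Finset.sum_mul, ← mul_assoc]
  refine mul_le_mul_of_nonneg_right ?_ (sq_nonneg _)
  rw [Finset.sum_boole]
  exact ht Z

/-- `bernoulliProb` of an event given by the set of successes. -/
theorem bernoulliProb_eq (p : ℝ) (U : Finset (Finset α)) :
    Crest.FinProb.bernoulliProb p {ω : α → Bool | (univ.filter fun x => ω x = true) ∈ U} =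
      ∑ R ∈ U, mu (fun _ : α => p) R := by
  classical
  unfold Crest.FinProb.bernoulliProb
  refine Finset.sum_bij' (fun ω _ => univ.filter fun x => ω x = true)
    (fun R _ x => decide (x ∈ R)) ?_ ?_ ?_ ?_ ?_
  · intro ω hω
    simpa using hω
  · intro R hR
    simp only [mem_filter, mem_univ, true_and, Set.mem_setOf_eq, decide_eq_true_eq]
    convert hR
    ext x
    simp
  · intro ω _
    funext x
    simp
  · intro R _
    ext x
    simp
  · intro ω _
    unfold Crest.FinProb.bernoulliWeight mu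
    refine Finset.prod_congr rfl fun x _ => ?_
    by_cases h : ω x = true <;> simp [h]

/-- domination of random halves, `bernoulliProb` form, for a monotone predicate -/
theorem half_dom_bernoulli (S : A → Finset α) (M w : ℝ) (hw : 0 ≤ w)
    (ht : ∀ Z : Finset α, ((univ.filter fun v => Z ⊆ S v).card : ℝ) ≤ M * w ^ Z.card)
    (Q : Finset α → Prop) [DecidablePred Q] (hQ : ∀ X Y : Finset α, X ⊆ Y → Q X → Q Y) :
    ∑ v, (1 / 2 : ℝ) ^ (S v).card * (((S v).powerset.filter fun T => Q T).card : ℝ) ≤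
      M * Crest.FinProb.bernoulliProb (w / (1 + w))
        {ω : α → Bool | Q (univ.filter fun x => ω x = true)} := by
  have h := half_dom S M w hw ht (univ.filter fun T => Q T)
    (fun X hX Y hXY => by
      simp only [mem_filter, mem_univ, true_and] at hX ⊢
      exact hQ X Y hXY hX)
  have h2 := bernoulliProb_eq (α := α) (w / (1 + w)) (univ.filter fun T => Q T)
  simp only [mem_filter, mem_univ, true_and] at h h2
  rw [h2]
  exact h

end Crest.Agent.R052.Half
end

-- ▼ part R052/HubNum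
section

/-!
# R052.HubNum (helper646): the hub lemma with all numerics
-/

set_option autoImplicit false

open Finset

namespace Crest.Agent.R052.Hub

open Crest.FinProb

/-- numerics -/
theorem num_bound {n x : ℝ} (hn : 10 ^ 8 ≤ n) (hx1 : 1 ≤ x) (hx : x ^ 10 ≤ n) :
    256 * x * (Real.log 4 + 6 * x * Real.log n) < n := by
  have hn0 : 0 < n := by linarith
  set t := Real.sqrt (Real.sqrt n) with ht
  have ht0 : 0 ≤ t := Real.sqrt_nonneg _
  have ht2 : t ^ 2 = Real.sqrt n := Real.sq_sqrt (Real.sqrt_nonneg _)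
  have ht4 : t ^ 4 = n := by
    have : t ^ 4 = (t ^ 2) ^ 2 := by ring
    rw [this, ht2, Real.sq_sqrt hn0.le]
  have hs : (10 : ℝ) ^ 4 ≤ t ^ 2 := by
    rw [ht2]
    apply Real.le_sqrt_of_sq_le
    calc ((10 : ℝ) ^ 4) ^ 2 = 10 ^ 8 := by norm_num
      _ ≤ n := hn
  have htpos : 0 < t := by
    rcases ht0.lt_or_eq with h | h
    · exact h
    · rw [← h] at hs; norm_num at hs
  have ht1 : 1 ≤ t := by
    by_contra hlt
    push Not at hlt
    nlinarith
  have hxt : x ^ 2 ≤ t := by
    have h1 : (x ^ 2) ^ 4 ≤ t ^ 4 := by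
      rw [ht4]
      calc (x ^ 2) ^ 4 = x ^ 8 := by ring
        _ ≤ x ^ 10 := pow_le_pow_right₀ hx1 (by norm_num)
        _ ≤ n := hx
    exact le_of_pow_le_pow_left₀ (by norm_num) ht0 h1
  have hxt' : x ≤ t := by nlinarith
  have hlog : Real.log n ≤ 4 * t := by
    rw [← ht4, Real.log_pow]
    have := Real.log_le_sub_one_of_pos htpos
    push_cast
    linarith
  have hlog0 : 0 ≤ Real.log n := Real.log_nonneg (by linarith)
  have hlog4 : Real.log 4 ≤ 2 := by
    have h : Real.log 4 = 2 * Real.log 2 := by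
      rw [show (4 : ℝ) = 2 ^ 2 by norm_num, Real.log_pow]; norm_num
    rw [h]
    have := Real.log_two_lt_d9
    linarith
  have hlog40 : 0 ≤ Real.log 4 := Real.log_nonneg (by norm_num)
  calc 256 * x * (Real.log 4 + 6 * x * Real.log n)
      = 256 * (x * Real.log 4 + 6 * (x ^ 2 * Real.log n)) := by ring
    _ ≤ 256 * (t * 2 + 6 * (t * (4 * t))) := by gcongr
    _ ≤ 256 * (26 * t ^ 2) := by nlinarith
    _ < t ^ 4 := by nlinarith
    _ = n := ht4

set_option maxHeartbeats 1000000 in
/-- **Hub lemma** with numerics. -/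
theorem hub_final (K : ℝ) (hK : 1 ≤ K) : ∃ n0 : ℕ, ∀ n ≥ n0, ∀ (A B V : Type)
    [Fintype A] [DecidableEq A] [Fintype B] [DecidableEq B] [Fintype V] [DecidableEq V]
    (p P : ℝ) (z : ℕ) (S : A → Finset B),
    64 * Fintype.card A ≤ n → n ≤ 2 * Fintype.card V → 0 < p → p ≤ 1 / 2 →
    (∀ v, (S v).card ≤ z) → 1 ≤ p ^ (10 * z) * n →
    (∀ Z : Finset B, Z.Nonempty → Z.card ≤ z →
      ((Finset.univ.filter fun v => Z ⊆ S v).card : ℝ) ≤ K * n * p ^ Z.card) →
    128 * K * p ≤ P → P ≤ 1 →
    ∃ c : A → Finset B, ∀ i : Bool, 3 / 4 ≤ bernoulliProb P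
      {ω : V × B → Bool | ∃ g : A → V, Function.Injective g ∧ ∀ v, ∀ b ∈ S v,
        (decide (b ∈ c v) = i) → ω (g v, b) = true} := by
  refine ⟨10 ^ 8, ?_⟩
  intro n hn A B V _ _ _ _ _ _ p P z S hA hV hp0 hp2 hz hpz ht hP hP1
  classical
  have hnR : (10 : ℝ) ^ 8 ≤ n := by exact_mod_cast hn
  have hn0 : (0 : ℝ) < n := by linarith
  set M : ℝ := (n : ℝ) / 64 with hM
  set w : ℝ := 64 * K * p with hw
  have hw0 : 0 < w := by positivity
  set P0 : ℝ := w / (1 + w) with hP0def
  have hP00 : 0 < P0 := by positivity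
  have hP01 : P0 ≤ 1 := by rw [hP0def, div_le_one (by positivity)]; linarith
  have hpP0 : p ≤ P0 := by
    rw [hP0def, le_div_iff₀ (by positivity), hw]
    nlinarith
  set x : ℝ := (1 / p) ^ z with hx
  have hx1 : 1 ≤ x := one_le_pow₀ (by rw [le_div_iff₀ hp0]; linarith)
  have hx0 : 0 < x := by linarith
  have hpzx : p ^ z = 1 / x := by rw [hx, one_div, one_div, inv_pow, inv_inv]
  have hx64 : x ^ 10 ≤ n := by
    have h1 : x ^ 10 * p ^ (10 * z) = 1 := by
      rw [mul_comm 10 z, pow_mul, ← mul_pow, hpzx]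
      rw [mul_one_div_cancel hx0.ne', one_pow]
    have h2 : 0 < x ^ 10 := by positivity
    calc x ^ 10 = x ^ 10 * 1 := by ring
      _ ≤ x ^ 10 * (p ^ (10 * z) * n) := by gcongr
      _ = n := by rw [← mul_assoc, h1, one_mul]
  have h2x : (2 : ℝ) ^ z ≤ x := by
    rw [hx]
    refine pow_le_pow_left₀ (by norm_num) ?_ _
    rw [le_div_iff₀ hp0]; linarith
  have hPz : 1 / x ≤ P0 ^ z := by
    rw [← hpzx]; exact pow_le_pow_left₀ hp0.le hpP0 _
  set m : ℕ := ⌈2 * x⌉₊ with hm
  have hm1 : 2 * x ≤ m := Nat.le_ceil _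
  have hm2 : (m : ℝ) ≤ 3 * x := by
    have := Nat.ceil_lt_add_one (show 0 ≤ 2 * x by positivity)
    rw [← hm] at this
    linarith
  have hnum := num_bound hnR hx1 hx64
  have hAR : (Fintype.card A : ℝ) ≤ n / 64 := by
    have : (64 : ℝ) * Fintype.card A ≤ n := by exact_mod_cast hA
    linarith
  have hVR : (n : ℝ) / 2 ≤ Fintype.card V := by
    have : (n : ℝ) ≤ 2 * Fintype.card V := by exact_mod_cast hV
    linarith
  -- domination
  have hdom : Dom S M P0 := by
    intro U hU
    have h := Half.half_dom_bernoulli S M w hw0.le (by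
      intro Z
      rcases Z.eq_empty_or_nonempty with rfl | hZ
      · simp only [Finset.empty_subset, Finset.filter_true, Finset.card_univ, Finset.card_empty,
          pow_zero, mul_one]
        exact hAR
      · by_cases hZz : Z.card ≤ z
        · refine (ht Z hZ hZz).trans ?_
          have hc : 1 ≤ Z.card := hZ.card_pos
          have h64 : (64 * K) ≤ (64 * K) ^ Z.card := by
            calc 64 * K = (64 * K) ^ 1 := by ring
              _ ≤ (64 * K) ^ Z.card := pow_le_pow_right₀ (by linarith) hc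
          rw [hM, hw, mul_pow]
          have hpc : 0 ≤ p ^ Z.card := by positivity
          calc K * n * p ^ Z.card = n / 64 * ((64 * K) * p ^ Z.card) := by ring
            _ ≤ n / 64 * ((64 * K) ^ Z.card * p ^ Z.card) := by gcongr
        · have h0 : (Finset.univ.filter fun v => Z ⊆ S v) = ∅ := by
            rw [Finset.filter_eq_empty_iff]
            intro v _ hv
            exact hZz ((Finset.card_le_card hv).trans (hz v))
          rw [h0]
          simp only [Finset.card_empty, Nat.cast_zero]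
          positivity) U hU
    refine h.trans (le_of_eq ?_)
    congr 1
    unfold bernoulliProb
    rw [Finset.sum_filter]
    refine Finset.sum_congr rfl fun ω _ => ?_
    simp only [Set.mem_ofPred_eq]
    split_ifs <;> simp [hP0def]
  -- size conditions
  have hbase : (Fintype.card A * 2 ^ z + 1 : ℝ) ≤ n ^ 2 := by
    have hxn : x ≤ n := by
      calc x = x ^ 1 := by ring
        _ ≤ x ^ 10 := pow_le_pow_right₀ hx1 (by norm_num)
        _ ≤ n := hx64
    calc (Fintype.card A * 2 ^ z + 1 : ℝ) ≤ n / 64 * n + 1 := by gcongr; exact h2x.trans hxn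
      _ ≤ n ^ 2 := by nlinarith
  have hbase1 : (1 : ℝ) ≤ (n : ℝ) ^ 2 := by nlinarith
  have hlog0 : 0 ≤ Real.log n := Real.log_nonneg (by linarith)
  have hpow : (Fintype.card A * 2 ^ z + 1 : ℝ) ^ m ≤ Real.exp (6 * x * Real.log n) := by
    calc (Fintype.card A * 2 ^ z + 1 : ℝ) ^ m ≤ ((n : ℝ) ^ 2) ^ m := by gcongr
      _ = Real.exp (2 * m * Real.log n) := by
          rw [← pow_mul, ← Real.exp_log hn0, ← Real.exp_nat_mul, Real.log_exp]
          push_cast; ring_nf
      _ ≤ Real.exp (6 * x * Real.log n) := by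
          refine Real.exp_le_exp.2 (mul_le_mul_of_nonneg_right ?_ hlog0)
          linarith
  have hkey : Real.log 4 + 6 * x * Real.log n < n / (256 * x) := by
    rw [lt_div_iff₀ (by positivity)]
    linarith
  have hlog4 : Real.exp (Real.log 4) = 4 := Real.exp_log (by norm_num)
  have hs1 : 2 * (Fintype.card A * 2 ^ z + 1 : ℝ) ^ m * Real.exp (-(M * P0 ^ z / 4)) < 1 := by
    have h1 : (n : ℝ) / (256 * x) ≤ M * P0 ^ z / 4 := by
      calc (n : ℝ) / (256 * x) = n / 64 * (1 / x) / 4 := by field_simp; ring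
        _ ≤ n / 64 * P0 ^ z / 4 := by gcongr
    have h2 : 4 * Real.exp (6 * x * Real.log n) * Real.exp (-(M * P0 ^ z / 4)) < 1 := by
      calc 4 * Real.exp (6 * x * Real.log n) * Real.exp (-(M * P0 ^ z / 4))
          = Real.exp (Real.log 4 + 6 * x * Real.log n + -(M * P0 ^ z / 4)) := by
            rw [Real.exp_add, Real.exp_add, hlog4]
        _ < 1 := by rw [Real.exp_lt_one_iff]; linarith
    have h3 : 0 < Real.exp (6 * x * Real.log n) * Real.exp (-(M * P0 ^ z / 4)) := by positivity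
    calc 2 * (Fintype.card A * 2 ^ z + 1 : ℝ) ^ m * Real.exp (-(M * P0 ^ z / 4))
        ≤ 2 * Real.exp (6 * x * Real.log n) * Real.exp (-(M * P0 ^ z / 4)) := by gcongr
      _ ≤ 4 * Real.exp (6 * x * Real.log n) * Real.exp (-(M * P0 ^ z / 4)) := by nlinarith
      _ < 1 := h2
  have hs2 : (Fintype.card A * 2 ^ z + 1 : ℝ) ^ m *
      Real.exp (-(Fintype.card V * P0 ^ z / 8)) ≤ 1 / 4 := by
    have h1 : (n : ℝ) / (256 * x) ≤ Fintype.card V * P0 ^ z / 8 := by
      calc (n : ℝ) / (256 * x) ≤ n / 2 * (1 / x) / 8 := by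
            rw [div_le_iff₀ (by positivity)]
            have : (n : ℝ) / 2 * (1 / x) / 8 * (256 * x) = 16 * n := by field_simp; ring
            rw [this]; linarith
        _ ≤ Fintype.card V * P0 ^ z / 8 := by gcongr
    have h2 : 4 * Real.exp (6 * x * Real.log n) * Real.exp (-(Fintype.card V * P0 ^ z / 8)) ≤ 1 := by
      calc 4 * Real.exp (6 * x * Real.log n) * Real.exp (-(Fintype.card V * P0 ^ z / 8))
          = Real.exp (Real.log 4 + 6 * x * Real.log n + -(Fintype.card V * P0 ^ z / 8)) := by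
            rw [Real.exp_add, Real.exp_add, hlog4]
        _ ≤ 1 := by rw [Real.exp_le_one_iff]; linarith
    calc (Fintype.card A * 2 ^ z + 1 : ℝ) ^ m * Real.exp (-(Fintype.card V * P0 ^ z / 8))
        ≤ Real.exp (6 * x * Real.log n) * Real.exp (-(Fintype.card V * P0 ^ z / 8)) := by gcongr
      _ ≤ 1 / 4 := by linarith
  have hVM : 8 * M ≤ Fintype.card V := by rw [hM]; linarith
  have hm2' : (2 : ℝ) ≤ m * P0 ^ z := by
    calc (2 : ℝ) = 2 * x * (1 / x) := by field_simp
      _ ≤ m * P0 ^ z := by gcongr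
  have hM0 : 0 ≤ M := by positivity
  have hq0 : 0 ≤ 2 * P0 - P0 ^ 2 := by nlinarith
  have hqP : 2 * P0 - P0 ^ 2 ≤ P := by
    have h1 : P0 ≤ w := by
      rw [hP0def, div_le_iff₀ (by positivity)]; nlinarith
    have h2 : 128 * K * p = 2 * w := by rw [hw]; ring
    nlinarith [sq_nonneg P0]
  obtain ⟨c, hc⟩ := hub_core (V := V) S z m hz hP00 hP01 hM0 hdom hVM hm2' hs1 hs2
  refine ⟨c, fun i => (hc i).trans ?_⟩
  refine Tr.prob_mono_p hq0 hqP hP1 _ ?_
  rintro ω ω' h ⟨g, hg, hgω⟩
  exact ⟨g, hg, fun v b hb hbi => h _ (hgω v b hb hbi)⟩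

end Crest.Agent.R052.Hub
end

-- ▼ part R052/HubWrap
section

/-!
# Hub class: domination of the random halves, graph-level wrapper
-/

set_option autoImplicit false

open Finset
open Crest.FinProb Crest.CombinatoricsR.RandomGraph

namespace Crest.Agent.R052.HubWrap

open Crest.Agent.R052.Odds Crest.Agent.R052.Union

variable {A B : Type} [Fintype A] [Fintype B] [DecidableEq B]





/-- **(W3)** transport to the random graph: cores are placed by `pos`, leaves are matched into the
complement of the range of `pos`. -/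
theorem hub_graph {W : Type} [Fintype W] [DecidableEq W] {n : ℕ} (hW : Fintype.card W ≤ n)
    (A B : Finset W) (hAB : Disjoint A B) (F : SimpleGraph W)
    (hF : ∀ u v, F.Adj u v → (u ∈ A ∧ v ∈ B) ∨ (u ∈ B ∧ v ∈ A)) {P : ℝ} (hP0 : 0 ≤ P)
    (hP1 : P ≤ 1) (pos : {b // b ∈ B} → Fin n) (hpos : Function.Injective pos) :
    bernoulliProb P {ω : {x : Fin n // ∀ b, x ≠ pos b} × {b // b ∈ B} → Bool |
      ∃ g : {v // v ∈ A} → {x : Fin n // ∀ b, x ≠ pos b}, Function.Injective g ∧
        ∀ (v : {v // v ∈ A}) (b : {b // b ∈ B}), F.Adj v.1 b.1 → ω (g v, b) = true} ≤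
      gnpProb n P {G | F.IsContained G} := by
  classical
  set e : {x : Fin n // ∀ b, x ≠ pos b} × {b // b ∈ B} → EdgeSlot n :=
    fun y => Gr.slot y.1.1 (pos y.2) (y.1.2 y.2) with he
  have he1 : Function.Injective e := by
    rintro ⟨x, b⟩ ⟨x', b'⟩ h
    rw [he] at h
    rcases (Gr.slot_eq_iff _ _).mp h with ⟨h1, h2⟩ | ⟨h1, h2⟩
    · exact Prod.ext (Subtype.ext h1) (hpos h2)
    · exact absurd h1 (x.2 b')
  rw [← Tr.prob_marginal e he1 P]
  unfold gnpProb
  refine Tr.prob_mono hP0 hP1 fun ω hω => ?_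
  obtain ⟨g, hg, hgω⟩ := hω
  show F.IsContained (graphOf ω)
  set f : W → Fin n := fun w => if h : w ∈ A then (g ⟨w, h⟩).1 else
    if h : w ∈ B then pos ⟨w, h⟩ else ⟨0, by
      have := Fintype.card_pos_iff.mpr ⟨w⟩
      omega⟩ with hf
  have hfA : ∀ w (h : w ∈ A), f w = (g ⟨w, h⟩).1 := fun w h => by rw [hf]; simp only [h, dif_pos]
  have hfB : ∀ w (h : w ∈ B), f w = pos ⟨w, h⟩ := fun w h => by
    have h' : w ∉ A := fun h2 => (Finset.disjoint_left.mp hAB) h2 h
    rw [hf]; simp only [h', h, dif_pos, dif_neg, not_false_iff]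
  refine Gr.isContained_of_partial hW (A ∪ B) f ?_ ?_ ?_
  · intro a ha b hb hab
    rw [Finset.mem_coe, mem_union] at ha hb
    rcases ha with ha | ha <;> rcases hb with hb | hb
    · rw [hfA a ha, hfA b hb] at hab
      exact congrArg Subtype.val (hg (Subtype.ext hab))
    · rw [hfA a ha, hfB b hb] at hab
      exact absurd hab ((g ⟨a, ha⟩).2 ⟨b, hb⟩)
    · rw [hfB a ha, hfA b hb] at hab
      exact absurd hab.symm ((g ⟨b, hb⟩).2 ⟨a, ha⟩)
    · rw [hfB a ha, hfB b hb] at hab
      exact congrArg Subtype.val (hpos hab)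
  · intro u v huv
    rw [mem_union]
    rcases hF u v huv with h | h
    · exact Or.inl h.1
    · exact Or.inr h.1
  · intro u v huv
    rcases hF u v huv with h | h
    · rw [hfA u h.1, hfB v h.2, Gr.graphOf_adj]
      exact ⟨(g ⟨u, h.1⟩).2 ⟨v, h.2⟩, hgω ⟨u, h.1⟩ ⟨v, h.2⟩ huv⟩
    · rw [hfB u h.1, hfA v h.2, SimpleGraph.adj_comm, Gr.graphOf_adj]
      exact ⟨(g ⟨v, h.2⟩).2 ⟨u, h.1⟩, hgω ⟨v, h.2⟩ ⟨u, h.1⟩ huv.symm⟩

end Crest.Agent.R052.HubWrap
end

-- ▼ part R052/HubClass

/-!
# Hub class: graph-level statement from the abstract hub lemma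
-/

set_option autoImplicit false

open Finset
open Crest.FinProb Crest.CombinatoricsR.RandomGraph

namespace Crest.Agent.R052.HubClass

open Crest.Agent.R052.Struct

/-- the abstract hub lemma with all numerics -/
def HubFinal (K L : ℝ) : Prop := ∃ n0 : ℕ, ∀ n ≥ n0, ∀ (A B V : Type) [Fintype A] [DecidableEq A]
  [Fintype B] [DecidableEq B] [Fintype V] [DecidableEq V] (p P : ℝ) (z : ℕ) (S : A → Finset B),
  64 * Fintype.card A ≤ n → n ≤ 2 * Fintype.card V → Fintype.card V ≤ n → 0 < p → p ≤ 1/2 →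
  (∀ v, (S v).card ≤ z) → 1 ≤ p^(10*z) * n →
  (∀ Z : Finset B, Z.Nonempty →
    ((Finset.univ.filter fun v => Z ⊆ S v).card : ℝ) ≤ K * n * p^Z.card) →
  L*K*p ≤ P → P ≤ 1 →
  ∃ c : A → Finset B, ∀ i : Bool, 3/4 ≤ Crest.FinProb.bernoulliProb P {ω : V × B → Bool |
    ∃ f : A → V, Function.Injective f ∧ ∀ v, ∀ b ∈ S v, (decide (b ∈ c v) = i) →
      ω (f v, b) = true}

theorem card_pool {n : ℕ} {β : Type} [Fintype β] [DecidableEq β] (pos : β → Fin n)
    (hpos : Function.Injective pos) :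
    Fintype.card {x : Fin n // ∀ b, x ≠ pos b} = n - Fintype.card β := by
  classical
  rw [Fintype.card_subtype]
  have h1 : (univ.filter fun x : Fin n => ∀ b, x ≠ pos b) = univ \ (univ.image pos) := by
    ext x
    simp only [mem_filter, mem_univ, true_and, mem_sdiff, mem_image, not_exists]
    exact ⟨fun h b hb => h b hb.symm, fun h b hb => h b hb.symm⟩
  rw [h1, Finset.card_sdiff_of_subset (Finset.subset_univ _), Finset.card_univ, Fintype.card_fin,
    Finset.card_image_of_injective _ hpos, Finset.card_univ]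

theorem hub_of (L : ℝ) (hL : 1 ≤ L) (hfin : HubFinal 30 L) :
    ∃ n0 : ℕ, ∃ L : ℝ, 1 ≤ L ∧ ∀ n ≥ n0, ∀ (W : Type) [Fintype W] [DecidableEq W]
    (A B : Finset W) (S : W → Finset W) (p : ℝ) (z : ℕ),
    Fintype.card W ≤ n → Disjoint A B → 64 * A.card ≤ n → 4 * B.card ≤ n →
    0 < p → L * p ≤ 1 → 1 ≤ p ^ (64 * z) * n →
    (∀ v ∈ A, S v ⊆ B) → (∀ v ∈ A, (S v).card ≤ z) →
    (∀ Z : Finset W, Z.Nonempty → Z.card ≤ z →
      ((A.filter fun v => Z ⊆ S v).card : ℝ) ≤ 30 * n * p ^ Z.card) →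
    Splits n (L * p) (SimpleGraph.fromRel fun v b => v ∈ A ∧ b ∈ S v) 2 := by
  classical
  obtain ⟨n0, hn0⟩ := hfin
  refine ⟨n0, L * 30, by linarith, fun n hn W _ _ A B S p z hW hAB hA hB hp hLp hz hSB hSz hZ => ?_⟩
  have hp2 : p ≤ 1 / 2 := by nlinarith
  have hp1 : p ≤ 1 := by linarith
  -- positions of the cores
  have hcardB : Fintype.card {b // b ∈ B} ≤ Fintype.card (Fin n) := by
    rw [Fintype.card_coe, Fintype.card_fin]; omega
  obtain ⟨posE⟩ := Function.Embedding.nonempty_of_card_le hcardB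
  let pos : {b // b ∈ B} → Fin n := fun b => posE b
  have hpos : Function.Injective pos := posE.injective
  have hV := card_pool pos hpos
  rw [Fintype.card_coe] at hV
  let S' : {v // v ∈ A} → Finset {b // b ∈ B} := fun v => univ.filter fun b => b.1 ∈ S v.1
  have hS'mem : ∀ (v : {v // v ∈ A}) (b : {b // b ∈ B}), b ∈ S' v ↔ b.1 ∈ S v.1 := by
    intro v b; simp [S']
  have hS'card : ∀ v, (S' v).card ≤ z := by
    intro v
    refine le_trans ?_ (hSz v.1 v.2)
    refine Finset.card_le_card_of_injOn (fun b => b.1) (fun b hb => ?_)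
      (fun a _ b _ h => Subtype.ext h)
    exact (hS'mem v b).mp hb
  have hz10 : 1 ≤ p ^ (10 * z) * (n : ℝ) := by
    refine hz.trans ?_
    refine mul_le_mul_of_nonneg_right ?_ (Nat.cast_nonneg n)
    exact pow_le_pow_of_le_one hp.le hp1 (by omega)
  have hZ' : ∀ Z : Finset {b // b ∈ B}, Z.Nonempty →
      ((univ.filter fun v => Z ⊆ S' v).card : ℝ) ≤ 30 * n * p ^ Z.card := by
    intro Z hZne
    by_cases hZz : Z.card ≤ z
    · have h1 := hZ (Z.map (Function.Embedding.subtype _)) (by simpa using hZne)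
        (by rw [Finset.card_map]; exact hZz)
      rw [Finset.card_map] at h1
      refine le_trans ?_ h1
      have h2 : (univ.filter fun v => Z ⊆ S' v).card ≤
          (A.filter fun v => Z.map (Function.Embedding.subtype _) ⊆ S v).card := by
        refine Finset.card_le_card_of_injOn (fun v => v.1) (fun v hv => ?_)
          (fun a _ b _ h => Subtype.ext h)
        have hv' := (Finset.mem_filter.mp (Finset.mem_coe.mp hv)).2
        rw [Finset.mem_coe, mem_filter]
        refine ⟨v.2, fun b hb => ?_⟩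
        obtain ⟨b', hb', rfl⟩ := Finset.mem_map.mp hb
        exact (hS'mem v b').mp (hv' hb')
      exact_mod_cast h2
    · have h0 : (univ.filter fun v => Z ⊆ S' v) = ∅ := by
        rw [Finset.filter_eq_empty_iff]
        intro v _ hv
        exact hZz ((Finset.card_le_card hv).trans (hS'card v))
      rw [h0]
      simp only [Finset.card_empty, Nat.cast_zero]
      positivity
  obtain ⟨c, hc⟩ := hn0 n hn {v // v ∈ A} {b // b ∈ B} {x : Fin n // ∀ b, x ≠ pos b}
    p (L * 30 * p) z S' (by rw [Fintype.card_coe]; exact hA)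
    (by rw [hV]; omega) (by rw [hV]; omega) hp hp2 hS'card hz10 hZ' le_rfl hLp
  -- the labelling
  let lab : Sym2 W → Fin 2 := fun e =>
    if ∃ (v : {v // v ∈ A}) (b : {b // b ∈ B}), e = s(v.1, b.1) ∧ b ∈ c v then 1 else 0
  have hlab : ∀ (v : {v // v ∈ A}) (b : {b // b ∈ B}), lab s(v.1, b.1) = 1 ↔ b ∈ c v := by
    intro v b
    simp only [lab]
    constructor
    · intro h
      by_cases h1 : ∃ (v' : {v // v ∈ A}) (b' : {b // b ∈ B}), s(v.1, b.1) = s(v'.1, b'.1) ∧
          b' ∈ c v'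
      · obtain ⟨v', b', h2, h3⟩ := h1
        rcases Sym2.eq_iff.mp h2 with ⟨h4, h5⟩ | ⟨h4, h5⟩
        · rw [Subtype.ext h4, Subtype.ext h5]; exact h3
        · exact absurd b'.2 (fun h6 => (Finset.disjoint_left.mp hAB) v.2 (h4 ▸ h6))
      · rw [if_neg h1] at h
        exact absurd h (by decide)
    · intro h
      rw [if_pos ⟨v, b, rfl, h⟩]
  refine ⟨lab, fun i => ?_⟩
  have h34 := hc (decide (i = 1))
  refine le_trans (by norm_num) (h34.trans ?_)
  have hLp0 : 0 ≤ L * 30 * p := by positivity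
  refine le_trans ?_ (HubWrap.hub_graph hW A B hAB
    (SimpleGraph.fromEdgeSet {e | e ∈ (SimpleGraph.fromRel fun v b => v ∈ A ∧ b ∈ S v).edgeSet ∧
      lab e = i}) ?_ hLp0 hLp pos hpos)
  · refine Tr.prob_mono hLp0 hLp fun ω hω => ?_
    obtain ⟨g, hg, hgω⟩ := hω
    refine ⟨g, hg, fun v b hvb => ?_⟩
    rw [SimpleGraph.fromEdgeSet_adj] at hvb
    obtain ⟨⟨h1, h2⟩, -⟩ := hvb
    rw [SimpleGraph.mem_edgeSet, SimpleGraph.fromRel_adj] at h1
    have h3 : b.1 ∈ S v.1 := by
      rcases h1.2 with h4 | h4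
      · exact h4.2
      · exact absurd b.2 (fun h6 => (Finset.disjoint_left.mp hAB) h4.1 h6)
    refine hgω v b ((hS'mem v b).mpr h3) ?_
    have h5 := hlab v b
    by_cases h6 : b ∈ c v
    · have h7 : lab s(v.1, b.1) = 1 := h5.mpr h6
      rw [h2] at h7
      simp [h6, h7]
    · have h7 : lab s(v.1, b.1) ≠ 1 := fun h => h6 (h5.mp h)
      rw [h2] at h7
      simp [h6, h7]
  · intro u v huv
    rw [SimpleGraph.fromEdgeSet_adj] at huv
    obtain ⟨⟨h1, -⟩, -⟩ := huv
    rw [SimpleGraph.mem_edgeSet, SimpleGraph.fromRel_adj] at h1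
    rcases h1.2 with h4 | h4
    · exact Or.inl ⟨h4.1, hSB u h4.1 h4.2⟩
    · exact Or.inr ⟨hSB v h4.1 h4.2, h4.1⟩

end Crest.Agent.R052.HubClass
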